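import Crest.Agent.N067.H.Hardy
import Crest.Agent.N067.Y.Defs
import Crest.Agent.N067.M.FlatU
import Crest.Agent.N067.Y.StG
import Crest.Agent.N067.M.Bas
import Crest.Agent.N067.M.FL
import Crest.Agent.N067.W.Dat

-- ▼ part N067/H/Wt
section

/-!
# Row 67, block MI (helper39): the weight `W = ϱ^(-γ) (1 + |x - c|² / R²)^(-5)`
-/

set_option autoImplicit false

open MeasureTheory Laplacian InnerProductSpace Topology Filter Set
open scoped RealInnerProductSpace Gradient ContDiff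

namespace Crest.Agent.N067.H

open Crest.Agent.R077

noncomputable section

variable {n : ℕ} {γ r0 R : ℝ} {I : Finset (Fin n)} {c : EE n}

/-- `1 + |x - c|² / R²` -/
def oq (c : EE n) (R : ℝ) (x : EE n) : ℝ := 1 + ‖x - c‖ ^ 2 / R ^ 2

/-- the weight -/
def WW (γ : ℝ) (I : Finset (Fin n)) (c : EE n) (r0 R : ℝ) (x : EE n) : ℝ :=
  rh I c r0 x ^ (-γ) * (oq c R x ^ 5)⁻¹

/-- the gradient of `-5 log oq` -/
def V2 (c : EE n) (R : ℝ) (x : EE n) : EE n := (-(10 / (R ^ 2 + ‖x - c‖ ^ 2))) • (x - c)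

theorem one_le_oq (c : EE n) (R : ℝ) (x : EE n) : 1 ≤ oq c R x :=
  le_add_of_nonneg_right (by positivity)

theorem oq_pos (c : EE n) (R : ℝ) (x : EE n) : 0 < oq c R x := one_pos.trans_le (one_le_oq c R x)

theorem cd_oq (c : EE n) (R : ℝ) : ContDiff ℝ ∞ (oq c R) :=
  contDiff_const.add (((contDiff_id.sub contDiff_const).norm_sq ℝ).div_const _)

theorem WW_pos (hr : 0 < r0) (x : EE n) : 0 < WW γ I c r0 R x :=
  mul_pos (Real.rpow_pos_of_pos (rh_pos hr x) _) (inv_pos.2 (pow_pos (oq_pos c R x) 5))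

theorem WW_eq (hr : 0 < r0) : WW γ I c r0 R =
    fun x => Real.exp (-γ * lr I c r0 x - 5 * Real.log (oq c R x)) := by
  funext x
  rw [WW, Real.exp_sub, Real.rpow_def_of_pos (rh_pos hr x), lr, mul_comm (-γ), div_eq_mul_inv,
    show (5 : ℝ) = ((5 : ℕ) : ℝ) by norm_num, ← Real.log_pow, Real.exp_log (pow_pos (oq_pos c R x) 5)]

theorem cd_lW (hr : 0 < r0) :
    ContDiff ℝ ∞ fun x => -γ * lr I c r0 x - 5 * Real.log (oq c R x) :=
  (contDiff_const.mul (cd_lr hr)).sub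
    (contDiff_const.mul ((cd_oq c R).log fun x => (oq_pos c R x).ne'))

theorem cd_WW (hr : 0 < r0) : ContDiff ℝ ∞ (WW γ I c r0 R) := by
  rw [WW_eq hr]; exact (cd_lW hr).exp

theorem grad_WW (hr : 0 < r0) (hR : 0 < R) (x : EE n) :
    ∇ (WW γ I c r0 R) x = WW γ I c r0 R x • ((-γ) • ∇ (lr I c r0) x + V2 c R x) := by
  ext j
  have d1 := (cd_lr (I := I) (c := c) hr).differentiable (by simp) x
  have d2 := (cd_oq c R).differentiable (by simp) x
  have h0 := oq_pos c R x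
  have e1 : pdv j (oq c R) x = 2 * (x j - c j) / R ^ 2 := by
    have e : oq c R = fun y => (R ^ 2)⁻¹ * ‖y - c‖ ^ 2 + 1 := funext fun y => by rw [oq]; ring
    rw [e, pdv_add_const, pdv_const_mul (f := fun y => ‖y - c‖ ^ 2)
      (((contDiff_id.sub contDiff_const).norm_sq ℝ (n := 1)).differentiable (by simp) x),
      pdv_normSq]
    ring
  rw [grad_apply]
  conv_lhs => rw [WW_eq hr]
  rw [pdv_comp (Real.hasDerivAt_exp _) ((cd_lW hr).differentiable (by simp) x),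
    pdv_sub (d1.const_mul _) ((d2.log h0.ne').const_mul _), pdv_const_mul d1,
    pdv_const_mul (d2.log h0.ne'), pdv_comp (Real.hasDerivAt_log h0.ne') d2, e1, WW_eq hr]
  simp only [PiLp.smul_apply, PiLp.add_apply, grad_apply, V2, smul_eq_mul, PiLp.sub_apply, oq]
  field_simp
  ring

theorem norm_V2 (hR : 0 < R) (x : EE n) : ‖V2 c R x‖ = 10 * ‖x - c‖ / (R ^ 2 + ‖x - c‖ ^ 2) := by
  rw [V2, norm_smul, norm_neg, Real.norm_of_nonneg (by positivity)]; ring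

theorem norm_V2_le (hR : 0 < R) (x : EE n) : ‖V2 c R x‖ ≤ 5 / R := by
  rw [norm_V2 hR, div_le_div_iff₀ (by positivity) hR]
  nlinarith [sq_nonneg (R - ‖x - c‖)]

theorem norm_V2_le' (hr : 0 < r0) (hR : r0 ≤ R) (x : EE n) :
    ‖V2 c R x‖ ≤ 20 * (rh I c r0 x)⁻¹ := by
  have hR0 := hr.trans_le hR
  have h1 := rh_le I c hr.le x
  have h2 := rh_pos (I := I) (c := c) hr x
  rw [norm_V2 hR0, ← div_eq_mul_inv, div_le_div_iff₀ (by positivity) h2]
  have h3 := norm_nonneg (x - c)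
  have h4 : ‖x - c‖ * rh I c r0 x ≤ ‖x - c‖ * (R + ‖x - c‖) := by gcongr; linarith
  nlinarith [sq_nonneg (R - ‖x - c‖)]

theorem norm_grad_WW (hγ : 0 ≤ γ) (hr : 0 < r0) (hR : r0 ≤ R) (x : EE n) :
    ‖∇ (WW γ I c r0 R) x‖ ≤ (γ + 20) * (rh I c r0 x)⁻¹ * WW γ I c r0 R x := by
  have h0 := WW_pos (γ := γ) (I := I) (c := c) (R := R) hr x
  rw [grad_WW hr (hr.trans_le hR), norm_smul, Real.norm_of_nonneg h0.le, mul_comm]
  gcongr
  refine (norm_add_le _ _).trans ?_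
  rw [norm_smul, norm_neg, Real.norm_of_nonneg hγ, add_mul]
  exact add_le_add (mul_le_mul_of_nonneg_left (norm_grad_lr hr x) hγ) (norm_V2_le' hr hR x)

theorem norm_grad_rh (hr : 0 < r0) (x : EE n) : ‖fderiv ℝ (rh I c r0) x‖ ≤ 1 := by
  have h0 := rh_pos (I := I) (c := c) hr x
  have e : rh I c r0 = fun x => Real.exp (lr I c r0 x) :=
    funext fun y => (Real.exp_log (rh_pos hr y)).symm
  have d1 := (cd_lr (I := I) (c := c) hr).differentiable (by simp) x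
  have h1 := d1.hasFDerivAt.exp.fderiv
  rw [← e] at h1
  rw [h1, norm_smul, ← norm_grad, lr, Real.exp_log h0, Real.norm_of_nonneg h0.le]
  calc _ ≤ rh I c r0 x * (rh I c r0 x)⁻¹ := by gcongr; exact norm_grad_lr hr x
    _ = 1 := mul_inv_cancel₀ h0.ne'

theorem rh_lip (hr : 0 < r0) (x y : EE n) : rh I c r0 x ≤ rh I c r0 y + ‖x - y‖ := by
  have h := (lipschitzWith_of_nnnorm_fderiv_le (C := 1) (𝕜 := ℝ)
    ((cd_rh (I := I) (c := c) hr).differentiable (by simp))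
    fun x => by exact_mod_cast norm_grad_rh hr x).dist_le_mul x y
  rw [Real.dist_eq, dist_eq_norm, NNReal.coe_one, one_mul] at h
  linarith [(abs_le.1 h).2]

theorem rh_mono {r1 : ℝ} (hr : 0 ≤ r0) (h : r0 ≤ r1) (x : EE n) : rh I c r0 x ≤ rh I c r1 x :=
  Real.sqrt_le_sqrt (by gcongr)

/-- enlarging `r0` to `r1` changes `ϱ` by a factor at most two where `ϱ ≥ r1` -/
theorem rh_le_two {r1 : ℝ} (hr1 : 0 ≤ r1) {x : EE n} (h : r1 ≤ rh I c r0 x) :
    rh I c r1 x ≤ 2 * rh I c r0 x := by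
  have h0 := hr1.trans h
  refine (pow_le_pow_iff_left₀ (Real.sqrt_nonneg _) (by positivity) two_ne_zero).1 ?_
  change rh I c r1 x ^ 2 ≤ _
  have h1 := rh_sq (I := I) (c := c) (r0 := r0) x
  have h2 : r1 ^ 2 ≤ rh I c r0 x ^ 2 := by gcongr
  rw [rh_sq, mul_pow]
  nlinarith [sq_nonneg r0, sq_nonneg r1]

theorem oq_le (hR : 1 ≤ R) (x y : EE n) : oq c R y ≤ (1 + ‖x - y‖) ^ 2 * oq c R x := by
  have hR0 : 0 < R := one_pos.trans_le hR
  have h1 : ‖y - c‖ ≤ ‖x - c‖ + ‖x - y‖ := by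
    calc ‖y - c‖ = ‖(x - c) - (x - y)‖ := by congr 1; abel
      _ ≤ _ := norm_sub_le _ _
  have h2 : ‖y - c‖ / R ≤ ‖x - c‖ / R + ‖x - y‖ := by
    refine (div_le_div_of_nonneg_right h1 hR0.le).trans ?_
    rw [add_div]; gcongr; exact div_le_self (norm_nonneg _) hR
  simp only [oq, ← div_pow]
  have h3 : 0 ≤ ‖x - c‖ / R := by positivity
  have h4 : (‖y - c‖ / R) ^ 2 ≤ (‖x - c‖ / R + ‖x - y‖) ^ 2 := by gcongr
  have h5 := norm_nonneg (x - y)
  generalize ‖x - c‖ / R = a at *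
  generalize ‖x - y‖ = D at *
  nlinarith [mul_nonneg h5 (sq_nonneg (a - 1)), mul_nonneg h5 h3, sq_nonneg (a * D)]

theorem WW_cmp (hγ : 0 ≤ γ) (hγ2 : γ ≤ 2) (hr : 1 ≤ r0) (hR : 1 ≤ R) (x y : EE n) :
    WW γ I c r0 R x ≤ (1 + ‖x - y‖) ^ 12 * WW γ I c r0 R y := by
  have hr0 : 0 < r0 := one_pos.trans_le hr
  have hD : 1 ≤ 1 + ‖x - y‖ := le_add_of_nonneg_right (norm_nonneg _)
  have a1 := rh_pos (I := I) (c := c) hr0 x
  have a2 := rh_pos (I := I) (c := c) hr0 y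
  have h1 : rh I c r0 y ≤ (1 + ‖x - y‖) * rh I c r0 x := by
    have := rh_lip (I := I) (c := c) hr0 y x
    rw [norm_sub_rev] at this
    nlinarith [hr.trans (le_rh I c x), norm_nonneg (x - y)]
  have h2 : rh I c r0 x ^ (-γ) ≤ (1 + ‖x - y‖) ^ 2 * rh I c r0 y ^ (-γ) := by
    have h3 : rh I c r0 y ^ γ ≤ (1 + ‖x - y‖) ^ 2 * rh I c r0 x ^ γ := by
      calc _ ≤ ((1 + ‖x - y‖) * rh I c r0 x) ^ γ := by gcongr
        _ = (1 + ‖x - y‖) ^ γ * rh I c r0 x ^ γ := Real.mul_rpow (by positivity) a1.le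
        _ ≤ _ := by
            gcongr
            rw [← Real.rpow_two]; exact Real.rpow_le_rpow_of_exponent_le hD hγ2
    rw [Real.rpow_neg a1.le, Real.rpow_neg a2.le, ← div_eq_mul_inv, le_div_iff₀ (by positivity),
      inv_mul_le_iff₀ (by positivity), mul_comm]
    exact h3
  have b1 := oq_pos c R x
  have b2 := oq_pos c R y
  have h4 : (oq c R x ^ 5)⁻¹ ≤ (1 + ‖x - y‖) ^ 10 * (oq c R y ^ 5)⁻¹ := by
    rw [← div_eq_mul_inv, le_div_iff₀ (by positivity), inv_mul_le_iff₀ (by positivity)]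
    calc _ ≤ ((1 + ‖x - y‖) ^ 2 * oq c R x) ^ 5 := by gcongr; exact oq_le hR x y
      _ = _ := by ring
  calc _ ≤ ((1 + ‖x - y‖) ^ 2 * rh I c r0 y ^ (-γ)) * ((1 + ‖x - y‖) ^ 10 * (oq c R y ^ 5)⁻¹) := by
        unfold WW; gcongr
    _ = _ := by unfold WW; ring

theorem WW_sq (hr : 0 < r0) (x : EE n) :
    WW γ I c r0 R x ^ 2 = rh I c r0 x ^ (-(2 * γ)) * (oq c R x ^ 10)⁻¹ := by
  have a1 := rh_pos (I := I) (c := c) hr x
  rw [WW, mul_pow, ← Real.rpow_two, ← Real.rpow_mul a1.le, inv_pow, ← pow_mul]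
  congr 2; ring

theorem WW_sq_le (hr : 0 < r0) (hR : 0 < R) (x : EE n) :
    WW γ I c r0 R x ^ 2 ≤ 1024 * (rh I c r0 x ^ (-(2 * γ)) * Om c R x) := by
  have a1 := rh_pos (I := I) (c := c) hr x
  have b1 := oq_pos c R x
  have h1 : (1 + ‖x - c‖ / R) ^ 2 ≤ 2 * oq c R x := by
    rw [oq, ← div_pow]; nlinarith [sq_nonneg (‖x - c‖ / R - 1)]
  rw [WW_sq hr, mul_left_comm]
  gcongr
  rw [Om, ← div_eq_mul_inv, le_div_iff₀ (by positivity), inv_mul_le_iff₀ (by positivity)]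
  calc _ = ((1 + ‖x - c‖ / R) ^ 2) ^ 10 := by ring
    _ ≤ (2 * oq c R x) ^ 10 := by gcongr
    _ = _ := by ring

theorem le_WW_sq (hr : 0 < r0) {x : EE n} (hx : x ∈ Metric.ball c R) :
    rh I c r0 x ^ (-(2 * γ)) ≤ 1024 * WW γ I c r0 R x ^ 2 := by
  have a1 := rh_pos (I := I) (c := c) hr x
  have b1 := oq_pos c R x
  rw [mem_ball_iff_norm] at hx
  have hR : 0 < R := (norm_nonneg _).trans_lt hx
  have h1 : oq c R x ≤ 2 := by
    have : ‖x - c‖ ^ 2 / R ^ 2 ≤ 1 := by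
      rw [div_le_one (by positivity)]; gcongr
    rw [oq]; linarith
  rw [WW_sq hr, mul_left_comm]
  refine le_mul_of_one_le_right (by positivity) ?_
  rw [← div_eq_mul_inv, one_le_div (by positivity)]
  calc _ ≤ (2 : ℝ) ^ 10 := by gcongr
    _ = _ := by norm_num

theorem WW_le_one (hγ : 0 ≤ γ) (hr : 1 ≤ r0) (x : EE n) : WW γ I c r0 R x ≤ (oq c R x ^ 5)⁻¹ :=
  mul_le_of_le_one_left (inv_pos.2 (pow_pos (oq_pos c R x) 5)).le
    (Real.rpow_le_one_of_one_le_of_nonpos (hr.trans (le_rh I c x)) (by linarith))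

theorem WW_dec (hγ : 0 ≤ γ) (hr : 1 ≤ r0) (hR : 1 ≤ R) :
    ∃ A : ℝ, 0 < A ∧ ∀ x, WW γ I c r0 R x ≤ A * ((1 + ‖x‖) ^ 10)⁻¹ := by
  have hR0 : 0 < R := one_pos.trans_le hR
  refine ⟨(2 * R ^ 2 * (1 + ‖c‖) ^ 2) ^ 5, by positivity, fun x => (WW_le_one hγ hr x).trans ?_⟩
  have b1 := oq_pos c R x
  have h1 : 1 + ‖x‖ ≤ (1 + ‖c‖) * (1 + ‖x - c‖) := by
    have : ‖x‖ ≤ ‖x - c‖ + ‖c‖ := by simpa using norm_add_le (x - c) c
    nlinarith [mul_nonneg (norm_nonneg c) (norm_nonneg (x - c))]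
  have h2 : (1 + ‖x - c‖) ^ 2 ≤ 2 * R ^ 2 * oq c R x := by
    have e : R ^ 2 * oq c R x = R ^ 2 + ‖x - c‖ ^ 2 := by rw [oq]; field_simp
    have : 1 ≤ R ^ 2 := one_le_pow₀ hR
    nlinarith [sq_nonneg (‖x - c‖ - 1)]
  rw [← div_eq_mul_inv, le_div_iff₀ (by positivity), inv_mul_le_iff₀ (by positivity)]
  calc (1 + ‖x‖) ^ 10 ≤ ((1 + ‖c‖) * (1 + ‖x - c‖)) ^ 10 := by gcongr
    _ = ((1 + ‖c‖) ^ 2 * (1 + ‖x - c‖) ^ 2) ^ 5 := by ring
    _ ≤ ((1 + ‖c‖) ^ 2 * (2 * R ^ 2 * oq c R x)) ^ 5 := by gcongr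
    _ = _ := by ring

theorem integrable_dec (hn : n ≤ 9) : Integrable fun x : EE n => ((1 + ‖x‖) ^ 10)⁻¹ := by
  have h := integrable_one_add_norm (E := EE n) (μ := volume) (r := 10) (by
    rw [finrank_euclideanSpace_fin]
    have : (n : ℝ) ≤ 9 := by exact_mod_cast hn
    linarith)
  refine h.congr (ae_of_all _ fun x => ?_)
  simp only
  rw [Real.rpow_neg (by positivity), show (10 : ℝ) = ((10 : ℕ) : ℝ) by norm_num, Real.rpow_natCast]

theorem integrable_WW (hn : n ≤ 9) (hγ : 0 ≤ γ) (hr : 1 ≤ r0) (hR : 1 ≤ R) :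
    Integrable (WW γ I c r0 R) := by
  obtain ⟨A, -, hA⟩ := WW_dec (I := I) (c := c) hγ hr hR
  have hr0 : 0 < r0 := one_pos.trans_le hr
  exact ((integrable_dec hn).const_mul A).mono' (cd_WW hr0).continuous.aestronglyMeasurable
    (ae_of_all _ fun x => by rw [Real.norm_of_nonneg (WW_pos hr0 x).le]; exact hA x)

theorem WW_le_one' (hγ : 0 ≤ γ) (hr : 1 ≤ r0) (x : EE n) : WW γ I c r0 R x ≤ 1 :=
  (WW_le_one hγ hr x).trans (inv_le_one_of_one_le₀ (one_le_pow₀ (one_le_oq c R x)))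

theorem integrable_WW_sq (hn : n ≤ 9) (hγ : 0 ≤ γ) (hr : 1 ≤ r0) (hR : 1 ≤ R) :
    Integrable fun x => WW γ I c r0 R x ^ 2 := by
  have hr0 : 0 < r0 := one_pos.trans_le hr
  refine (integrable_WW (I := I) (c := c) hn hγ hr hR).mono'
    ((cd_WW hr0).continuous.pow 2).aestronglyMeasurable (ae_of_all _ fun x => ?_)
  have h0 := WW_pos (γ := γ) (I := I) (c := c) (R := R) hr0 x
  rw [Real.norm_of_nonneg (by positivity), sq]
  exact mul_le_of_le_one_left h0.le (WW_le_one' hγ hr x)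

theorem norm_grad_WW_sq (hγ : 0 ≤ γ) (hr : 0 < r0) (hR : r0 ≤ R) (x : EE n) :
    ‖∇ (fun y => WW γ I c r0 R y ^ 2) x‖ ≤
      2 * (γ + 20) * (rh I c r0 x)⁻¹ * WW γ I c r0 R x ^ 2 := by
  have h0 := WW_pos (γ := γ) (I := I) (c := c) (R := R) hr x
  have d1 := (cd_WW (γ := γ) (I := I) (c := c) (R := R) hr).differentiable (by simp) x
  have e : ∇ (fun y => WW γ I c r0 R y ^ 2) x = (2 * WW γ I c r0 R x) • ∇ (WW γ I c r0 R) x := by
    ext j
    rw [grad_apply, pdv_sq d1, PiLp.smul_apply, grad_apply, smul_eq_mul]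
  rw [e, norm_smul, Real.norm_of_nonneg (by positivity)]
  calc _ ≤ 2 * WW γ I c r0 R x * ((γ + 20) * (rh I c r0 x)⁻¹ * WW γ I c r0 R x) := by
        gcongr; exact norm_grad_WW hγ hr hR x
    _ = _ := by ring

/-- `W²` is an SSY weight -/
theorem wt_WW_sq (hn : n ≤ 9) (hγ : 0 ≤ γ) (hr : 1 ≤ r0) (hR : r0 ≤ R) {lam : ℝ}
    (hl : 2 * (γ + 20) / r0 ≤ lam) : Y.Wt lam fun x => WW γ I c r0 R x ^ 2 := by
  have hr0 : 0 < r0 := one_pos.trans_le hr
  refine ⟨(contDiff_infty.1 (cd_WW hr0) 1).pow 2, fun x => pow_pos (WW_pos hr0 x) 2,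
    integrable_WW_sq hn hγ hr (hr.trans hR), fun x => (norm_grad_WW_sq hγ hr0 hR x).trans ?_⟩
  gcongr
  refine le_trans ?_ hl
  rw [div_eq_mul_inv]
  gcongr
  exact le_rh I c x

/-- enlarging `r0` decreases the weight -/
theorem WW_anti (hγ : 0 ≤ γ) (hr : 0 < r0) {r1 : ℝ} (h : r0 ≤ r1) (x : EE n) :
    WW γ I c r1 R x ≤ WW γ I c r0 R x := by
  have b1 := oq_pos c R x
  unfold WW
  gcongr ?_ * _
  exact Real.rpow_le_rpow_of_nonpos (rh_pos hr x) (rh_mono hr.le h x) (by linarith)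

theorem WW_le_four (hγ : 0 ≤ γ) (hγ2 : γ ≤ 2) {r1 : ℝ} (hr1 : 0 < r1) {x : EE n}
    (h : r1 ≤ rh I c r0 x) : WW γ I c r0 R x ≤ 4 * WW γ I c r1 R x := by
  have b1 := oq_pos c R x
  have a1 := hr1.trans_le h
  have a2 := rh_pos (I := I) (c := c) hr1 x
  have h1 : (2 * rh I c r0 x) ^ (-γ) ≤ rh I c r1 x ^ (-γ) :=
    Real.rpow_le_rpow_of_nonpos a2 (rh_le_two hr1.le h) (by linarith)
  have h2 : (1 : ℝ) ≤ 4 * 2 ^ (-γ) := by
    have : (2 : ℝ) ^ (-2 : ℝ) ≤ 2 ^ (-γ) := Real.rpow_le_rpow_of_exponent_le one_le_two (by linarith)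
    rw [Real.rpow_neg zero_le_two, Real.rpow_two] at this
    linarith
  rw [Real.mul_rpow zero_le_two a1.le] at h1
  unfold WW
  rw [← mul_assoc]
  gcongr ?_ * _
  have : 0 < rh I c r0 x ^ (-γ) := by positivity
  nlinarith

end

end Crest.Agent.N067.H
end

-- ▼ part N067/M/That
section

/-! # Row 67, block That (helper72): the depth of the cut, `that n : ThatStmt n` -/

set_option autoImplicit false
set_option linter.dupNamespace false

open MeasureTheory Laplacian InnerProductSpace Topology Filter Set Metric Convolution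
open scoped RealInnerProductSpace Gradient ContDiff ENNReal

namespace Crest.Agent.N067.M

open Crest.Agent.R077 Crest.Agent.N067.V Crest.Agent.N067.Y

noncomputable section

variable {n : ℕ} {v w : EE n → ℝ} {A : ℝ}

theorem ft_cd (hv : Sol v) : ContDiff ℝ 1 (ft v) :=
  contDiff_id.sub ((hv.dd_cd 1).smul (St.grad_cd hv))

theorem norm_fderiv_ft (hv : Sol v) (x : EE n) :
    ‖fderiv ℝ (ft v) x‖ ≤ 2 + |dd v x| * Bn v x := by
  have h := (hasFDerivAt_id x).sub ((hv.dd_diff x).hasFDerivAt.smul (St.hasFDerivAt_grad hv x))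
  rw [show ft v = id - dd v • ∇ (dd v) from rfl, h.fderiv]
  refine (norm_sub_le _ _).trans ((add_le_add ContinuousLinearMap.norm_id_le
    (norm_add_le _ _)).trans ?_)
  rw [norm_smul, ContinuousLinearMap.norm_smulRight_apply, ← norm_grad, Real.norm_eq_abs]
  have h1 := hv.norm_grad_dd_le x
  have h2 := mul_le_mul_of_nonneg_left (St.norm_Bm hv x) (abs_nonneg (dd v x))
  have h3 := mul_le_one₀ h1 (norm_nonneg _) h1
  unfold Bn
  linarith

/-- the average against the bump -/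
def bav (φ : ContDiffBump (0 : EE n)) (w : EE n → ℝ) (p : EE n) : ℝ :=
  ∫ y, φ.normed volume (p - y) * w y

variable (φ : ContDiffBump (0 : EE n))

theorem bav_eq (w : EE n → ℝ) :
    bav φ w = φ.normed volume ⋆[ContinuousLinearMap.mul ℝ ℝ, volume] w :=
  funext fun _ => convolution_mul_swap.symm

theorem bav_eq' (w : EE n → ℝ) : bav φ w = fun p => ∫ t, φ.normed volume t * w (p - t) := by
  rw [bav_eq]; rfl

theorem bav_cd (hw : Measurable w) (hA : ∀ y, |w y| ≤ A) : ContDiff ℝ 1 (bav φ w) := by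
  rw [bav_eq]
  exact φ.hasCompactSupport_normed.contDiff_convolution_left _ φ.contDiff_normed
    ((memLp_top_of_bound hw.aestronglyMeasurable A (ae_of_all _ hA)).locallyIntegrable le_top)

theorem normed_zero (h : φ.rOut ≤ 1) {t : EE n} (ht : 1 ≤ ‖t‖) : φ.normed volume t = 0 := by
  rw [← Function.notMem_support, φ.support_normed_eq, mem_ball_zero_iff, not_lt]
  exact h.trans ht

theorem int_bav (hw : Measurable w) (hA : ∀ y, |w y| ≤ A) (p : EE n) :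
    Integrable fun y => φ.normed volume (p - y) * w y :=
  (φ.integrable_normed.comp_sub_left p).mul_bdd hw.aestronglyMeasurable (ae_of_all _ hA)

theorem bav_le (h : φ.rOut ≤ 1) (hw : Measurable w) (hA : ∀ y, |w y| ≤ A) (p : EE n) :
    ∃ y ∈ ball p 1, bav φ w p ≤ w y := by
  by_contra hcon
  push Not at hcon
  have i1 := (φ.integrable_normed (μ := volume).comp_sub_left p).mul_const (bav φ w p)
  have h0 : ∀ y, 0 ≤ φ.normed volume (p - y) * bav φ w p - φ.normed volume (p - y) * w y := fun y => by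
    rw [← mul_sub]
    by_cases hy : y ∈ ball p 1
    · exact mul_nonneg (φ.nonneg_normed _) (sub_nonneg.2 (hcon y hy).le)
    · rw [normed_zero φ h (by rwa [mem_ball_iff_norm', not_lt] at hy), zero_mul]
  have h1 := (integral_pos_iff_support_of_nonneg h0 (i1.sub (int_bav φ hw hA p))).2
    ((measure_ball_pos volume p φ.rOut_pos).trans_le (measure_mono fun y hy => by
      rw [Function.mem_support, ← mul_sub]
      refine mul_ne_zero ?_ (sub_pos.2 (hcon y (ball_subset_ball h hy))).ne'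
      rw [← Function.mem_support, φ.support_normed_eq, mem_ball_zero_iff]
      exact mem_ball_iff_norm'.1 hy))
  rw [integral_sub i1 (int_bav φ hw hA p), integral_mul_const,
    integral_sub_left_eq_self (φ.normed volume), φ.integral_normed, one_mul] at h1
  exact h1.ne' (sub_self _)

theorem le_bav (h : φ.rOut ≤ 1) (hw : Measurable w) (hA : ∀ y, |w y| ≤ A) (p : EE n) :
    ∃ y ∈ ball p 1, w y ≤ bav φ w p := by
  obtain ⟨y, hy, h1⟩ := bav_le φ h (w := fun y => -w y) hw.neg (A := A) (fun y => by rw [abs_neg]; exact hA y) p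
  refine ⟨y, hy, ?_⟩
  simpa only [bav, mul_neg, integral_neg, neg_le_neg_iff] using h1

theorem bav_lip (h : φ.rOut ≤ 1) : ∃ C : ℝ, 0 ≤ C ∧ ∀ (w : EE n → ℝ) (A : ℝ), Measurable w →
    (∀ y, |w y| ≤ A) → ∀ (p q : EE n) (a : ℝ), ‖p - q‖ ≤ 1 → (∀ y ∈ ball p 2, |w y| ≤ a) →
      |bav φ w p - bav φ w q| ≤ C * a * ‖p - q‖ := by
  obtain ⟨L, hL⟩ := ContDiff.lipschitzWith_of_hasCompactSupport
    (φ.hasCompactSupport_normed (μ := volume)) (φ.contDiff_normed (n := 1)) (by simp)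
  refine ⟨L * volume.real (ball (0 : EE n) 2), by positivity, fun w A hw hA p q a hpq ha => ?_⟩
  have a0 : 0 ≤ a := (abs_nonneg _).trans (ha p (mem_ball_self two_pos))
  rw [bav, bav, ← integral_sub (int_bav φ hw hA p) (int_bav φ hw hA q),
    ← setIntegral_eq_integral_of_forall_compl_eq_zero (s := ball p 2) fun y hy => ?_]
  · rw [← Real.norm_eq_abs]
    refine (norm_setIntegral_le_of_norm_le_const
      (C := L * ‖p - q‖ * a) measure_ball_lt_top fun y hy => ?_).trans_eq ?_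
    · rw [← sub_mul, norm_mul]
      refine mul_le_mul ?_ (ha y hy) (norm_nonneg _) (by positivity)
      simpa only [dist_eq_norm, sub_sub_sub_cancel_right] using hL.dist_le_mul (p - y) (q - y)
    · rw [measureReal_def, measureReal_def, Measure.addHaar_ball_center]
      ring
  · rw [mem_ball_iff_norm', not_lt] at hy
    rw [normed_zero φ h (by linarith), normed_zero φ h
      (by linarith [norm_sub_le_norm_sub_add_norm_sub p q y]), zero_mul, sub_zero]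

theorem bav_grad (h : φ.rOut ≤ 1) : ∃ C : ℝ, 0 ≤ C ∧ ∀ (w : EE n → ℝ) (A : ℝ), Measurable w →
    (∀ y, |w y| ≤ A) → ∀ p : EE n, LocallyLipschitzOn (ball p 2) w →
      ENNReal.ofReal (‖fderiv ℝ (bav φ w) p‖ ^ 2) ≤
        ENNReal.ofReal C * ∫⁻ y in ball p 1, ENNReal.ofReal (gsq w y) := by
  obtain ⟨S, hS⟩ := φ.continuous_normed.bounded_above_of_compact_support
    (φ.hasCompactSupport_normed (μ := volume))
  refine ⟨S, (norm_nonneg _).trans (hS 0), fun w A hw hA p hl => ?_⟩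
  obtain ⟨K, hK⟩ := (hl.mono (closedBall_subset_ball (by norm_num : (3 : ℝ) / 2 < 2))
    ).exists_lipschitzOnWith_of_compact (isCompact_closedBall p (3 / 2))
  have g0 := φ.nonneg_normed (μ := volume)
  have gi := φ.integrable_normed (μ := volume)
  have mem : ∀ q ∈ ball p (1 / 2), ∀ t : EE n, ‖t‖ < 1 → q - t ∈ ball p (3 / 2) := fun q hq t ht => by
    rw [mem_ball_iff_norm] at hq ⊢
    rw [sub_right_comm]
    linarith [norm_sub_le (q - p) t]
  have p0 : p ∈ ball p (1 / 2) := mem_ball_self (by norm_num)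
  have mF : Measurable fun t => fderiv ℝ w (p - t) :=
    (measurable_fderiv ℝ w).comp (measurable_const.sub measurable_id)
  obtain ⟨-, hd⟩ := hasFDerivAt_integral_of_dominated_loc_of_lip' (𝕜 := ℝ) (μ := volume)
    (F := fun q t => φ.normed volume t * w (q - t))
    (F' := fun t => φ.normed volume t • fderiv ℝ w (p - t)) (bound := fun t => φ.normed volume t * K)
    (ball_mem_nhds p (by norm_num : (0 : ℝ) < 1 / 2))
    (fun q _ => (φ.continuous_normed.measurable.mul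
      (hw.comp (measurable_const.sub measurable_id))).aestronglyMeasurable)
    (gi.mul_bdd (hw.comp (measurable_const.sub measurable_id)).aestronglyMeasurable
      (ae_of_all _ fun t => hA _))
    (φ.continuous_normed.measurable.smul mF).aestronglyMeasurable
    (ae_of_all _ fun t q hq => by
      rcases lt_or_ge ‖t‖ 1 with ht | ht
      · rw [← mul_sub, norm_mul, Real.norm_of_nonneg (g0 t), mul_assoc]
        refine mul_le_mul_of_nonneg_left ?_ (g0 t)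
        simpa only [dist_eq_norm, sub_sub_sub_cancel_right] using hK.dist_le_mul _
          (ball_subset_closedBall (mem q hq t ht)) _ (ball_subset_closedBall (mem p p0 t ht))
      · simp [normed_zero φ h ht])
    (gi.mul_const _)
    (((Measure.measurePreserving_sub_left volume p).quasiMeasurePreserving.ae
      (ae_diff isOpen_ball hl)).mono fun t ht => by
      rcases lt_or_ge ‖t‖ 1 with h1 | h1
      · exact ((ht (ball_subset_ball (by norm_num) (mem p p0 t h1))).hasFDerivAt.comp p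
          ((hasFDerivAt_id p).sub_const t)).const_mul (φ.normed volume t)
      · simpa [normed_zero φ h h1] using hasFDerivAt_const (0 : ℝ) p)
  have hb : ∀ t : EE n, ‖t‖ < 1 → ‖fderiv ℝ w (p - t)‖ ≤ K := fun t ht =>
    norm_fderiv_le_of_lipschitzOn ℝ (closedBall_mem_nhds_of_mem (mem p p0 t ht)) hK
  have ik : ∀ k : ℕ, Integrable fun t => φ.normed volume t * ‖fderiv ℝ w (p - t)‖ ^ k := fun k =>
    (gi.mul_const (K ^ k)).mono' (φ.continuous_normed.measurable.mul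
      (mF.norm.pow_const k)).aestronglyMeasurable (ae_of_all _ fun t => by
      rcases lt_or_ge ‖t‖ 1 with ht | ht
      · rw [Real.norm_of_nonneg (mul_nonneg (g0 t) (by positivity))]
        exact mul_le_mul_of_nonneg_left (pow_le_pow_left₀ (norm_nonneg _) (hb t ht) k) (g0 t)
      · simp [normed_zero φ h ht])
  obtain ⟨m, hm⟩ : ∃ m, m = ∫ t, φ.normed volume t * ‖fderiv ℝ w (p - t)‖ ^ 1 := ⟨_, rfl⟩
  have h1 : ‖fderiv ℝ (bav φ w) p‖ ≤ m := by
    rw [bav_eq', hd.fderiv, hm]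
    refine (norm_integral_le_integral_norm _).trans_eq (integral_congr_ae (ae_of_all _ fun t => ?_))
    simp only [norm_smul, Real.norm_of_nonneg (g0 t), pow_one]
  have h2 := integral_mono ((ik 1).const_mul (2 * m)) ((ik 2).add (gi.const_mul (m ^ 2))) fun t => by
    have := mul_nonneg (g0 t) (sq_nonneg (‖fderiv ℝ w (p - t)‖ - m))
    simp only [Pi.add_apply]
    linarith
  rw [integral_const_mul, integral_add' (ik 2) (gi.const_mul _), integral_const_mul,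
    φ.integral_normed, ← hm] at h2
  refine (ENNReal.ofReal_le_ofReal ((pow_le_pow_left₀ (norm_nonneg _) h1 2).trans
    (show m ^ 2 ≤ ∫ t, φ.normed volume t * ‖fderiv ℝ w (p - t)‖ ^ 2 by linarith))).trans ?_
  rw [ofReal_integral_eq_lintegral_ofReal (ik 2) (ae_of_all _ fun t => mul_nonneg (g0 t) (sq_nonneg _)),
    ← lintegral_sub_left_eq_self _ p, ← lintegral_const_mul' _ _ ENNReal.ofReal_ne_top,
    ← lintegral_indicator measurableSet_ball]
  refine lintegral_mono fun y => ?_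
  by_cases hy : y ∈ ball p 1
  · rw [indicator_of_mem hy, ← ENNReal.ofReal_mul ((norm_nonneg _).trans (hS 0)), gsq_eq, norm_grad,
      sub_sub_cancel]
    exact ENNReal.ofReal_le_ofReal (mul_le_mul_of_nonneg_right ((le_abs_self _).trans (hS _))
      (sq_nonneg _))
  · rw [normed_zero φ h (by rwa [mem_ball_iff_norm', not_lt] at hy)]
    simp

theorem that (n : ℕ) : ThatStmt n := fun φ h => by
  obtain ⟨C1, p1, h1⟩ := bav_lip φ h
  obtain ⟨C2, p2, h2⟩ := bav_grad φ h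
  refine ⟨1 + C1 + 9 * C2, by linarith, fun v w A hv hw hA =>
    ⟨(bav_cd φ hw hA).comp (ft_cd hv), fun x => ⟨fun y a hy ha => ?_, bav_le φ h hw hA _,
      le_bav φ h hw hA _, fun hl hB => ?_⟩⟩⟩
  · have a0 : 0 ≤ a := (abs_nonneg _).trans (ha _ (mem_ball_self two_pos))
    exact (h1 w A hw hA _ _ a hy ha).trans (by gcongr; linarith)
  · have h3 : ‖∇ (That φ v w) x‖ ≤ ‖fderiv ℝ (bav φ w) (ft v x)‖ * 3 := by
      rw [norm_grad, show That φ v w = bav φ w ∘ ft v from rfl,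
        fderiv_comp x ((bav_cd φ hw hA).differentiable (by simp) _)
          ((ft_cd hv).differentiable (by simp) x)]
      exact (ContinuousLinearMap.opNorm_comp_le _ _).trans (mul_le_mul_of_nonneg_left
        ((norm_fderiv_ft hv x).trans (by linarith)) (norm_nonneg _))
    calc ENNReal.ofReal (‖∇ (That φ v w) x‖ ^ 2)
        ≤ ENNReal.ofReal 9 * ENNReal.ofReal (‖fderiv ℝ (bav φ w) (ft v x)‖ ^ 2) := by
          rw [← ENNReal.ofReal_mul (by norm_num)]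
          exact ENNReal.ofReal_le_ofReal
            ((pow_le_pow_left₀ (norm_nonneg _) h3 2).trans_eq (by ring))
      _ ≤ ENNReal.ofReal 9 * (ENNReal.ofReal C2 * _) := by gcongr; exact h2 w A hw hA _ hl
      _ ≤ _ := by
          rw [← mul_assoc, ← ENNReal.ofReal_mul (by norm_num)]
          gcongr
          linarith

end

end Crest.Agent.N067.M
end

-- ▼ part N067/H/Th
section

/-!
# Row 67, block MI (helper39): the depth of the cut

`w = C1 clamp (-log U, log M², log (f0 / 80))` on `Om`, `Th = That φ v w`.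
-/

set_option autoImplicit false
set_option linter.dupNamespace false

open MeasureTheory InnerProductSpace Topology Filter Set Metric
open scoped RealInnerProductSpace Gradient ContDiff ENNReal

namespace Crest.Agent.N067.M

open Crest.Agent.R077 Crest.Agent.N067.V

noncomputable section

variable {n : ℕ}

theorem ll_comp_on {E F G : Type*} [PseudoMetricSpace E] [PseudoMetricSpace F]
    [PseudoMetricSpace G] {Ω : Set E} {s : Set F} {u : E → F} {f : F → G}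
    (hu : LocallyLipschitzOn Ω u) (hf : LocallyLipschitzOn s f) (h : MapsTo u Ω s) :
    LocallyLipschitzOn Ω fun x => f (u x) := by
  intro x hx
  obtain ⟨K, t, ht, h1⟩ := hu hx
  obtain ⟨K', t', ht', h2⟩ := hf (h hx)
  refine ⟨K' * K, t ∩ u ⁻¹' t', inter_mem ht ?_,
    h2.comp (h1.mono inter_subset_left) fun _ hy => hy.2⟩
  exact (tendsto_nhdsWithin_iff.2 ⟨hu.continuousOn x hx, eventually_nhdsWithin_of_forall h⟩) ht'

/-- gluing: Lipschitz on the open set `Ω`, locally constant at the other points of `T` -/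
theorem ll_glue {T Ω : Set (EE n)} {f g : EE n → ℝ} {a : ℝ} (hΩ : IsOpen Ω)
    (hg : LocallyLipschitzOn Ω g) (h1 : ∀ x ∈ Ω, f x = g x)
    (h2 : ∀ x ∈ T, x ∉ Ω → ∀ᶠ y in 𝓝 x, f y = a) : LocallyLipschitzOn T f := by
  intro x hx
  by_cases h : x ∈ Ω
  · obtain ⟨K, t, ht, h3⟩ := hg h
    rw [hΩ.nhdsWithin_eq h] at ht
    refine ⟨K, t ∩ Ω, mem_nhdsWithin_of_mem_nhds (inter_mem ht (hΩ.mem_nhds h)), ?_⟩
    intro y hy z hz
    rw [h1 y hy.2, h1 z hz.2]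
    exact h3 hy.1 hz.1
  · refine ⟨0, {y | f y = a}, mem_nhdsWithin_of_mem_nhds (h2 x hx h), fun y hy z hz => ?_⟩
    rw [show f y = a from hy, show f z = a from hz]; simp

theorem exists_polylog (Λ C2 : ℝ) : ∃ M0 : ℝ, 11 ≤ M0 ∧ ∀ ρ, M0 ≤ ρ →
    Λ * (3 + C2 * Real.log ρ) ^ 6 ≤ ρ := by
  have h1 := (Real.isLittleO_pow_log_id_atTop (n := 6)).bound
    (c := ((|Λ| + 1) * (3 + |C2|) ^ 6)⁻¹) (by positivity)
  obtain ⟨M, hM⟩ := eventually_atTop.1 (h1.and (Real.tendsto_log_atTop.eventually_ge_atTop 1))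
  refine ⟨max M 11, le_max_right _ _, fun ρ h => ?_⟩
  obtain ⟨h2, h3⟩ := hM ρ ((le_max_left _ _).trans h)
  have h0 : 0 < ρ := by linarith [(le_max_right _ _).trans h]
  rw [id, Real.norm_of_nonneg h0.le, Real.norm_of_nonneg (by positivity), inv_mul_eq_div,
    le_div_iff₀ (by positivity)] at h2
  have h4 : |3 + C2 * Real.log ρ| ≤ (3 + |C2|) * Real.log ρ := by
    refine (abs_add_le _ _).trans ?_
    rw [abs_mul, abs_of_nonneg (by linarith : 0 ≤ Real.log ρ), abs_of_nonneg (by norm_num)]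
    nlinarith
  calc _ ≤ |Λ * (3 + C2 * Real.log ρ) ^ 6| := le_abs_self _
    _ = |Λ| * |3 + C2 * Real.log ρ| ^ 6 := by rw [abs_mul, abs_pow]
    _ ≤ (|Λ| + 1) * ((3 + |C2|) * Real.log ρ) ^ 6 := by gcongr; linarith
    _ = _ := by ring
    _ ≤ _ := h2

namespace Dat

variable (D : Dat n)

/-- `u = log U` -/
def lu (x : EE n) : ℝ := Real.log (D.U x)

open Classical in
/-- the shallow function whose average is the depth of the cut -/
def wf (C1 : ℝ) (y : EE n) : ℝ := C1 * max (Real.log (D.M ^ 2))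
  (if y ∈ D.Om then min (-D.lu y) (Real.log (D.f0 / 80)) else Real.log (D.M ^ 2))

/-- the data with the true depth of the cut -/
def cut (φ : ContDiffBump (0 : EE n)) (C1 : ℝ) : Dat n := { D with Th := That φ D.v (D.wf C1) }

/-- the data with a trivial depth -/
def triv (C1 : ℝ) : Dat n := { D with Th := fun _ => C1 * Real.log D.f0 }

/-- the closed set which carries the multipliers -/
def Supp : Set (EE n) := {x | |dd D.v x| ≤ D.Th x + 1 ∧ ph0 D.v x ≤ 1 / (2 * D.M)}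

/-- numerical hypotheses; `Cf` is the constant of `FLStmt.cmp`, `Ct` the one of `ThatStmt` -/
structure Nm (Cf Ct C1 : ℝ) : Prop where
  f1 : 1 ≤ Cf
  t1 : 1 ≤ Ct
  c1 : 1 ≤ C1
  c2 : 3 * C1 ≤ D.C2
  M9 : 11 ≤ D.M
  f0 : 80 * D.M ^ 2 ≤ D.f0
  big : ∀ ρ, D.M ≤ ρ → 10000 * Cf ^ 2 * Ct * C1 ^ 4 * (3 + D.C2 * Real.log ρ) ^ 6 ≤ ρ
  cmp : ∀ x y, ph0 D.v y ≤ Cf * (1 + ‖x - y‖) ^ 2 * ph0 D.v x ∧ tt D.v x ≤ Cf * ph0 D.v x ∧
    Bn D.v x ≤ Cf * ph0 D.v x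

end Dat

variable {D : Dat n} {K lam C1 rs Cf Ct : ℝ} {x y : EE n}

theorem one_lt_log {ρ : ℝ} (h : 11 ≤ ρ) : 2 ≤ Real.log ρ := by
  rw [Real.le_log_iff_exp_le (by linarith)]
  have := Real.exp_one_lt_d9
  rw [show (2 : ℝ) = 1 + 1 by norm_num, Real.exp_add]
  nlinarith [Real.exp_pos 1]

theorem norm_sub_ft (hv : Sol D.v) (x : EE n) : ‖x - ft D.v x‖ ≤ |dd D.v x| := by
  rw [ft, sub_sub_cancel, norm_smul]
  exact mul_le_of_le_one_right (norm_nonneg _) (hv.norm_grad_dd_le x)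

theorem norm_sub_near (hv : Sol D.v) {a : ℝ} (hy : y ∈ ball (ft D.v x) a) :
    ‖x - y‖ ≤ |dd D.v x| + a := by
  rw [mem_ball_iff_norm'] at hy
  calc ‖x - y‖ = ‖(x - ft D.v x) + (ft D.v x - y)‖ := by congr 1; abel
    _ ≤ _ := (norm_add_le _ _).trans (add_le_add (norm_sub_ft hv x) hy.le)

namespace Dat.Ok

variable (O : D.Ok K lam C1 rs) (B : D.Bas)
include O

theorem h_lipOn (hl : lam ≤ 3) : LipschitzOnWith 3 D.h (Ici 1) :=
  (convex_Ici 1).lipschitzOnWith_of_nnnorm_hasDerivWithin_le (f' := D.hd)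
    (fun r hr => (O.hpos r (one_pos.trans_le hr)).2.2.1.hasDerivWithinAt) fun r hr => by
      have h1 := O.hd_le hl hr
      have h2 := (O.hpos r (one_pos.trans_le hr)).2.1.trans ((div_le_one (one_pos.trans_le hr)).2 hr)
      rw [← NNReal.coe_le_coe, coe_nnnorm, Real.norm_eq_abs]
      push_cast; linarith

include B

theorem U_lip (hl : lam ≤ 3) : LocallyLipschitzOn D.Om D.U := by
  have key : ∀ {v : EE n → ℝ}, Sd D.β v D.ρm D.M D.Om →
      LocallyLipschitzOn D.Om fun x => D.h (rt D.β v D.ρm x) := fun {v} S => by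
    have h1 : LocallyLipschitzOn D.Om fun x => (ph D.β v D.ρm x)⁻¹ :=
      ll_comp (S.sc.locLip B.op) (F := fun s : ℝ => s⁻¹) fun x hx =>
        contDiffAt_inv ℝ (inv_ne_zero (by linarith [S.eight hx]))
    simp only [ph, inv_inv] at h1
    exact ll_comp_on h1 (fun r _ => ⟨3, Ici 1, self_mem_nhdsWithin, O.h_lipOn hl⟩)
      fun x hx => show (1 : ℝ) ≤ _ by linarith [S.eight hx]
  have mx : ∀ {a b : EE n → ℝ}, LocallyLipschitzOn D.Om a → LocallyLipschitzOn D.Om b →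
      LocallyLipschitzOn D.Om fun x => max (a x) (b x) := fun ha hb =>
    ll_lip (ll_prod ha hb) (F := fun z : ℝ × ℝ => max z.1 z.2)
      (LipschitzWith.prod_fst.max LipschitzWith.prod_snd)
  exact mx ((key B.p).add (key B.m))
    (ll_mul (ll_of_contDiffAt fun _ _ => contDiffAt_const) (mx (key B.p) (key B.m)))

theorem lu_lip (hl : lam ≤ 3) : LocallyLipschitzOn D.Om D.lu :=
  ll_comp (O.U_lip B hl) fun _ hx => Real.contDiffAt_log.2 (O.U_pos B hx).ne'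

/-- `U` dominates `ph0` unless both are below `1 / f0` -/
theorem U_ge (hx : x ∈ D.Om) (h : 2 / D.f0 ≤ ph0 D.v x) : 3 / 16 * ph0 D.v x ≤ D.U x := by
  have p0 := B.ph x
  have f0 := one_pos.trans_le O.f1
  have h1 := B.min_le hx
  have h3 : 0 < min (D.rp x) (D.rm x) := lt_min (by linarith [B.rp8 hx]) (by linarith [B.rm8 hx])
  have h2 : 2 * (1 / ph0 D.v x) ≤ D.f0 := by
    rw [mul_one_div, div_le_iff₀ p0]; rw [div_le_iff₀ f0] at h; linarith
  refine le_trans (le_of_eq ?_) ((O.hlow _ (by positivity) h2).1.trans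
    ((O.h_anti h3 h1).trans (O.hmin_le_U B hx)))
  field_simp; norm_num

/-- near the boundary of the valid set `U` is in the top range -/
theorem U_top (hf : 4 * D.M ≤ D.f0) (hx : x ∈ D.Om) (h : 1 / (2 * D.M) ≤ ph0 D.v x) :
    3 / (32 * D.M) ≤ D.U x := by
  have M0 : 0 < D.M := one_pos.trans_le B.M1
  have h1 : 2 / D.f0 ≤ 1 / (2 * D.M) := by
    rw [div_le_div_iff₀ (by linarith) (by positivity)]; linarith
  refine le_trans ?_ (O.U_ge B hx (h1.trans h))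
  calc 3 / (32 * D.M) = 3 / 16 * (1 / (2 * D.M)) := by field_simp; norm_num
    _ ≤ _ := by gcongr

theorem Z_top (hf : 4 * D.M ≤ D.f0) (h : 1 / (2 * D.M) ≤ ph0 D.v x) : D.Z x = 1 := by
  by_cases hx : x ∈ D.Om
  · rw [O.Z_eq B hx, O.ztop _ (O.U_top B hf hx h)]
  · exact if_neg hx

theorem meas_wf (C : ℝ) : Measurable (D.wf C) := by
  classical
  refine (measurable_const.max ?_).const_mul C
  exact ContinuousOn.measurable_piecewise (f := fun y => min (-D.lu y) (Real.log (D.f0 / 80)))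
    (g := fun _ => Real.log (D.M ^ 2)) (ContinuousOn.inf ((O.U_cont B).log fun x hx =>
      (O.U_pos B hx).ne').neg continuousOn_const) continuousOn_const B.op.measurableSet

variable (N : D.Nm Cf Ct C1)
include N

omit O B in
theorem le_wf (y : EE n) : C1 * Real.log (D.M ^ 2) ≤ D.wf C1 y :=
  mul_le_mul_of_nonneg_left (le_max_left _ _) (by linarith [N.c1])

omit O B in
theorem wf_nonneg (y : EE n) : 0 ≤ D.wf C1 y :=
  (mul_nonneg (by linarith [N.c1]) (Real.log_nonneg (one_le_pow₀ (by linarith [N.M9])))).trans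
    (le_wf N y)

omit O B in
theorem wf_le (y : EE n) : D.wf C1 y ≤ C1 * Real.log (D.f0 / 80) := by
  have h1 : Real.log (D.M ^ 2) ≤ Real.log (D.f0 / 80) :=
    Real.log_le_log (by have := N.M9; positivity) (by linarith [N.f0])
  refine mul_le_mul_of_nonneg_left (max_le h1 ?_) (by linarith [N.c1])
  split_ifs
  · exact min_le_right _ _
  · exact h1

theorem wf_le' (y : EE n) :
    D.wf C1 y ≤ C1 * max (Real.log (D.M ^ 2)) (Real.log (6 * (1 / ph0 D.v y))) := by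
  refine mul_le_mul_of_nonneg_left (max_le (le_max_left _ _) ?_) (by linarith [N.c1])
  have p0 := B.ph y
  have f0 := one_pos.trans_le O.f1
  split_ifs with h
  · refine le_max_of_le_right ?_
    rcases le_total (2 / D.f0) (ph0 D.v y) with h1 | h1
    · refine (min_le_left _ _).trans ?_
      have h2 := O.U_ge B h h1
      have h3 := O.U_pos B h
      rw [Dat.lu, ← Real.log_inv]
      refine Real.log_le_log (by positivity) ?_
      rw [mul_one_div, inv_eq_one_div, div_le_div_iff₀ h3 p0]; linarith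
    · refine (min_le_right _ _).trans (Real.log_le_log (by positivity) ?_)
      rw [le_div_iff₀ f0] at h1
      rw [mul_one_div, div_le_div_iff₀ (by norm_num) p0]; linarith
  · exact le_max_left _ _

omit O in
theorem rho_le (x y : EE n) : 1 / ph0 D.v y ≤ Cf * (1 + ‖x - y‖) ^ 2 * (1 / ph0 D.v x) := by
  have h := (N.cmp y x).1
  rw [norm_sub_rev] at h
  rw [mul_one_div, div_le_div_iff₀ (B.ph y) (B.ph x), one_mul]; exact h

omit O B in
/-- the useful consequences of the numerical hypothesis -/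
theorem num {ρ : ℝ} (h : D.M ≤ ρ) : 3 ≤ 3 + D.C2 * Real.log ρ ∧
    16 * Cf ^ 2 * (3 + D.C2 * Real.log ρ) ^ 4 ≤ ρ ∧ Ct * (3 + D.C2 * Real.log ρ) ≤ ρ ∧
    (96 * Cf * C1 ^ 2) ^ 2 < ρ := by
  have h0 := N.big ρ h
  have l0 := one_lt_log (N.M9.trans h)
  have c1 := N.c1
  have c2 := N.c2
  have f1 := N.f1
  have t1 := N.t1
  have h1 : 3 ≤ 3 + D.C2 * Real.log ρ := le_add_of_nonneg_right (mul_nonneg (by linarith) (by linarith))
  generalize 3 + D.C2 * Real.log ρ = l at *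
  have l1 : 1 ≤ l := by linarith
  have a1 : 1 ≤ Cf ^ 2 := one_le_pow₀ f1
  have a2 : 1 ≤ C1 ^ 4 := one_le_pow₀ c1
  refine ⟨h1, le_trans ?_ h0, le_trans ?_ h0, lt_of_lt_of_le ?_ h0⟩
  · calc _ = 16 * Cf ^ 2 * 1 * 1 * l ^ 4 := by ring
      _ ≤ _ := by gcongr <;> norm_num
  · calc _ = 1 * 1 * Ct * 1 * l ^ 1 := by ring
      _ ≤ _ := by gcongr <;> norm_num
  · calc _ = 9216 * Cf ^ 2 * 1 * C1 ^ 4 * 1 ^ 6 := by ring
      _ < 10000 * Cf ^ 2 * 1 * C1 ^ 4 * 1 ^ 6 := by gcongr; norm_num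
      _ ≤ _ := by gcongr

/-- shallow flat points are valid -/
theorem band_mem (h1 : |dd D.v y| < 3) (h2 : ph0 D.v y < 1 / D.M) : y ∈ D.Om := by
  have M9 := N.M9
  have h3 : D.M ≤ 1 / ph0 D.v y := ((lt_one_div (by linarith) (B.ph y)).2 h2).le
  have h4 := one_lt_log (M9.trans h3)
  refine ⟨h2, by nlinarith [N.c1, N.c2], ?_⟩
  nlinarith [N.f0, O.rm, O.f1]

omit O in
/-- the foot is shallow -/
theorem dd_ft (hx : x ∈ D.Om) : |dd D.v (ft D.v x)| ≤ 1 ∧ |dd D.v x| * Bn D.v x ≤ 1 := by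
  have p0 := B.ph x
  obtain ⟨a0, a1, -, -⟩ := num N (B.rho hx).le
  have h1 : |dd D.v x| ≤ 3 + D.C2 * Real.log (1 / ph0 D.v x) := by linarith [hx.2.1]
  generalize 3 + D.C2 * Real.log (1 / ph0 D.v x) = l at *
  have f1 := N.f1
  have d0 := abs_nonneg (dd D.v x)
  have h2 : 2 * Cf * l ^ 2 * ph0 D.v x ≤ 1 := by
    rw [le_div_iff₀ p0] at a1
    refine le_trans ?_ a1
    gcongr ?_ * _
    calc _ = 2 * Cf ^ 1 * l ^ 2 := by ring
      _ ≤ _ := by gcongr <;> first | linarith | norm_num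
  have h3 : |dd D.v x| * (Cf * ph0 D.v x) ≤ Cf * l ^ 2 * ph0 D.v x := by
    calc _ = Cf * |dd D.v x| * ph0 D.v x := by ring
      _ ≤ _ := by gcongr; nlinarith
  refine ⟨?_, (mul_le_mul_of_nonneg_left (N.cmp x x).2.2 d0).trans (by nlinarith)⟩
  have h4 := abs_tay_ph0 B.sol (-(dd D.v x • nn D.v x)) x
  have e : tay (dd D.v) (-(dd D.v x • nn D.v x)) x = dd D.v x * tt D.v x - dd D.v (ft D.v x) := by
    rw [tay, ← inner_grad, ← sub_eq_add_neg, inner_neg_right, real_inner_smul_right, nn,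
      real_inner_self_eq_norm_sq, tt, ft, nn]
    ring
  have h5 : ‖-(dd D.v x • nn D.v x)‖ ≤ l := by
    rw [norm_neg, norm_smul]
    exact (mul_le_of_le_one_right (norm_nonneg _) (B.sol.norm_grad_dd_le x)).trans h1
  have h6 : ph0 D.v x / 2 * ‖-(dd D.v x • nn D.v x)‖ ^ 2 ≤ Cf * l ^ 2 * ph0 D.v x := by
    calc _ ≤ ph0 D.v x / 2 * l ^ 2 := by gcongr
      _ ≤ _ := by nlinarith [mul_nonneg (sq_nonneg l) p0.le]
  have h7 : |dd D.v x * tt D.v x| ≤ Cf * l ^ 2 * ph0 D.v x := by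
    rw [abs_mul, abs_of_nonneg (B.sol.tt_nonneg x)]
    exact (mul_le_mul_of_nonneg_left (N.cmp x x).2.1 d0).trans h3
  rw [e] at h4
  have h8 := abs_sub_abs_le_abs_sub (dd D.v (ft D.v x)) (dd D.v x * tt D.v x)
  rw [abs_sub_comm] at h8
  linarith

omit O in
theorem dd_near (hx : x ∈ D.Om) {a : ℝ} (hy : y ∈ ball (ft D.v x) a) : |dd D.v y| < 1 + a := by
  have h1 := B.sol.abs_dd_sub_le y (ft D.v x)
  have h2 := abs_sub_abs_le_abs_sub (dd D.v y) (dd D.v (ft D.v x))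
  linarith [(dd_ft B N hx).1, mem_ball_iff_norm.1 hy]

/-- `w` near the foot of a valid point -/
theorem wf_near (hx : x ∈ D.Om) (hy : y ∈ ball (ft D.v x) 2) :
    D.wf C1 y ≤ 2 * C1 * Real.log (1 / ph0 D.v x) := by
  have r1 := (B.rho hx).le
  obtain ⟨a0, a1, -, -⟩ := num N r1
  have M9 := N.M9
  have f1 := N.f1
  have h1 : 1 + ‖x - y‖ ≤ 3 + D.C2 * Real.log (1 / ph0 D.v x) := by
    linarith [hx.2.1, norm_sub_near B.sol hy]
  have h2 := rho_le B N x y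
  have py := B.ph y
  refine (O.wf_le' B N y).trans ?_
  rw [mul_comm 2, mul_assoc, show 2 * Real.log (1 / ph0 D.v x) = Real.log ((1 / ph0 D.v x) ^ 2) by
    rw [Real.log_pow]; norm_num]
  refine mul_le_mul_of_nonneg_left (max_le (Real.log_le_log (by positivity) (by gcongr))
    (Real.log_le_log (by positivity) ?_)) (by linarith [N.c1])
  generalize 3 + D.C2 * Real.log (1 / ph0 D.v x) = l at *
  generalize 1 / ph0 D.v x = ρ at *
  have h3 : Cf * (1 + ‖x - y‖) ^ 2 * ρ ≤ Cf * l ^ 2 * ρ := by gcongr; linarith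
  have h4 : 6 * (Cf * l ^ 2) ≤ ρ := by
    refine le_trans ?_ a1
    calc _ = 6 * Cf ^ 1 * l ^ 2 := by ring
      _ ≤ _ := by gcongr <;> first | linarith | norm_num
  nlinarith

theorem wf_lip (hl : lam ≤ 3) : LocallyLipschitzOn {y | |dd D.v y| < 3} (D.wf C1) := by
  have M9 := N.M9
  refine ll_glue (a := C1 * Real.log (D.M ^ 2)) B.op (g := fun y => C1 * max (Real.log (D.M ^ 2))
    (min (-D.lu y) (Real.log (D.f0 / 80)))) ?_ (fun y hy => by rw [Dat.wf, if_pos hy])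
    fun y hy hn => ?_
  · exact ll_mul (ll_of_contDiffAt fun _ _ => contDiffAt_const)
      (ll_lip (O.lu_lip B hl) (F := fun s : ℝ => max (Real.log (D.M ^ 2))
        (min (-s) (Real.log (D.f0 / 80)))) ((LipschitzWith.id.neg.min_const _).const_max _))
  · have h1 : 1 / (2 * D.M) < ph0 D.v y := by
      refine lt_of_lt_of_le ?_ (not_lt.1 fun h => hn (O.band_mem B N hy h))
      exact one_div_lt_one_div_of_lt (by linarith) (by linarith)
    filter_upwards [(continuous_ph0 B.sol).continuousAt.eventually (lt_mem_nhds h1)] with z hz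
    rw [Dat.wf]
    split_ifs with h
    · have h2 := O.U_top B (by nlinarith [N.f0]) h hz.le
      rw [max_eq_left ((min_le_left _ _).trans ?_)]
      rw [Dat.lu, ← Real.log_inv]
      refine Real.log_le_log (inv_pos.2 (O.U_pos B h)) ?_
      rw [inv_le_comm₀ (O.U_pos B h) (by positivity)]
      refine le_trans ?_ h2
      rw [inv_eq_one_div, div_le_div_iff₀ (by positivity) (by positivity)]
      nlinarith
    · rw [max_self]

end Dat.Ok

end

end Crest.Agent.N067.M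
end

-- ▼ part N067/H/Th2
section

/-!
# Row 67, block MI (helper39): `D.cut` is admissible; support, gradient of the depth, test function
-/

set_option autoImplicit false
set_option linter.dupNamespace false

open MeasureTheory InnerProductSpace Topology Filter Set Metric
open scoped RealInnerProductSpace Gradient ContDiff ENNReal

namespace Crest.Agent.N067.M

open Crest.Agent.R077 Crest.Agent.N067.V

noncomputable section

variable {n : ℕ}

/-- the conclusion of `ThatStmt` -/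
def ThC (φ : ContDiffBump (0 : EE n)) (C : ℝ) : Prop :=
  ∀ (v w : EE n → ℝ) (A : ℝ), Sol v → Measurable w → (∀ y, |w y| ≤ A) →
    ContDiff ℝ 1 (That φ v w) ∧ ∀ x,
      (∀ (y : EE n) (a : ℝ), ‖ft v x - ft v y‖ ≤ 1 → (∀ y' ∈ ball (ft v x) 2, |w y'| ≤ a) →
        |That φ v w x - That φ v w y| ≤ C * a * ‖ft v x - ft v y‖) ∧
      (∃ y ∈ ball (ft v x) 1, That φ v w x ≤ w y) ∧ (∃ y ∈ ball (ft v x) 1, w y ≤ That φ v w x) ∧
      (LocallyLipschitzOn (ball (ft v x) 2) w → |dd v x| * Bn v x ≤ 1 →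
        ENNReal.ofReal (‖∇ (That φ v w) x‖ ^ 2) ≤
          ENNReal.ofReal C * ∫⁻ y in ball (ft v x) 1, ENNReal.ofReal (gsq w y))

/-- universal constants and the threshold for `M` -/
theorem exists_nm {n : ℕ} (φ : ContDiffBump (0 : EE n)) (hφ : φ.rOut ≤ 1) :
    ∃ Cf Ct : ℝ, 1 ≤ Ct ∧ ThC φ Ct ∧ ∀ C1 C2 : ℝ, 1 ≤ C1 → 3 * C1 ≤ C2 →
    ∃ M0 : ℝ, 11 ≤ M0 ∧ ∀ D : Dat n, PS D.v → D.C2 = C2 → M0 ≤ D.M → 80 * D.M ^ 2 ≤ D.f0 →
      D.Nm Cf Ct C1 := by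
  obtain ⟨Cf, f1, hf⟩ := (fl n).cmp
  obtain ⟨Ct, t1, ht⟩ := that n φ hφ
  refine ⟨Cf, Ct, t1, ht, fun C1 C2 h1 h2 => ?_⟩
  obtain ⟨M0, h3, h4⟩ := exists_polylog (10000 * Cf ^ 2 * Ct * C1 ^ 4) C2
  refine ⟨M0, h3, fun D hv e hM h5 => ⟨f1, t1, h1, e ▸ h2, h3.trans hM, h5,
    fun ρ hρ => e ▸ h4 ρ (hM.trans hρ), fun x y => ⟨(hf _ hv x y).1, (hf _ hv x y).2.1, ?_⟩⟩⟩
  simpa using (hf _ hv x x).2.2.2

open Classical in
/-- `|∇ log U|²` on the range where `w` is not constant -/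
def Dat.gX (D : Dat n) (y : EE n) : ℝ≥0∞ :=
  if y ∈ D.Om ∧ 80 / D.f0 ≤ D.U y ∧ D.U y ≤ 1 / D.M ^ 2 then ENNReal.ofReal (gsq D.lu y) else 0

variable {D : Dat n} {K lam C1 rs Cf Ct : ℝ} {x y : EE n} {φ : ContDiffBump (0 : EE n)}

theorem Dat.Bas.cut (B : D.Bas) (φ : ContDiffBump (0 : EE n)) (C1 : ℝ) : (D.cut φ C1).Bas :=
  ⟨B.pos, B.ph, B.M1, B.p, B.m⟩

theorem Dat.Bas.triv (B : D.Bas) (C1 : ℝ) : (D.triv C1).Bas := ⟨B.pos, B.ph, B.M1, B.p, B.m⟩

theorem Dat.Nm.cut (N : D.Nm Cf Ct C1) (φ : ContDiffBump (0 : EE n)) : (D.cut φ C1).Nm Cf Ct C1 :=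
  ⟨N.f1, N.t1, N.c1, N.c2, N.M9, N.f0, N.big, N.cmp⟩

/-- the four fields of `Ok` about `Th` for the trivial depth -/
theorem triv_fields (D : Dat n) (hv : Sol D.v) (h1 : 0 ≤ C1) (hf : 1 ≤ D.f0) :
    Measurable (D.triv C1).Th ∧ (∀ x ∈ (D.triv C1).In,
      C1 / 2 * Real.log (min (1 / ph0 D.v x) D.f0) ≤ (D.triv C1).Th x) ∧
    (∀ x, (D.triv C1).Th x ≤ C1 * Real.log D.f0) ∧
    ∀ x ∈ (D.triv C1).In, ∀ y, ‖ft D.v x - ft D.v y‖ ≤ 1 →
      |(D.triv C1).Th x - (D.triv C1).Th y| ≤ ‖ft D.v x - ft D.v y‖ / ph0 D.v x := by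
  refine ⟨measurable_const, fun x _ => ?_, fun _ => le_rfl, fun x _ y _ => ?_⟩
  · have h2 := Real.log_nonneg hf
    have h3 : Real.log (min (1 / ph0 D.v x) D.f0) ≤ Real.log D.f0 := by
      rcases (le_min (one_div_nonneg.2 (ph0_nonneg hv x)) (zero_le_one.trans hf)).eq_or_lt with e | e
      · rw [← e, Real.log_zero]; exact h2
      · exact Real.log_le_log e (min_le_right _ _)
    change _ ≤ C1 * Real.log D.f0
    nlinarith
  · have := ph0_nonneg hv x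
    simp only [Dat.triv, sub_self, abs_zero]
    positivity

namespace Dat.Ok

variable (O : D.Ok K lam C1 rs) (B : D.Bas) (N : D.Nm Cf Ct C1) (T : ThC φ Ct)
include O B N T

theorem thc : ContDiff ℝ 1 (D.cut φ C1).Th ∧ ∀ x,
    (∀ (y : EE n) (a : ℝ), ‖ft D.v x - ft D.v y‖ ≤ 1 →
      (∀ y' ∈ ball (ft D.v x) 2, |D.wf C1 y'| ≤ a) →
        |(D.cut φ C1).Th x - (D.cut φ C1).Th y| ≤ Ct * a * ‖ft D.v x - ft D.v y‖) ∧
      (∃ y ∈ ball (ft D.v x) 1, (D.cut φ C1).Th x ≤ D.wf C1 y) ∧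
      (∃ y ∈ ball (ft D.v x) 1, D.wf C1 y ≤ (D.cut φ C1).Th x) ∧
      (LocallyLipschitzOn (ball (ft D.v x) 2) (D.wf C1) → |dd D.v x| * Bn D.v x ≤ 1 →
        ENNReal.ofReal (‖∇ (D.cut φ C1).Th x‖ ^ 2) ≤
          ENNReal.ofReal Ct * ∫⁻ y in ball (ft D.v x) 1, ENNReal.ofReal (gsq (D.wf C1) y)) :=
  T D.v (D.wf C1) _ B.sol (O.meas_wf B C1) fun y => by
    rw [abs_of_nonneg (wf_nonneg N y)]; exact wf_le N y

theorem cut_cd : ContDiff ℝ 1 (D.cut φ C1).Th := (O.thc B N T).1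

theorem cut_ge (x : EE n) : C1 * Real.log (D.M ^ 2) ≤ (D.cut φ C1).Th x :=
  let ⟨y, _, h⟩ := ((O.thc B N T).2 x).2.2.1
  (le_wf N y).trans h

theorem cut_le (x : EE n) : (D.cut φ C1).Th x ≤ C1 * Real.log (D.f0 / 80) :=
  let ⟨y, _, h⟩ := ((O.thc B N T).2 x).2.1
  h.trans (wf_le N y)

theorem cut_le' (x : EE n) : (D.cut φ C1).Th x ≤ C1 * Real.log D.f0 := by
  have f0 := one_pos.trans_le O.f1
  exact (O.cut_le B N T x).trans (mul_le_mul_of_nonneg_left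
    (Real.log_le_log (by positivity) (by linarith)) (by linarith [N.c1]))

theorem cut_lo (hx : x ∈ D.Om) :
    C1 / 2 * Real.log (min (1 / ph0 D.v x) D.f0) ≤ (D.cut φ C1).Th x := by
  obtain ⟨y, hy, h⟩ := ((O.thc B N T).2 x).2.2.1
  refine le_trans ?_ h
  have r1 := (B.rho hx).le
  obtain ⟨a0, a1, -, -⟩ := num N r1
  have M9 := N.M9
  have f1 := N.f1
  have f0 := N.f0
  have h1 : 1 + ‖y - x‖ ≤ 3 + D.C2 * Real.log (1 / ph0 D.v x) := by
    rw [norm_sub_rev]; linarith [hx.2.1, norm_sub_near B.sol hy]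
  have h2 := rho_le B N y x
  have py : 0 < 1 / ph0 D.v y := one_div_pos.2 (B.ph y)
  have m0 : 0 < min (1 / ph0 D.v x) D.f0 := lt_min (by linarith) (by nlinarith)
  -- `ρ(x) ≤ ρ(y)² / 16`
  have h3 : 1 / ph0 D.v x ≤ (1 / ph0 D.v y / 4) ^ 2 := by
    generalize 3 + D.C2 * Real.log (1 / ph0 D.v x) = l at *
    generalize 1 / ph0 D.v x = ρ at *
    generalize 1 / ph0 D.v y = σ at *
    have h4 : ρ ≤ Cf * l ^ 2 * σ := h2.trans (by gcongr)
    have h5 : ρ ^ 2 ≤ (Cf * l ^ 2 * σ) ^ 2 := by gcongr; linarith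
    have h6 : 16 * Cf ^ 2 * l ^ 4 * σ ^ 2 ≤ ρ * σ ^ 2 := by gcongr
    have h7 : ρ * (16 * ρ) ≤ ρ * σ ^ 2 := by nlinarith
    have := le_of_mul_le_mul_left h7 (by linarith)
    nlinarith
  have key : ∀ a : ℝ, 0 < a → min (1 / ph0 D.v x) D.f0 ≤ a ^ 2 →
      1 / 2 * Real.log (min (1 / ph0 D.v x) D.f0) ≤ Real.log a := fun a _ h4 => by
    have := Real.log_le_log m0 h4
    rw [Real.log_pow] at this
    push_cast at this; linarith
  rw [show C1 / 2 = C1 * (1 / 2) by ring, mul_assoc]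
  refine mul_le_mul_of_nonneg_left ?_ (by linarith [N.c1])
  split_ifs with hy'
  · refine le_max_of_le_right (le_min ?_ (key _ (by nlinarith) ((min_le_right _ _).trans ?_)))
    · have u0 := O.U_pos B hy'
      rw [Dat.lu, ← Real.log_inv]
      refine key _ (inv_pos.2 u0) ?_
      have h4 := B.le_min hy'
      have h5 : 0 < min (D.rp y) (D.rm y) := lt_min (by linarith [B.rp8 hy']) (by linarith [B.rm8 hy'])
      have h6 : min (D.rp y) (D.rm y) / 2 ≤ (D.U y)⁻¹ := by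
        have := (O.U_le B hy').trans (mul_le_mul_of_nonneg_left (O.hpos _ h5).2.1 zero_le_two)
        rw [le_inv_comm₀ (by positivity) u0, inv_div]
        rwa [mul_one_div] at this
      rcases min_le_iff.1 (le_refl (min D.ρm (1 / ph0 D.v y / 2))) with e | e
      · have h7 : D.ρm / 2 ≤ (D.U y)⁻¹ := by linarith
        have h9 : 2 ≤ D.f0 := by nlinarith
        have h8 : D.f0 ≤ D.ρm / 2 := by nlinarith [O.rm]
        refine (min_le_right _ _).trans ?_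
        nlinarith [O.f1]
      · have h7 : 1 / ph0 D.v y / 4 ≤ (D.U y)⁻¹ := by linarith
        exact (min_le_left _ _).trans (h3.trans (by gcongr))
    · have : 6400 ≤ D.f0 := by nlinarith
      nlinarith
  · have h4 : 1 / ph0 D.v y ≤ D.M := by
      rw [one_div_le (B.ph y) (by linarith)]
      exact not_lt.1 fun h5 => hy' (O.band_mem B N (by linarith [dd_near B N hx hy]) h5)
    refine le_max_of_le_left (key _ (by positivity) ((min_le_left _ _).trans (h3.trans ?_)))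
    gcongr
    nlinarith

theorem cut_lip (hx : x ∈ D.Om) (hy : ‖ft D.v x - ft D.v y‖ ≤ 1) :
    |(D.cut φ C1).Th x - (D.cut φ C1).Th y| ≤ ‖ft D.v x - ft D.v y‖ / ph0 D.v x := by
  refine (((O.thc B N T).2 x).1 y (2 * C1 * Real.log (1 / ph0 D.v x)) hy fun y' h => by
    rw [abs_of_nonneg (wf_nonneg N y')]; exact O.wf_near B N hx h).trans ?_
  obtain ⟨-, -, a2, -⟩ := num N (B.rho hx).le
  have l0 := one_lt_log (N.M9.trans (B.rho hx).le)
  rw [div_eq_mul_one_div ‖_‖, mul_comm ‖_‖]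
  refine mul_le_mul_of_nonneg_right (le_trans (mul_le_mul_of_nonneg_left ?_
    (by linarith [N.t1])) a2) (norm_nonneg _)
  nlinarith [N.c1, N.c2]

/-- **the data with the true cut are admissible** -/
theorem cut_ok : (D.cut φ C1).Ok K lam C1 rs :=
  { O with
    Tmeas := (O.cut_cd B N T).continuous.measurable
    Tlo := fun _ hx => O.cut_lo B N T hx.1
    Thi := O.cut_le' B N T
    Tlip := fun _ hx _ hy => O.cut_lip B N T hx.1 hy }

/-- flat points above the cut are valid -/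
theorem mem_Om (h1 : |dd D.v x| ≤ (D.cut φ C1).Th x + 1) (h2 : ph0 D.v x < 1 / D.M) :
    x ∈ D.Om := by
  have M9 := N.M9
  have c1 := N.c1
  have c2 := N.c2
  have f1 := N.f1
  have r1 : D.M ≤ 1 / ph0 D.v x := ((lt_one_div (by linarith) (B.ph x)).2 h2).le
  obtain ⟨-, -, -, a3⟩ := num N r1
  have l0 := one_lt_log (M9.trans r1)
  refine ⟨h2, ?_, ?_⟩
  · obtain ⟨y, hy, h⟩ := ((O.thc B N T).2 x).2.1
    have h3 := h1.trans (add_le_add_left (h.trans (O.wf_le' B N y)) 1)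
    have d0 := abs_nonneg (dd D.v x)
    have h4 : 1 / ph0 D.v y ≤ Cf * (2 + |dd D.v x|) ^ 2 * (1 / ph0 D.v x) :=
      (rho_le B N x y).trans (by
        have := (B.ph x).le
        gcongr Cf * ?_ ^ 2 * _
        linarith [norm_sub_near B.sol hy])
    have py : 0 < 1 / ph0 D.v y := one_div_pos.2 (B.ph y)
    generalize 1 / ph0 D.v x = ρ at *
    generalize |dd D.v x| = d at *
    have h5 : 3 * C1 * Real.log ρ ≤ D.C2 * Real.log ρ := by gcongr
    rcases max_choice (Real.log (D.M ^ 2)) (Real.log (6 * (1 / ph0 D.v y))) with e | e <;>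
      rw [e] at h3
    · have h6 : Real.log (D.M ^ 2) ≤ 2 * Real.log ρ := by
        rw [Real.log_pow]; push_cast; gcongr
      nlinarith
    · have h6 : Real.log (6 * (1 / ph0 D.v y)) ≤
          Real.log (96 * Cf * C1 ^ 2) + 2 * Real.log ((2 + d) / (4 * C1)) + Real.log ρ := by
        rw [show 2 * Real.log ((2 + d) / (4 * C1)) = Real.log (((2 + d) / (4 * C1)) ^ 2) by
          rw [Real.log_pow]; norm_num, ← Real.log_mul (by positivity) (by positivity),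
          ← Real.log_mul (by positivity) (by linarith)]
        refine Real.log_le_log (by positivity) (le_trans (by gcongr) (le_of_eq
          (show 6 * (Cf * (2 + d) ^ 2 * ρ) = _ by field_simp; ring)))
      have h7 := Real.log_le_sub_one_of_pos (x := (2 + d) / (4 * C1)) (by positivity)
      have h8 : 2 * Real.log (96 * Cf * C1 ^ 2) < Real.log ρ := by
        have := Real.log_lt_log (by positivity) a3
        rwa [Real.log_pow] at this
      have h9 : C1 * ((2 + d) / (4 * C1)) = (2 + d) / 4 := by field_simp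
      have h10 : C1 * Real.log ((2 + d) / (4 * C1)) ≤ (2 + d) / 4 - C1 := by
        rw [← h9]; nlinarith
      nlinarith
  · have h3 := O.cut_le B N T x
    have f0 := N.f0
    have h4 := Real.log_le_sub_one_of_pos (x := D.f0 / 80) (by nlinarith)
    have h5 : C1 ≤ D.f0 := by
      have a4 := (num N (le_refl D.M)).2.2.2
      have : C1 ≤ 96 * Cf * C1 ^ 2 := by nlinarith
      nlinarith
    have h6 : C1 * Real.log (D.f0 / 80) ≤ D.f0 * (D.f0 / 80) := by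
      refine (mul_le_mul_of_nonneg_left (h4.trans (sub_le_self _ zero_le_one)) (by linarith)).trans ?_
      gcongr; nlinarith
    nlinarith [O.rm]


theorem Supp_sub : (D.cut φ C1).Supp ⊆ (D.cut φ C1).In := fun _ hx =>
  ⟨O.mem_Om B N T hx.1 (hx.2.trans_lt (one_div_lt_one_div_of_lt (by linarith [N.M9])
    (show D.M < 2 * D.M by linarith [N.M9]))), hx.1⟩


/-- a crude bound of the gradient of the depth -/
theorem grad_Th_bd (hx : x ∈ D.Om) :
    ‖∇ (D.cut φ C1).Th x‖ ≤ Ct * (C1 * Real.log (D.f0 / 80)) * 4 := by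
  have a0 : 0 ≤ Ct * (C1 * Real.log (D.f0 / 80)) :=
    mul_nonneg (by linarith [N.t1]) ((wf_nonneg N x).trans (wf_le N x))
  rw [norm_grad]
  refine norm_fderiv_le_of_lip' ℝ (by positivity) ?_
  have h1 := ((ft_cd B.sol).differentiable (by simp) x).hasFDerivAt.isLittleO.bound one_pos
  have h2 : ∀ᶠ y in 𝓝 x, ‖ft D.v x - ft D.v y‖ < 1 :=
    ((continuous_const.sub (ft_cd B.sol).continuous).norm.continuousAt (x := x)).eventually
      (gt_mem_nhds (by simp))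
  filter_upwards [h1, h2] with y h1 h2
  rw [norm_sub_rev, Real.norm_eq_abs]
  refine (((O.thc B N T).2 x).1 y _ h2.le fun y' _ => by
    rw [abs_of_nonneg (wf_nonneg N y')]; exact wf_le N y').trans ?_
  rw [mul_assoc _ 4]
  gcongr
  have h3 := (fderiv ℝ (ft D.v) x).le_opNorm (y - x)
  have h4 : ‖fderiv ℝ (ft D.v) x‖ * ‖y - x‖ ≤ 3 * ‖y - x‖ := by
    gcongr; linarith [norm_fderiv_ft B.sol x, (dd_ft B N hx).2]
  have h5 := norm_sub_norm_le (ft D.v y - ft D.v x) (fderiv ℝ (ft D.v) x (y - x))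
  rw [norm_sub_rev]
  linarith

omit T in
theorem gsq_wf (hl : lam ≤ 3) : ∀ᵐ y, |dd D.v y| < 3 →
    ENNReal.ofReal (gsq (D.wf C1) y) ≤ ENNReal.ofReal (C1 ^ 2) * D.gX y := by
  have M9 := N.M9
  have f0 := one_pos.trans_le O.f1
  have c0 : 0 ≤ C1 := by linarith [N.c1]
  have zero : ∀ (y : EE n) (a : ℝ), (∀ᶠ z in 𝓝 y, D.wf C1 z = a) →
      ENNReal.ofReal (gsq (D.wf C1) y) ≤ ENNReal.ofReal (C1 ^ 2) * D.gX y := fun y a h => by
    have : gsq (D.wf C1) y = 0 := by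
      simp only [gsq, pdv_congr (show D.wf C1 =ᶠ[𝓝 y] fun _ => a from h), pdv_const]; simp
    rw [this]; simp
  filter_upwards [ae_diff B.op (O.lu_lip B hl)] with y hd hy
  by_cases h : y ∈ D.Om
  · have cU : ContinuousAt D.U y := (O.U_cont B).continuousAt (B.op.mem_nhds h)
    by_cases h1 : 80 / D.f0 ≤ D.U y
    · by_cases h2 : D.U y ≤ 1 / D.M ^ 2
      · rw [Dat.gX, if_pos ⟨h, h1, h2⟩, ← ENNReal.ofReal_mul (by positivity), gsq_eq, gsq_eq,
          ← mul_pow]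
        refine ENNReal.ofReal_le_ofReal (pow_le_pow_left₀ (norm_nonneg _) ?_ 2)
        rw [norm_grad, norm_grad]
        refine le_of_forall_pos_le_add fun ε hε => ?_
        refine norm_fderiv_le_of_lip' ℝ (by positivity) ?_
        have h3 := (hd h).hasFDerivAt.isLittleO.bound (c := ε / (C1 + 1)) (by positivity)
        filter_upwards [h3, B.op.mem_nhds h] with z h3 hz
        have h4 : |D.wf C1 z - D.wf C1 y| ≤ C1 * |D.lu z - D.lu y| := by
          rw [Dat.wf, Dat.wf, if_pos hz, if_pos h, ← mul_sub, abs_mul, abs_of_nonneg c0]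
          refine mul_le_mul_of_nonneg_left ?_ c0
          have := ((LipschitzWith.id.neg.min_const (Real.log (D.f0 / 80))).const_max
            (Real.log (D.M ^ 2))).dist_le_mul (D.lu z) (D.lu y)
          simpa only [Real.dist_eq, NNReal.coe_one, one_mul, Pi.neg_apply, id] using this
        have h5 := (fderiv ℝ D.lu y).le_opNorm (z - y)
        have h6 := norm_sub_norm_le (D.lu z - D.lu y) (fderiv ℝ D.lu y (z - y))
        have h7 : |D.lu z - D.lu y| ≤ (‖fderiv ℝ D.lu y‖ + ε / (C1 + 1)) * ‖z - y‖ := by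
          rw [← Real.norm_eq_abs]; linarith
        have h8 : C1 * (ε / (C1 + 1)) ≤ ε := by
          rw [← mul_div_assoc, div_le_iff₀ (by positivity)]; nlinarith
        rw [Real.norm_eq_abs]
        refine h4.trans ((mul_le_mul_of_nonneg_left h7 c0).trans ?_)
        rw [← mul_assoc, mul_add]
        gcongr
      · refine zero y (C1 * Real.log (D.M ^ 2)) ?_
        filter_upwards [cU.eventually (lt_mem_nhds (not_le.1 h2)), B.op.mem_nhds h] with z h3 hz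
        rw [Dat.wf, if_pos hz, max_eq_left ((min_le_left _ _).trans ?_)]
        rw [Dat.lu, ← Real.log_inv]
        refine Real.log_le_log (inv_pos.2 (O.U_pos B hz)) ?_
        rw [inv_le_comm₀ (O.U_pos B hz) (by positivity), ← one_div]
        exact h3.le
    · refine zero y (C1 * max (Real.log (D.M ^ 2)) (Real.log (D.f0 / 80))) ?_
      filter_upwards [cU.eventually (gt_mem_nhds (not_le.1 h1)), B.op.mem_nhds h] with z h3 hz
      rw [Dat.wf, if_pos hz, min_eq_right]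
      rw [Dat.lu, ← Real.log_inv]
      refine Real.log_le_log (by positivity) ?_
      rw [le_inv_comm₀ (by positivity) (O.U_pos B hz), inv_div]
      exact h3.le
  · refine zero y (C1 * Real.log (D.M ^ 2)) ?_
    have h1 : 1 / (2 * D.M) < ph0 D.v y := by
      refine lt_of_lt_of_le ?_ (not_lt.1 fun h' => h (O.band_mem B N hy h'))
      exact one_div_lt_one_div_of_lt (by linarith) (by linarith)
    filter_upwards [(continuous_ph0 B.sol).continuousAt.eventually (lt_mem_nhds h1)] with z hz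
    rw [Dat.wf]
    split_ifs with h'
    · have h2 := O.U_top B (by nlinarith [N.f0]) h' hz.le
      rw [max_eq_left ((min_le_left _ _).trans ?_)]
      rw [Dat.lu, ← Real.log_inv]
      refine Real.log_le_log (inv_pos.2 (O.U_pos B h')) ?_
      rw [inv_le_comm₀ (O.U_pos B h') (by positivity)]
      refine le_trans ?_ h2
      rw [inv_eq_one_div, div_le_div_iff₀ (by positivity) (by positivity)]
      nlinarith
    · rw [max_self]

/-- **the gradient of the depth** is an average of `|∇ log U|²` at the foot -/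
theorem grad_Th (hl : lam ≤ 3) (hx : x ∈ D.Om) : ENNReal.ofReal (‖∇ (D.cut φ C1).Th x‖ ^ 2) ≤
    ENNReal.ofReal (Ct * C1 ^ 2) * ∫⁻ y in ball (ft D.v x) 1, D.gX y := by
  refine (((O.thc B N T).2 x).2.2.2 ((O.wf_lip B N hl).mono fun y hy => by
    have := dd_near B N hx hy
    exact show |dd D.v y| < 3 by linarith) (dd_ft B N hx).2).trans ?_
  rw [ENNReal.ofReal_mul (by linarith [N.t1]), mul_assoc,
    ← lintegral_const_mul' (ENNReal.ofReal (C1 ^ 2)) _ ENNReal.ofReal_ne_top]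
  refine mul_le_mul_right (setLIntegral_mono_ae' (s := ball (ft D.v x) 1) measurableSet_ball ?_) _
  filter_upwards [O.gsq_wf B N hl] with y hy h
  exact hy (by linarith [dd_near B N hx h])

omit N T in
theorem meas_gX : Measurable D.gX := by
  classical
  have hU : Measurable fun x => if x ∈ D.Om then D.U x else 0 :=
    ContinuousOn.measurable_piecewise (f := D.U) (g := fun _ => 0) (O.U_cont B) continuousOn_const
      B.op.measurableSet
  have e : {y | y ∈ D.Om ∧ 80 / D.f0 ≤ D.U y ∧ D.U y ≤ 1 / D.M ^ 2} =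
      D.Om ∩ ({y | 80 / D.f0 ≤ if y ∈ D.Om then D.U y else 0} ∩
        {y | (if y ∈ D.Om then D.U y else 0) ≤ 1 / D.M ^ 2}) := by
    ext y
    by_cases h : y ∈ D.Om <;> simp [h]
  refine Measurable.ite ?_ ?_ measurable_const
  · rw [e]
    exact B.op.measurableSet.inter ((measurableSet_le measurable_const hU).inter
      (measurableSet_le hU measurable_const))
  · rw [← funext (gin_self D.lu)]
    exact (measurable_gin _ _).ennreal_ofReal

/-- `Z` is locally Lipschitz above the cut -/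
theorem Z_lip (hl : lam ≤ 3) (hζ : LocallyLipschitzOn (Ioi 0) D.ζ) :
    LocallyLipschitzOn {x | |dd D.v x| ≤ (D.cut φ C1).Th x + 1} D.Z := by
  have M9 := N.M9
  refine ll_glue (a := 1) B.op (g := fun x => D.ζ (D.U x))
    (ll_comp_on (O.U_lip B hl) hζ fun x hx => O.U_pos B hx) (fun x hx => O.Z_eq B hx)
    fun x hx hn => ?_
  have h1 : 1 / (2 * D.M) < ph0 D.v x := by
    refine lt_of_lt_of_le ?_ (not_lt.1 fun h' => hn (O.mem_Om B N T hx h'))
    exact one_div_lt_one_div_of_lt (by linarith) (by linarith)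
  filter_upwards [(continuous_ph0 B.sol).continuousAt.eventually (lt_mem_nhds h1)] with z hz
  exact O.Z_top B (by nlinarith [N.f0]) hz.le

omit N T in
/-- absolute lower bound of `Z` -/
theorem exp_le_Z (hl : lam ≤ 3) (y : EE n) : Real.exp (-(12 / ph0 D.v y)) ≤ D.Z y := by
  have p0 := B.ph y
  by_cases h : y ∈ D.Om
  · have h1 := B.min_le h
    have h2 : 8 ≤ min (D.rp y) (D.rm y) := le_min (B.rp8 h) (B.rm8 h)
    have h3 := O.h_lip hl (r := 1) (s := min (D.rp y) (D.rm y)) (A := 2 * (1 / ph0 D.v y) - 1)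
      le_rfl (by linarith) (by linarith) (by linarith)
    have h4 := (O.hlow 1 one_pos O.f1).1
    have h5 : Real.exp (-(6 / ph0 D.v y)) ≤
        Real.exp (-(3 * (2 * (1 / ph0 D.v y) - 1))) * D.h 1 := by
      rw [show -(3 * (2 * (1 / ph0 D.v y) - 1)) = -(6 / ph0 D.v y) + 3 by ring, Real.exp_add,
        mul_assoc]
      refine le_mul_of_one_le_right (Real.exp_pos _).le ?_
      nlinarith [Real.add_one_le_exp (3 : ℝ)]
    have h6 := O.sq_le_z B.M1 (Real.exp_pos _).le (Real.exp_le_one_iff.2 (by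
      have : 0 < 6 / ph0 D.v y := by positivity
      linarith)) (h5.trans (h3.trans (O.hmin_le_U B h)))
    rw [O.Z_eq B h]
    refine le_trans (le_of_eq ?_) h6
    rw [← Real.exp_nat_mul]; congr 1; push_cast; ring
  · rw [Dat.Z, if_neg h]
    refine Real.exp_le_one_iff.2 ?_
    have : 0 < 12 / ph0 D.v y := by positivity
    linarith


end Dat.Ok

end

end Crest.Agent.N067.M
end

-- ▼ part N067/Z/Defs

/-!
# Row 67, TOP (helper90): interfaces of the assembly of `MIStmt`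

`X = ∇ log U`, `V = ∇ log W`, multipliers `b(U) Z² W² ch²` (weak inequality) and
`c(U) Z² W² ch²` (Hardy).  The minus side is the plus side of `D.flip`.
-/

set_option autoImplicit false
set_option linter.dupNamespace false

open MeasureTheory Laplacian InnerProductSpace Topology Filter Set Metric
open scoped RealInnerProductSpace Gradient ContDiff ENNReal

namespace Crest.Agent.N067.M

open Crest.Agent.R077 Crest.Agent.N067.V Crest.Agent.N067.Y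

noncomputable section

variable {n : ℕ}

/-! ### the one dimensional design -/

def k0 : ℝ := 1 / 1000
def et : ℝ := 1 / 1000
def ep : ℝ := 1 / 10000000
def la : ℝ := 51 / 25
def θ0 : ℝ := 587 / 1000

/-- functions of `U`: `s = U ζ' / ζ`, `bu = U b'`; `H2` is a function of `y = 1 / r` -/
structure Mu where
  s : ℝ → ℝ
  b : ℝ → ℝ
  bu : ℝ → ℝ
  kap : ℝ → ℝ
  H2 : ℝ → ℝ
  U3 : ℝ
  be : ℝ

def HH (h : ℝ → ℝ) (y : ℝ) : ℝ := h (1 / y)
def HH1 (hd : ℝ → ℝ) (y : ℝ) : ℝ := -(hd (1 / y) / y ^ 2)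

/-- the coefficient of `|X|²` in the weak inequality -/
def Mu.a (μ : Mu) (U : ℝ) : ℝ := μ.bu U + 2 * μ.s U * μ.b U +
  μ.b U * ((1 - et) * μ.kap U / ((1 + ep + k0) * (1 + k0)) - 1)
/-- the Hardy multiplier and `U c'` -/
def Mu.c (μ : Mu) (U : ℝ) : ℝ := 6 / 5 * max 0 (min 1 (2 - U / μ.U3))
def Mu.cu (μ : Mu) (U : ℝ) : ℝ := if μ.U3 < U ∧ U < 2 * μ.U3 then -(6 / 5 * (U / μ.U3)) else 0

structure Des (h hd ζ : ℝ → ℝ) (μ : Mu) (K f0 M : ℝ) : Prop where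
  hpos : ∀ r, 0 < r → 0 < h r ∧ h r ≤ 1 / r ∧ HasDerivAt h (hd r) r ∧ hd r ≤ 0
  hlow : ∀ r, 0 < r → r ≤ f0 → 3 / (8 * r) ≤ h r ∧ |hd r| ≤ 3 / r * h r
  hhigh : ∀ r, f0 ≤ r → |hd r| ≤ la * h r
  zmono : MonotoneOn ζ (Ici 0)
  zcont : Continuous ζ
  zbd : ∀ U, 0 < U → 0 < ζ U ∧ ζ U ≤ 1
  ztop : ∀ U, 3 / (32 * M) ≤ U → ζ U = 1
  z2 : ∀ U θ, 0 < U → 0 ≤ θ → θ ≤ 1 → θ ^ (11 / 10 : ℝ) * ζ U ≤ ζ (θ * U)
  z1 : ∀ U θ, 0 < U → U ≤ 80 / f0 → 0 ≤ θ → θ ≤ 1 → θ * ζ U ≤ ζ (θ * U)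
  zdec : ∀ r, f0 ≤ r → ζ (3 * h r) ≤ K * ζ (80 / f0) * Real.exp (-(r - 3 * f0)) ∧
    r ^ 4 * ζ (3 * h r) ≤ K * ζ (80 / f0) * f0 ^ 4
  U3 : 80 / f0 ≤ μ.U3 ∧ 2 * μ.U3 ≤ 1 / M ^ 2 ∧ 1 ≤ f0 * μ.U3 ^ 2
  be : 0 ≤ μ.be
  mhd : Measurable hd
  des : W.HDes (HH h) (HH1 hd) μ.H2
  mkap : Measurable μ.kap
  bkap : ∀ U, |μ.kap U| ≤ 2
  kato : ∀ a > 0, ∀ b > 0,
    W.Kato (HH h) (HH1 hd) μ.H2 k0 a b (μ.kap (W.U0 k0 (HH h a) (HH h b)))
  lip : LocallyLipschitzOn (Ioi 0) ζ ∧ LocallyLipschitzOn (Ioi 0) μ.b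
  der : ∃ N : Set ℝ, N.Countable ∧ ∀ U, 0 < U → U ∉ N →
    HasDerivAt ζ (μ.s U * ζ U / U) U ∧ HasDerivAt μ.b (μ.bu U / U) U
  meas : Measurable μ.s ∧ Measurable μ.b ∧ Measurable μ.bu
  bd : ∀ U, 0 < U → 0 ≤ μ.s U ∧ μ.s U ≤ 11 / 10 ∧ 0 ≤ μ.b U ∧ μ.b U ≤ 6 / 5 ∧ |μ.bu U| ≤ 1
  btop : ∀ U, 400 / M ^ 2 ≤ U → μ.b U = 0
  main : ∀ U, 0 < U → U ≤ μ.U3 → H.Adm (μ.a U) (μ.b U) (μ.s U)
  half : ∀ U, 0 < U → U ≤ 2 * μ.U3 → 1 / 2 ≤ μ.b U
  top : ∀ U, μ.U3 ≤ U → μ.s U ≤ 2 * μ.b U ∧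
    (1 + ep) * μ.s U ^ 2 + μ.b U / 100 ≤ μ.a U + if 1 / M ^ 2 ≤ U then μ.be else 0
  bcmp : ∀ U U', 0 < U → 0 < U' → U' ≤ 1 / M ^ 2 → μ.b U ≤ 3 * max 1 (U' / U) * μ.b U'
  one : ∀ y, 0 < y → HH1 hd y ≤ 1 ∧ y - 5 / (8 * f0) ≤ HH h y
  bmain : ∀ U, 80 / f0 ≤ U → μ.b U ≤ 24 / 25
  pot2 : ∀ r, 0 < r → h r ≤ 80 / f0 →
    |hd r| * r * ζ (h r) * max 1 (r / f0) ^ 3 ≤ K * ζ (80 / f0) * h r
  zmain : ∀ U, 80 / f0 ≤ U → U ≤ μ.U3 → ζ (80 / f0) * (f0 * U / 80) ^ (51 / 50 : ℝ) ≤ ζ U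
  bad1 : ∀ r, 1 ≤ r → ζ (80 / f0) * Real.exp (-(la * r)) ≤ K * ζ (h r)
  bad2 : ∀ r, 1 ≤ r → r ≤ f0 → ζ (80 / f0) * (f0 / r) ^ (101 / 100 : ℝ) ≤ K * ζ (h r)
  jdec : ∃ A : ℝ, ∀ r, 1 ≤ r → ζ (2 * h r) ≤ A * Real.exp (-(la * r))

/-- **DES** (helper1, 93) -/
def DesStmt : Prop := ∃ K : ℝ, 30 ≤ K ∧ ∀ M be : ℝ, 5000 ≤ M → 0 < be → ∃ U3 fs : ℝ, 0 < U3 ∧
  ∀ f0, fs ≤ f0 → ∃ (h hd ζ : ℝ → ℝ) (μ : Mu), μ.U3 = U3 ∧ μ.be = be ∧ Des h hd ζ μ K f0 M

/-! ### the depth of the cut, the weight -/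

def φ0 (n : ℕ) : ContDiffBump (0 : EE n) := ⟨1 / 2, 1, by norm_num, by norm_num⟩

/-- the data with the cap `ρ` and its cut -/
def Dat.cap (D : Dat n) (C1 ρ : ℝ) : Dat n := ({ D with ρm := ρ } : Dat n).cut (φ0 n) C1

structure ThOk (D : Dat n) (T2 : ℝ) : Prop where
  cd : ContDiff ℝ 1 D.Th
  four : 4 ≤ T2
  lo : ∀ x, T2 ≤ D.Th x
  supp : ∀ x, ph0 D.v x ≤ 1 / (2 * D.M) → |dd D.v x| ≤ D.Th x + 1 → x ∈ D.Om
  bd : ∃ A : ℝ, ∀ x ∈ D.In, ‖∇ D.Th x‖ ≤ A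

/-- **TH** (helper39) -/
def ThStmt (n : ℕ) : Prop := ∀ K T2 : ℝ, 4 ≤ T2 → ∃ Cs : ℝ, ∀ C1, Cs ≤ C1 → ∀ C2, 3 * C1 ≤ C2 →
  ∃ Ms : ℝ, ∀ M, Ms ≤ M → ∃ fs : ℝ, ∀ (D : Dat n) (rs : ℝ), D.C2 = C2 → D.M = M → fs ≤ D.f0 →
    (D.triv C1).Ok K la C1 rs → D.Bas →
    (D.cut (φ0 n) C1).Ok K la C1 rs ∧ ThOk (D.cut (φ0 n) C1) T2

structure Wp (n : ℕ) where
  I : Finset (Fin n)
  x0 : EE n
  r0 : ℝ
  R : ℝ

/-- everything the assembly knows about one set of data -/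
structure Ex (D : Dat n) (μ : Mu) (p : Wp n) (K C1 rs ηt C T2 τ : ℝ) : Prop where
  n9 : n ≤ 9
  ok : D.Ok K la C1 rs
  bas : D.Bas
  hk : D.κ0 = k0
  hM : 5000 ≤ D.M
  des : Des D.h D.hd D.ζ μ K D.f0 D.M
  th : ThOk D T2
  sp : W.SupD D ep ηt C
  sm : W.SupD D.flip ep ηt C
  C0 : 0 ≤ C
  η0 : 0 < ηt
  ts : ∀ x ∈ D.Om, tt D.v x ≤ τ
  τ1 : τ ≤ 1 / 10000
  card : 7 ≤ p.I.card
  hr : 1 ≤ rs ∧ rs ≤ p.r0 ∧ p.r0 ≤ p.R ∧ D.f0 ≤ p.R
  hW : D.W = H.WW (11 / 10) p.I p.x0 p.r0 p.R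
  hl : D.lw = fun x => (rh p.I p.x0 p.r0 x)⁻¹

/-! ### pointwise quantities -/

namespace Dat

variable (D : Dat n) (μ : Mu)

def XX (x : EE n) : EE n := ∇ (W.uD D) x
def VV (x : EE n) : EE n := (D.W x)⁻¹ • ∇ D.W x
def zz (x : EE n) : ℝ := D.Z x * D.W x
/-- the thick part of the potential -/
def tk (ηt : ℝ) (x : EE n) : ℝ :=
  if D.rp x * Bn D.v x ≤ ηt then 0 else (1 + ep) * hsq (dd D.v) x
/-- the coefficient fed to `Flux`, `Err`, `Kept` -/
def th (x : EE n) : ℝ := 5 / 6 * μ.b (D.U x) * W.thD D x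

/-- the integrand of the weak inequality -/
def h1 (ηt C : ℝ) : EE n → ℝ := D.Om.indicator fun x => D.dens x *
  (D.ch x ^ 2 * (μ.b (D.U x) * W.GD D μ.kap ep ηt C et x +
      (μ.bu (D.U x) + 2 * μ.s (D.U x) * μ.b (D.U x)) * ‖D.XX x‖ ^ 2 +
      2 * μ.b (D.U x) * ⟪D.XX x, D.VV x⟫) +
    2 * μ.b (D.U x) * D.ch x * D.chd x *
      (⟪D.XX x, ∇ D.Th x⟫ - SignType.sign (dd D.v x) * ⟪nn D.v x, D.XX x⟫))

/-- the integrand of the Hardy identity -/
def h2 (p : Wp n) (Ce : ℝ) : EE n → ℝ := D.Om.indicator fun x => D.dens x *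
  (D.ch x ^ 2 * (H.tf D.v x ((μ.cu (D.U x) + 2 * μ.s (D.U x) * μ.c (D.U x)) • D.XX x +
        (2 * μ.c (D.U x)) • D.VV x) (∇ (H.lr p.I p.x0 p.r0) x) +
      μ.c (D.U x) * (H.trT D.v p.I x / rh p.I p.x0 p.r0 x ^ 2 -
        2 * H.tf D.v x (∇ (H.lr p.I p.x0 p.r0) x) (∇ (H.lr p.I p.x0 p.r0) x) -
        Ce * tt D.v x / rh p.I p.x0 p.r0 x)) +
    2 * μ.c (D.U x) * D.ch x * D.chd x * H.tf D.v x (∇ D.Th x) (∇ (H.lr p.I p.x0 p.r0) x))

open Classical in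
/-- `G = gg ψ² / Z0²` -/
def gg (x : EE n) : ℝ :=
  if x ∈ D.Om then D.ch x ^ 2 * D.Z x ^ 2 else if |dd D.v x| ≤ 1 then 1 else 0

/-! ### integral quantities -/

def COST (T2 : ℝ) : ℝ≥0∞ :=
  ∫⁻ x in {x | |dd D.v x| < T2}, ENNReal.ofReal (psi D.v x ^ 2 * gsq D.zz x)
def GB : ℝ≥0∞ :=
  ∫⁻ x in D.In, ENNReal.ofReal (D.ch x ^ 2 * D.dens x * (μ.b (D.U x) * ‖D.XX x‖ ^ 2))
def GH : ℝ≥0∞ :=
  ∫⁻ x in {x | x ∈ D.In ∧ D.U x ≤ μ.U3}, ENNReal.ofReal (D.ch x ^ 2 * D.dens x * D.lw x ^ 2)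
def POT (ηt : ℝ) : ℝ≥0∞ := ∫⁻ x in D.In, ENNReal.ofReal (D.ch x ^ 2 * D.dens x *
  (μ.b (D.U x) * (W.thD D x * D.rp x * D.tk ηt x + W.thD D.flip x * D.rm x * D.flip.tk ηt x)))
def ERR (th : EE n → ℝ) : ℝ≥0∞ :=
  ∫⁻ x in D.In, ENNReal.ofReal (D.ch x ^ 2 * D.dens x * (th x * D.rp x * tt D.v x ^ 2))
def FLX (th : EE n → ℝ) : ℝ≥0∞ :=
  ∫⁻ x in D.Cut, ENNReal.ofReal (D.dens x * (2 * D.ch x * D.chd x * th x *
    (-(SignType.sign (dd D.v x) * ⟪nn D.v x, ∇ D.rp x⟫))))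
def GT : ℝ≥0∞ := ∫⁻ x in D.Cut, ENNReal.ofReal (D.dens x * (μ.b (D.U x) * ‖∇ D.Th x‖ ^ 2))
def TOP (U1 T2 : ℝ) : ℝ≥0∞ :=
  ∫⁻ x in {x | (x ∈ D.In ∧ U1 ≤ D.U x) ∨ (x ∉ D.Om ∧ |dd D.v x| < T2)}, ENNReal.ofReal (D.W x ^ 2)
def RR : ℝ≥0∞ := ∫⁻ x, ENNReal.ofReal (D.gg x * psi D.v x ^ 2 * D.W x ^ 2)
def G1 : ℝ≥0∞ :=
  ∫⁻ x in {x | |dd D.v x| ≤ 1}, ENNReal.ofReal (tt D.v x * D.Z x ^ 2 * D.W x ^ 2)
def G2 : ℝ≥0∞ := ENNReal.ofReal (D.Z0 ^ 2 * D.f0 ^ 3) *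
  ∫⁻ x in {x | |dd D.v x| ≤ 1}, ENNReal.ofReal (D.F (tt D.v x) * D.W x ^ 2)

end Dat

/-- the source of `MIData.mi` -/
def SRC (v : EE n → ℝ) (f0 : ℝ) (p : Wp n) : ℝ≥0∞ :=
  ∫⁻ x, ENNReal.ofReal (min (f0 ^ (-2 : ℝ)) (f0 ^ (3 : ℝ) * rh p.I p.x0 p.r0 x ^ (-(3 : ℝ) - 2)) *
    (psi v x ^ (2 : ℝ) * rh p.I p.x0 p.r0 x ^ (-(2 * (11 / 10 : ℝ))) * Om p.x0 p.R x))

/-! ### leaves on one set of data -/

/-- **I1** (helper47): the weak inequality -/
def I1Stmt (n : ℕ) : Prop := ∀ (D : Dat n) (μ : Mu) (p : Wp n) (K C1 rs ηt C T2 τ : ℝ),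
  Ex D μ p K C1 rs ηt C T2 τ → Integrable (D.h1 μ ηt C) ∧ ∫ x, D.h1 μ ηt C x ≤ 0

/-- **I2** (helper47): the Hardy identity (`H.hardyT`) -/
def I2Stmt (n : ℕ) : Prop := ∃ Ce : ℝ, 0 ≤ Ce ∧
  ∀ (D : Dat n) (μ : Mu) (p : Wp n) (K C1 rs ηt C T2 τ : ℝ),
    Ex D μ p K C1 rs ηt C T2 τ → Integrable (D.h2 μ p Ce) ∧ ∫ x, D.h2 μ p Ce x ≤ 0

/-- **ZG**: the gradient of the test function -/
def ZGStmt (n : ℕ) : Prop := ∀ (D : Dat n) (μ : Mu) (p : Wp n) (K C1 rs ηt C T2 τ : ℝ),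
  Ex D μ p K C1 rs ηt C T2 τ → ∀ᵐ x, |dd D.v x| < T2 →
    (x ∈ D.Om → ∇ D.zz x = D.zz x • (μ.s (D.U x) • D.XX x + D.VV x)) ∧
    (x ∉ D.Om → ∇ D.zz x = ∇ D.W x)

/-- **TEST** (helper39) -/
def TestStmt (n : ℕ) : Prop := ∀ K : ℝ, ∃ K' : ℝ, 1 ≤ K' ∧
  ∀ (D : Dat n) (μ : Mu) (p : Wp n) (C1 rs ηt C T2 τ : ℝ),
    Ex D μ p K C1 rs ηt C T2 τ → Test D.v T2 K' D.zz

/-- **MAIN** (helper90): the pointwise inequality, integrated -/
def MainStmt (n : ℕ) : Prop := ∀ K : ℝ, ∃ Cm : ℝ, 1 ≤ Cm ∧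
  ∀ (D : Dat n) (μ : Mu) (p : Wp n) (C1 rs ηt C T2 τ : ℝ), Ex D μ p K C1 rs ηt C T2 τ →
    ENNReal.ofReal (1 + ep) * D.COST T2 + ENNReal.ofReal (1 / 40000) * D.GB μ +
      ENNReal.ofReal (1 / 200) * D.GH μ +
      ENNReal.ofReal (6 / 5 * (et * k0 / 4)) * (D.Kept (D.th μ) + D.flip.Kept (D.flip.th μ)) ≤
    D.POT μ ηt + ENNReal.ofReal (Cm + 2 * C) * (D.ERR (D.th μ) + D.flip.ERR (D.flip.th μ)) +
      ENNReal.ofReal (6 / 5) * (D.FLX (D.th μ) + D.flip.FLX (D.flip.th μ)) +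
      ENNReal.ofReal Cm * D.GT μ + ENNReal.ofReal (Cm / rs ^ 2) * D.TOP μ.U3 T2 +
      ENNReal.ofReal (μ.be * (Cm * D.M ^ 6)) * D.TOP (1 / D.M ^ 2) T2 +
      ENNReal.ofReal (Cm / p.R ^ 2) * D.RR

/-- **FINITE**: everything that is cancelled is finite -/
def FinStmt (n : ℕ) : Prop := ∀ (D : Dat n) (μ : Mu) (p : Wp n) (K C1 rs ηt C T2 τ : ℝ),
  Ex D μ p K C1 rs ηt C T2 τ → D.COST T2 ≠ ⊤ ∧ D.GB μ ≠ ⊤ ∧ D.GH μ ≠ ⊤ ∧ D.GG ≠ ⊤ ∧
    D.Kept (D.th μ) ≠ ⊤ ∧ D.flip.Kept (D.flip.th μ) ≠ ⊤ ∧ D.RR ≠ ⊤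

/-- **PS**: the splitting of the potential -/
def PSplitStmt (n : ℕ) : Prop := ∀ K ηt : ℝ, 0 < ηt → ∃ η' Cp : ℝ, 0 < η' ∧ 0 ≤ Cp ∧
  ∀ (D : Dat n) (μ : Mu) (p : Wp n) (C1 rs C T2 τ T0 T1 : ℝ), Ex D μ p K C1 rs ηt C T2 τ →
    T1 ≤ T0 → D.POT μ ηt ≤
      ENNReal.ofReal (1 - ep) * (∫⁻ x in {x | |dd D.v x| ≤ T0 ∧ tt D.v x ≤ τ}, ENNReal.ofReal
        (psi D.v x ^ 2 * hsq (dd D.v) x * D.zz x ^ 2)) +
      (∫⁻ x in {x | x ∈ D.In ∧ T1 ≤ |dd D.v x| ∧ 80 / D.f0 ≤ D.U x ∧ η' * ph0 D.v x ≤ Bn D.v x},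
        ENNReal.ofReal (D.dens x * hsq (dd D.v) x)) +
      ENNReal.ofReal Cp * (ENNReal.ofReal (D.Z0 ^ 2 * D.f0 ^ 3) *
        ∫⁻ x in {x | x ∈ D.In ∧ η' * ph0 D.v x ≤ Bn D.v x},
          ENNReal.ofReal (psi D.v x ^ 2 * D.F (hsq (dd D.v) x) * D.W x ^ 2))

/-- **LOW** (helper39): `gg` sees the shallow points that are not flat -/
def LowGStmt (n : ℕ) : Prop := ∀ (D : Dat n) (μ : Mu) (p : Wp n) (K C1 rs ηt C T2 τ : ℝ),
  Ex D μ p K C1 rs ηt C T2 τ → ∀ κ, 300 / D.f0 ≤ κ → κ ≤ μ.U3 → ∀ x ∈ Sh D.v, ¬ Flat D.v κ x →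
    1 / 10 ^ 7 * (D.f0 * κ) ^ (2 * (51 / 50 : ℝ)) ≤ D.gg x * psi D.v x ^ 2 / D.Z0 ^ 2

/-! ### leaves with large parameters -/

/-- **GT** (helper69): the gradient of the depth of the cut -/
def GTStmt (n : ℕ) : Prop := ∀ K e : ℝ, 0 < e → ∃ Cs : ℝ, ∀ C1, Cs ≤ C1 → ∀ C2, 3 * C1 ≤ C2 →
  ∃ Ms : ℝ, ∀ M, Ms ≤ M → ∃ fs : ℝ, ∀ (D : Dat n) (μ : Mu) (p : Wp n) (rs ηt C T2 τ : ℝ), D.C2 = C2 →
    D.M = M → fs ≤ D.f0 → Ex D μ p K C1 rs ηt C T2 τ → D.Th = That (φ0 n) D.v (D.wf C1) →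
    D.GT μ ≤ ENNReal.ofReal e * D.GB μ

/-- **CORE** (helper69) -/
def CoreStmt (n : ℕ) : Prop := ∀ K C2 M U1 T2 : ℝ, 0 < U1 → ∃ A fs : ℝ, 0 ≤ A ∧
  ∀ (D : Dat n) (μ : Mu) (p : Wp n) (C1 rs ηt C τ : ℝ), D.C2 = C2 → D.M = M → fs ≤ D.f0 →
    Ex D μ p K C1 rs ηt C T2 τ → D.TOP U1 T2 ≤ ENNReal.ofReal A * D.G1

/-- **MID** (helper69): SSY -/
def MidStmt (n : ℕ) : Prop := ∀ K : ℝ, ∃ e1 : ℝ, 0 < e1 ∧ ∀ β : Bo, β.η ≤ e1 → ∀ e : ℝ, 0 < e →
  ∃ A : ℝ, 0 ≤ A ∧ Big n K la k0 β fun D => ∀ (μ : Mu) (p : Wp n) (C1 rs ηt C T2 τ : ℝ),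
    Ex D μ p K C1 rs ηt C T2 τ →
      D.G2 ≤ ENNReal.ofReal e * D.G1 + ENNReal.ofReal (A * D.Z0 ^ 2) * SRC D.v D.f0 p

/-- **J** (helper39 / 1): the power `1 / θ` of `gg` is paid by the gains, with a constant that
depends on `f0` but neither on the cap nor on the weight -/
def JStmt (n : ℕ) : Prop := ∀ (K T2 : ℝ) (β : Bo) (C1 C2 : ℝ), 1 ≤ C1 → 3 * C1 ≤ C2 → ∃ Ms : ℝ,
  ∀ M, Ms ≤ M → ∃ fs : ℝ, ∀ f0, fs ≤ f0 → ∀ h ζ : ℝ → ℝ, ∃ Φ : ℝ, 0 < Φ ∧
    ∀ (D : Dat n) (μ : Mu) (p : Wp n) (rs ηt C τ : ℝ), D.β = β → D.C2 = C2 → D.M = M →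
      D.f0 = f0 → D.h = h → D.ζ = ζ → Ex D μ p K C1 rs ηt C T2 τ →
      ∫⁻ x in {x | x ∈ D.Om → 2 * min (D.rp x) (D.rm x) < D.ρm}, ENNReal.ofReal
        (D.gg x ^ (1 / θ0) * psi D.v x ^ 2 * D.W x ^ 2) ≤ ENNReal.ofReal Φ * D.GG

/-! ### the limit `ρm → ∞` -/

/-- **CONV** -/
def ConvStmt (n : ℕ) : Prop := ∀ (D : Dat n) (K C1 rs ρ0 : ℝ), 0 ≤ C1 →
  (∀ m : ℕ, (D.cap C1 (ρ0 + m)).Ok K la C1 rs ∧ (D.cap C1 (ρ0 + m)).Bas) → ∀ x, ∃ g : ℝ,
    Tendsto (fun m : ℕ => (D.cap C1 (ρ0 + m)).gg x) atTop (𝓝 g) ∧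
    (0 < g → ∀ᶠ m : ℕ in atTop, x ∈ (D.cap C1 (ρ0 + m)).Om →
      2 * min ((D.cap C1 (ρ0 + m)).rp x) ((D.cap C1 (ρ0 + m)).rm x) < ρ0 + m)

/-- **LIM**: abstract passage to the limit -/
def LimGStmt (n : ℕ) : Prop := n ≤ 9 → ∀ (v : EE n → ℝ) (C0 κ1 c Co rs f0 Z0 Φ : ℝ)
  (g : ℕ → EE n → ℝ) (A : ℕ → Set (EE n)), Sol v → 0 ≤ Co → 1 ≤ rs → 1 ≤ f0 → 0 < Z0 → 0 < Φ →
    (∀ m, Measurable (g m)) → (∀ m, MeasurableSet (A m)) → (∀ m x, 0 ≤ g m x ∧ g m x ≤ 1) →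
    (∀ x, ∃ l, Tendsto (fun m => g m x) atTop (𝓝 l) ∧ (0 < l → ∀ᶠ m in atTop, x ∈ A m)) →
    (∀ m κ, C0 / f0 ≤ κ → κ ≤ κ1 → ∀ x ∈ Sh v, ¬ Flat v κ x →
      c * (f0 * κ) ^ (2 * (51 / 50 : ℝ)) ≤ g m x * psi v x ^ 2 / Z0 ^ 2) →
    (∀ (p : Wp n) (m : ℕ), 7 ≤ p.I.card → rs ≤ p.r0 → p.r0 ≤ p.R → f0 ≤ p.R →
      (∫⁻ x, ENNReal.ofReal (g m x * psi v x ^ 2 * H.WW (11 / 10) p.I p.x0 p.r0 p.R x ^ 2 *
          (rh p.I p.x0 p.r0 x)⁻¹ ^ 2)) +
        ENNReal.ofReal Φ⁻¹ * (∫⁻ x in A m, ENNReal.ofReal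
          (g m x ^ (1 / θ0) * psi v x ^ 2 * H.WW (11 / 10) p.I p.x0 p.r0 p.R x ^ 2)) ≤
      ENNReal.ofReal Co * (ENNReal.ofReal (1 / p.R ^ 2) * (∫⁻ x, ENNReal.ofReal
          (g m x * psi v x ^ 2 * H.WW (11 / 10) p.I p.x0 p.r0 p.R x ^ 2)) +
        ENNReal.ofReal (Z0 ^ 2) * SRC v f0 p)) →
    ∃ G J : EE n → ℝ, MIData v (11 / 10) (51 / 50) 3 θ0 2 C0 κ1 c (2 ^ 20 * Co + 1) rs f0 G J

end

end Crest.Agent.N067.M
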