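import Crest.Agent.N067.Z.Defs

/-!
# Row 67, TOP (helper62): the flip `v ↦ -v`, the bridge data, the splitting of the pair gain
-/

set_option autoImplicit false
set_option linter.dupNamespace false

open MeasureTheory Laplacian InnerProductSpace Topology Filter Set Metric
open scoped RealInnerProductSpace Gradient ContDiff ENNReal

namespace Crest.Agent.N067.M

open Crest.Agent.R077 Crest.Agent.N067.V Crest.Agent.N067.Y

noncomputable section

variable {n : ℕ} {v : EE n → ℝ} {x : EE n} {D : Dat n} {μ : Mu} {p : Wp n}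
  {K lam C1 rs ηt C T2 τ : ℝ}

/-! ### the flip -/

theorem abs_dd_ng (hv : Sol v) (x : EE n) : |dd (ng v) x| = |dd v x| := by
  rw [dd_ng hv, abs_neg]

theorem ft_ng (hv : Sol v) (x : EE n) : ft (ng v) x = ft v x := by
  rw [ft, nn_ng hv, dd_ng hv, neg_smul_neg, ft]



theorem Opp_ng (hv : Sol v) (ε T L : ℝ) : Opp (ng v) ε T L = Opp v ε T L := by
  funext x y
  simp only [Opp, abs_dd_ng hv, nn_ng hv, inner_neg_neg]

theorem flip_flip (D : Dat n) : D.flip.flip = D := by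
  rw [Dat.flip, Dat.flip]; simp only [ng_ng]

theorem flip_v (D : Dat n) : D.flip.v = ng D.v := rfl

theorem flip_rp (D : Dat n) : D.flip.rp = D.rm := rfl

theorem flip_In (hv : Sol D.v) : D.flip.In = D.In := by
  ext x
  simp only [Dat.In, mem_ofPred_eq, W.flip_Om hv, flip_v, abs_dd_ng hv]
  rfl

theorem flip_Cut (hv : Sol D.v) : D.flip.Cut = D.Cut := by
  ext x
  simp only [Dat.Cut, mem_ofPred_eq, flip_In hv, flip_v, abs_dd_ng hv]
  rfl

theorem flip_Z (hv : Sol D.v) : D.flip.Z = D.Z := by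
  funext x
  rw [Dat.Z, Dat.Z, W.flip_Om hv, W.flip_U]
  rfl


theorem flip_ch (hv : Sol D.v) : D.flip.ch = D.ch := by
  funext x
  rw [Dat.ch, flip_v, abs_dd_ng hv]
  rfl

theorem flip_chd (hv : Sol D.v) : D.flip.chd = D.chd := by
  funext x
  rw [Dat.chd, flip_v, abs_dd_ng hv]
  rfl

theorem flip_dens (hv : Sol D.v) : D.flip.dens = D.dens := by
  funext x
  rw [Dat.dens, flip_v, psi_ng, flip_Z hv]
  rfl

theorem flip_Gain (hv : Sol D.v) : D.flip.Gain = D.Gain := by
  funext x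
  rw [Dat.Gain, flip_v, tt_ng hv, flip_Z hv]
  rfl

theorem flip_GG (hv : Sol D.v) : D.flip.GG = D.GG := by
  simp only [Dat.GG, flip_v, abs_dd_ng hv, flip_Gain hv]
  rfl




theorem Dat.Ok.flip (O : D.Ok K lam C1 rs) : D.flip.Ok K lam C1 rs :=
  { O with
    pos := ps_ng O.pos
    Tlo := fun x hx => by
      rw [flip_v, ph0_ng]
      exact O.Tlo x (flip_In O.pos.toSol ▸ hx)
    Tlip := fun x hx y => by
      rw [flip_v, ph0_ng, ft_ng O.pos.toSol, ft_ng O.pos.toSol]
      exact O.Tlip x (flip_In O.pos.toSol ▸ hx) y }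

theorem Dat.Bas.flip (B : D.Bas) : D.flip.Bas := W.bas_flip B

theorem ThOk.flip (T : ThOk D T2) (hv : Sol D.v) : ThOk D.flip T2 :=
  { T with
    supp := fun x h1 h2 => by
      rw [flip_v, ph0_ng] at h1
      rw [flip_v, abs_dd_ng hv] at h2
      rw [W.flip_Om hv]
      exact T.supp x h1 h2
    bd := by rw [flip_In hv]; exact T.bd }

namespace Ex

variable (E : Ex D μ p K C1 rs ηt C T2 τ)
include E

theorem flip : Ex D.flip μ p K C1 rs ηt C T2 τ :=
  { E with
    ok := E.ok.flip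
    bas := E.bas.flip
    th := E.th.flip E.bas.sol
    sp := E.sm
    sm := (flip_flip D).symm ▸ E.sp
    ts := fun x hx => by
      rw [flip_v, tt_ng E.bas.sol]
      exact E.ts x (W.flip_Om E.bas.sol ▸ hx) }

/-- the input of the bridge -/
theorem br : W.Br D (HH D.h) (HH1 D.hd) μ.H2 μ.kap ep ηt C et where
  bas := E.bas
  k0 := E.ok.k0
  k1 := by rw [E.hk, k0]; norm_num
  sp := E.sp
  sm := E.sm
  hH _ _ := rfl
  hH1 _ _ := rfl
  mhd := E.des.mhd
  des := E.des.des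
  e0 := by rw [ep]; norm_num
  η1 := by rw [et]; norm_num
  e1 := by rw [E.hk, ep, et, k0]; norm_num
  mkap := E.des.mkap
  bkap := ⟨2, E.des.bkap⟩
  kato a b ha hb := E.hk ▸ E.des.kato a ha b hb

theorem th_le_thD (x : EE n) : 0 ≤ D.th μ x ∧ D.th μ x ≤ W.thD D x := by
  have t0 := E.br.th'.nonneg x
  by_cases hx : x ∈ D.Om
  · obtain ⟨-, -, b0, b1, -⟩ := E.des.bd _ (E.br.U_pos hx)
    rw [Dat.th]
    exact ⟨by positivity, mul_le_of_le_one_left t0 (by linarith)⟩
  · rw [Dat.th, W.thD, if_neg hx, mul_zero]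
    exact ⟨le_rfl, le_rfl⟩

theorem th1 : D.Th' (D.th μ) := by
  classical
  have T := E.br.th'
  refine ⟨?_, fun x => (E.th_le_thD x).1, fun x hx => ?_, fun x hx h => T.act x hx fun e => h ?_⟩
  · have m : Measurable (D.Om.piecewise D.U fun _ => 1) :=
      (E.ok.U_cont E.bas).measurable_piecewise continuousOn_const E.bas.op.measurableSet
    convert ((E.des.meas.2.1.comp m).const_mul (5 / 6)).mul T.meas using 1
    funext x
    by_cases hx : x ∈ D.Om
    · simp only [Dat.th, Function.comp, Pi.mul_apply, piecewise_eq_of_mem _ _ _ hx]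
    · simp only [Dat.th, Pi.mul_apply, W.thD, if_neg hx, mul_zero]
  · exact (mul_le_mul_of_nonneg_right (E.th_le_thD x).2 (E.br.U_pos hx).le).trans (T.le x hx)
  · rw [Dat.th, e, mul_zero]

theorem th' : D.Th' (D.th μ) ∧ D.flip.Th' (D.flip.th μ) := ⟨E.th1, E.flip.th1⟩

end Ex

/-- the total amplification is at least one -/
theorem br_one_le {H H1 H2 kap : ℝ → ℝ} {ε η : ℝ} (R : W.Br D H H1 H2 kap ε ηt C η)
    (hx : x ∈ D.Om) : 1 ≤ W.thD D x * D.rp x + W.thD D.flip x * D.rm x := by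
  have p0 := R.rp_pos hx
  have m0 := R.rm_pos hx
  have U0' := R.U_pos hx
  have key : ∀ r, 0 < r → D.h r ≤ |D.hd r| * r := fun r hr => by
    have a1 := R.des.le _ (inv_pos.2 hr)
    rw [R.H1_inv hr, R.H_inv hr] at a1
    exact a1.trans_eq (by field_simp)
  have hU := R.U_eq x
  have e := W.cw_eq (Umin := 0) R.k0 R.k1 (R.h_pos p0) (R.h_pos m0) (hU ▸ U0')
  rw [W.thD, W.thD, if_pos hx, if_pos (W.flip_Om R.bas.sol ▸ hx), W.flip_U, W.flip_rm,
    div_mul_eq_mul_div, div_mul_eq_mul_div, ← add_div, le_div_iff₀ U0', one_mul, hU, ← e]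
  change _ ≤ _ + W.cw D.κ0 0 (D.h (D.rm x)) (D.h (D.rp x)) * |D.hd (D.rm x)| * _
  nlinarith [mul_le_mul_of_nonneg_left (key _ p0)
      (W.cw_nonneg R.k0 0 (D.h (D.rp x)) (D.h (D.rm x))),
    mul_le_mul_of_nonneg_left (key _ m0) (W.cw_nonneg R.k0 0 (D.h (D.rm x)) (D.h (D.rp x)))]

theorem Ex.one_le (E : Ex D μ p K C1 rs ηt C T2 τ) (hx : x ∈ D.Om) :
    1 ≤ W.thD D x * D.rp x + W.thD D.flip x * D.rm x := br_one_le E.br hx

theorem one_le (E : Ex D μ p K C1 rs ηt C T2 τ) (hx : x ∈ D.Om) :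
    1 ≤ W.thD D x * D.rp x + W.thD D.flip x * D.rm x := E.one_le hx

/-- the two halves of the pair gain (no measurability of `a` is needed) -/
theorem PG_split (hv : Sol v) (a : EE n → ℝ) (ε T : ℝ) :
    PG v a (fun x y => Opp v ε T 0 x y ∧ 0 < ⟪y - x, nn v x⟫) +
      PG (ng v) a (fun x y => Opp (ng v) ε T 0 x y ∧ 0 < ⟪y - x, nn (ng v) x⟫) ≤
    PG v a (Opp v ε T 0) := by
  simp only [PG, psi_ng, Opp_ng hv, nn_ng hv, inner_neg_right]
  refine (le_lintegral_add _ _).trans (lintegral_mono fun x => ?_)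
  have m : MeasurableSet {y : EE n | 0 < ⟪y - x, nn v x⟫} :=
    (isOpen_lt continuous_const (by fun_prop)).measurableSet
  refine le_trans (add_le_add le_rfl (lintegral_mono_set fun y hy => ?_))
    (lintegral_inter_add_sdiff _ {y | Opp v ε T 0 x y} m).le
  exact ⟨hy.1, fun h => lt_asymm h (neg_pos.1 hy.2)⟩

/-- the form in which `FluxStmt` delivers the two halves -/
theorem Dat.PG_split (hv : Sol D.v) (ε T : ℝ) :
    PG D.v (fun x => D.Z x * D.W x) (fun x y => Opp D.v ε T 0 x y ∧ 0 < ⟪y - x, nn D.v x⟫) +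
      PG D.flip.v (fun x => D.flip.Z x * D.flip.W x)
        (fun x y => Opp D.flip.v ε T 0 x y ∧ 0 < ⟪y - x, nn D.flip.v x⟫) ≤
    PG D.v D.zz (Opp D.v ε T 0) := by
  rw [flip_Z hv]
  exact M.PG_split hv _ ε T

end

end Crest.Agent.N067.M
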