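import Crest.Agent.N067.F.Opp_Mg
import Crest.Agent.N067.M.FL
import Crest.Agent.N067.F.Bot
import Crest.Agent.N067.F.SrcS
import Crest.Agent.N067.M.Pphi_Mg
import Crest.Agent.N067.F.Cap
import Crest.Agent.N067.F.Tops_Mg
import Crest.Agent.N067.S.Defs
import Crest.Agent.N067.S.Phi0
import Crest.Agent.N067.S.TL0_Mg
import Crest.Agent.N067.B.Num_Mg
import Crest.Agent.N067.M.Bas
import Crest.Agent.N067.K.Lay
import Crest.Agent.N067.A.Modica
import Crest.Agent.N067.Z.Defs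
import Crest.Agent.N067.W.TLm
import Crest.Agent.N067.W.Defs
import Crest.Agent.N067.H.Quad
import Crest.Agent.N067.T.Dat

-- ▼ part N067/M/Flux0
section

/-!
# Row 67, block FLUX (helper89): `FluxStmt` from the two remaining pointwise leaves
-/

set_option autoImplicit false
set_option linter.dupNamespace false

namespace Crest.Agent.N067.M

theorem flux_of_set {n : ℕ} (hn : 4 ≤ n) (hS : SetStmt n) (hP : PphiStmt n) : FluxStmt n :=
  flux_of' (fl n) (x0 n) (shift n) (pt_of (fl n) (x0 n) hS (minus_of (fl n) (x0 n))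
    (pa_of (fl n) (x0 n) (src hn)) hP (pmain_of (fl n) (x0 n) (opp n) (pairS n)))

end Crest.Agent.N067.M
end

-- ▼ part N067/M/Flux1
section

/-!
# Row 67, block FLUX (helper89): `FluxStmt` from the two remaining geometric leaves
-/

set_option autoImplicit false
set_option linter.dupNamespace false

namespace Crest.Agent.N067.M

theorem flux_of_geo {n : ℕ} (hn : 4 ≤ n) (hL : ColStmt n) (hT : TopsStmt n) : FluxStmt n :=
  flux_of_set hn (set_of (fl n) (x0 n) (bot n) (cap n) hL hT) (pphi_of (fl n) (x0 n) (opp n))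

end Crest.Agent.N067.M
end

-- ▼ part N067/M/Flux
section

/-!
# Row 67, block FLUX (helper89): closed
-/

set_option autoImplicit false
set_option linter.dupNamespace false

namespace Crest.Agent.N067.M

theorem flux {n : ℕ} (hn : 4 ≤ n) : FluxStmt n := flux_of_geo hn (colS n) (tops n)

end Crest.Agent.N067.M
end

-- ▼ part N067/S/Phi
section

/-!
# Row 67, block STAB (helper62): the leaf PHI and the pointwise bounds of `pf`
-/

set_option autoImplicit false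

open MeasureTheory Laplacian InnerProductSpace Topology Filter Set
open scoped RealInnerProductSpace Gradient ContDiff ENNReal

namespace Crest.Agent.N067.S

open Crest.Agent.R077 Crest.Agent.N067.Ker Crest.Agent.N067.M

noncomputable section

variable {n : ℕ} {v : EE n → ℝ} {ε : ℝ}

theorem pf_eq_hh (ε : ℝ) (v : EE n → ℝ) (x y : EE n) :
    pf ε (‖nn v y - nn v x‖ ^ 2) = Ph.hh ε v (∇ (dd v) x) y := by
  rw [Ph.hh, Ph.fa_eq]; rfl





theorem phiS (n : ℕ) : PhiStmt n := by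
  intro v ε x hv hε
  obtain ⟨⟨i2, i3⟩, h⟩ := Ph.phi_all hv hε x
  have e1 : ∀ y, (ε / √(ε ^ 2 + ‖nn v y - nn v x‖ ^ 2)) ^ 3 = Ph.ww ε v (∇ (dd v) x) y :=
    fun y => by rw [Ph.ww, Ph.fa_eq]; rfl
  simp only [e1, pf_eq_hh, oR]
  rw [← ofReal_integral_eq_lintegral_ofReal i2 (Eventually.of_forall fun y => ?_),
    ← ofReal_integral_eq_lintegral_ofReal i3 (Eventually.of_forall fun y => ?_)]
  · exact ENNReal.ofReal_le_ofReal h
  · have := (Ph.hh_mem hv hε x y).1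
    have := hv.tt_nonneg y
    exact mul_nonneg (Gk_nonneg _ _) (by positivity)
  · have := (Ph.ww_mem hε v (∇ (dd v) x) y).1
    have := hv.psi_pos y
    have := hsq_nonneg (dd v) y
    exact mul_nonneg (Gk_nonneg _ _) (by positivity)

end

end Crest.Agent.N067.S
end

-- ▼ part N067/S/All
section

/-!
Row 67, block STAB: the output, `S.stab` and `M.stab`.
-/

set_option autoImplicit false

namespace Crest.Agent.N067

theorem S.stab {n : ℕ} (h4 : 4 ≤ n) (h9 : n ≤ 9) : S.StabStmt n :=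
  S.stab_of h9 (S.near (S.loc (by omega))) (S.bg (S.phiS n)) (S.deep h4)
    (S.far (S.lens (by omega)) (S.geo n) (S.tl0 n)) (S.tg n)

theorem M.stab {n : ℕ} (h : n = 7 ∨ n = 8) : M.StabStmt n :=
  S.mstab_of (S.stab (by omega) (by omega))

end Crest.Agent.N067
end

-- ▼ part N067/B/Bad
section

/-!
# Row 67, BAD (helper16): cores and ridges are paid by `t Z²` on the band
-/

set_option autoImplicit false
set_option linter.dupNamespace false

open MeasureTheory Laplacian InnerProductSpace Topology Filter Set Metric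
open scoped RealInnerProductSpace Gradient ContDiff

namespace Crest.Agent.N067

open Crest.Agent.R077 Crest.Agent.N067.Y Crest.Agent.N067.M

noncomputable section

variable {n : ℕ}

/-- both sides -/
theorem Bd.both (hn : 2 ≤ n) {ε τ : ℝ} (hε : 0 < ε) (hε1 : ε ≤ 1) (hτ : 0 < τ) :
    ∃ r0 R0 C : ℝ, 0 < r0 ∧ 1 ≤ R0 ∧ 1 ≤ C ∧ ∀ β : Bo, β.η ≤ ε / 4 →
      ∀ (v : EE n → ℝ) (ρm : ℝ) (p : EE n), Sol v → 0 < ρm → τ ≤ tt v p →
        ∃ (y0 : EE n) (R : ℝ), 0 ≤ R ∧ psi v p ≤ C * Real.exp (-((√2 - ε) * R)) ∧ |dd v p| ≤ R ∧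
          ∀ y ∈ ball y0 r0, ‖p - y‖ ≤ R + 1 ∧ |dd v y| ≤ 1 ∧ (R0 ≤ R → 1 / 2 ≤ NN v y →
            min (rt β v ρm y) (rt β (ng v) ρm y) ≤ (1 + 3 * ε) * R) := by
  obtain ⟨r0, R0, h0, h1, h⟩ := Bd.side hn hε hε1 hτ
  obtain ⟨C, hC1, hC⟩ := Bd.psi_decay n (a := √2 - ε) (by linarith [Real.one_lt_sqrt_two])
    (by linarith)
  refine ⟨r0, R0, C, h0, h1, hC1, fun β hβ v ρm p hv hρ ht => ?_⟩
  rcases le_total 0 (v p) with hp | hp
  · obtain ⟨y0, R, a0, a1, a2, a3⟩ := h β hβ v ρm p hv hρ hp ht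
    exact ⟨y0, R, a0, hC v hv p R a1, a2, fun y hy => ⟨(a3 y hy).1, (a3 y hy).2.1,
      fun b1 b2 => (min_le_left _ _).trans ((a3 y hy).2.2 b1 b2).2⟩⟩
  · obtain ⟨y0, R, a0, a1, a2, a3⟩ := h β hβ (ng v) ρm p (sol_ng hv) hρ (neg_nonneg.2 hp)
      (by rwa [tt_ng hv])
    simp only [dd_ng hv, abs_neg, NN_ng hv] at a2 a3
    exact ⟨y0, R, a0, psi_ng v p ▸ hC _ (sol_ng hv) p R a1, a2, fun y hy => ⟨(a3 y hy).1,
      (a3 y hy).2.1, fun b1 b2 => (min_le_right _ _).trans ((a3 y hy).2.2 b1 b2).2⟩⟩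

set_option maxHeartbeats 800000 in
/-- **BAD** -/
theorem M.bad_of (hn : 2 ≤ n) (x0 : X0Stmt n) : BadStmt n := by
  intro l b hb hl hg
  have r2 := sqrt2_pos
  obtain ⟨ε, ⟨⟨g1, g2⟩, hε1⟩, hε⟩ := ((((St.ev_small
    (f := fun ε => 2 * √2 + 3 * ε - 2 * ((√2 - ε) * (1 + b))) (ρ := 0) (by fun_prop)
      (by nlinarith)).and
    (St.ev_small (f := fun ε => 2 * √2 + 2 * l * (1 + 3 * ε) + 4 * ε - 5 / 2 * ((√2 - ε) * (1 + b)))
      (ρ := 0) (by fun_prop) (by nlinarith))).and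
    (St.ev_small (f := fun ε => ε) (by fun_prop) one_pos)).and self_mem_nhdsWithin).exists
  replace hε : 0 < ε := hε
  refine ⟨ε / 4, by positivity, fun β hβ K lam κ0 e0 e _ _ he0 he => ?_⟩
  obtain ⟨r0, R0, C, h0, h1, hC1, hB⟩ := Bd.both hn hε hε1.le he0
  obtain ⟨A, hA0, hA⟩ := charge n h0
  obtain ⟨Q, hQ0, hQ⟩ := hk_q_rate n (a := √2 + ε) (by linarith)
  obtain ⟨P, hP1, hP⟩ := Bd.poly_le (2 * K + (n + 1 : ℕ)) hε
  obtain ⟨Cf, hCf1, hCf⟩ := fl_cmp n
  obtain ⟨k0, hk0, hk⟩ := flatU n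
  obtain ⟨T, T0, hT⟩ : ∃ T : ℝ, 0 < T ∧ ∀ v : EE n → ℝ, Sol v → ∀ (p y : EE n) (R : ℝ),
      e0 ≤ tt v p → |dd v p| ≤ R → ‖p - y‖ ≤ R + 1 →
        1 ≤ T * Real.exp ((2 * √2 + ε) * R) * tt v y := by
    refine ⟨(Q + 1) * Real.exp (√2 + ε) / e0, by positivity, fun v hv p y R a1 a2 a3 => ?_⟩
    have b1 : Real.exp (-(√2 * R)) ≤ psi v p := by
      rw [psi_eq_Psi hv]
      exact (Real.exp_le_exp.2 (neg_le_neg (mul_le_mul_of_nonneg_left a2 r2.le))).trans
        (exp_le_Psi _)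
    have b2 : Real.exp (-(√2 * R)) * e0 ≤
        (Q + 1) * Real.exp ((√2 + ε) * (R + 1)) * (1 * tt v y) :=
      calc _ ≤ psi v p * tt v p := mul_le_mul b1 a1 he0.le (hv.psi_pos p).le
        _ ≤ Q * Real.exp ((√2 + ε) * dist p y) * (psi v y * tt v y) := hQ v hv p y
        _ ≤ _ := by
          have := hv.tt_nonneg y
          have := hv.psi_pos y
          have := psi_le_one v y
          rw [dist_eq_norm]
          gcongr
          linarith
    rw [Real.exp_neg, inv_mul_le_iff₀ (Real.exp_pos _)] at b2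
    have e1 : Real.exp (√2 * R) * Real.exp ((√2 + ε) * (R + 1)) =
        Real.exp (√2 + ε) * Real.exp ((2 * √2 + ε) * R) := by
      simp only [← Real.exp_add]; congr 1; ring
    rw [div_mul_eq_mul_div, div_mul_eq_mul_div, le_div_iff₀ he0]
    linarith [show Real.exp (√2 * R) * ((Q + 1) * Real.exp ((√2 + ε) * (R + 1)) * (1 * tt v y)) =
      (Q + 1) * Real.exp (√2 + ε) * Real.exp ((2 * √2 + ε) * R) * tt v y by
        linear_combination (Q + 1) * tt v y * e1]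
  have hB0 : 0 < (K ^ 2 + 1) * P * Real.exp ε * T := by positivity
  obtain ⟨fs, hfs⟩ := eventually_atTop.1 (Bd.num (K := K) hl hε hε1.le
    (Real.one_le_rpow hC1 (show 0 ≤ 1 + b by linarith))
    (σ := e / A / ((K ^ 2 + 1) * P * Real.exp ε * T)) (by positivity) (sub_neg.1 g1).le
    (sub_neg.1 g2).le)
  refine ((big_bas (fl n) x0 K lam κ0 β).and (big_num n K lam κ0 β
    (max fs (max (1 / k0) (Cf * (T * Real.exp ((2 * √2 + ε) * R0))))))).mono ?_
  rintro D ⟨B, rfl, -, hM, hf, C1, rs, -, -, O⟩ z1 z2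
  have hv := B.sol
  simp only [max_le_iff] at hM hf
  have M0 : 0 < D.M := one_pos.trans_le B.M1
  have mg : Measurable fun x => tt D.v x * D.Z x ^ 2 * D.W x ^ 2 :=
    (hv.continuous_tt.measurable.mul ((O.meas_Z B).pow_const 2)).mul
      (O.Wcd.continuous.measurable.pow_const 2)
  refine (hA _ {x | |dd D.v x| ≤ 1} _ (fun x => e / A * (tt D.v x * D.Z x ^ 2 * D.W x ^ 2))
    (isClosed_le hv.dd_diff.continuous.abs continuous_const).measurableSet (mg.const_mul _)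
    fun p hp => ?_).trans (le_of_eq ?_)
  swap
  · simp only [ENNReal.ofReal_mul (div_pos he hA0).le]
    rw [lintegral_const_mul _ mg.ennreal_ofReal, ← mul_assoc, ← ENNReal.ofReal_mul hA0.le,
      mul_div_cancel₀ _ hA0.ne']
  obtain ⟨y0, R, a0, a1, a2, a3⟩ := hB D.β hβ D.v D.ρm p hv
    ((pow_pos (one_pos.trans_le O.f1) 2).trans_le O.rm) hp
  refine ⟨y0, fun y hy => ⟨(a3 y hy).2.1, ?_⟩⟩
  obtain ⟨b1, -, b3⟩ := a3 y hy
  have b4 := hT D.v hv p y R hp a2 b1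
  have t0 := hv.tt_nonneg y
  obtain ⟨r, c1, c2, c3⟩ : ∃ r, 1 ≤ r ∧ r ≤ 1 + (1 + 3 * ε) * R ∧ D.ζ (D.h r) ≤ D.Z y := by
    by_cases hy : y ∈ D.Om
    swap
    · exact ⟨1, le_rfl, le_add_of_nonneg_right (by positivity),
        (O.zbd _ (O.h_pos one_pos)).2.trans_eq (if_neg hy).symm⟩
    have d1 : ph0 D.v y < 1 / D.M := hy.1
    have d2 : R0 ≤ R := le_of_not_ge fun h => by
      have e1 : 1 ≤ T * Real.exp ((2 * √2 + ε) * R0) * (Cf * ph0 D.v y) :=
        b4.trans (by have := (hCf _ hv O.pos.stab y y).2.1; gcongr)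
      rw [lt_div_iff₀ M0] at d1
      linarith [mul_le_mul_of_nonneg_left hM.2.2 (B.ph y).le]
    have d3 := b3 d2 (hk _ hv O.pos.stab y (d1.le.trans ((one_div_le M0 hk0).2 hM.2.1)))
    have d4 : 0 < min (D.rp y) (D.rm y) := lt_min (by linarith [B.rp8 hy]) (by linarith [B.rm8 hy])
    refine ⟨(1 + 3 * ε) * R, by linarith [mul_nonneg hε.le a0], by linarith, ?_⟩
    rw [O.Z_eq B hy]
    exact O.zmono (O.h_pos (d4.trans_le d3)).le (O.U_pos B hy).le
      ((O.h_anti d4 d3).trans (O.hmin_le_U B hy))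
  have c4 := hfs D.f0 hf.1 D.Z0 (D.ζ (D.h r)) r R (pb b D.v p) O.Z0_pos.le a0 c1 c2 (pb_pos hv b p)
    ((Real.rpow_le_rpow (hv.psi_pos p).le a1 (by linarith)).trans_eq (by
      rw [Real.mul_rpow (by linarith) (Real.exp_pos _).le, ← Real.exp_mul]; congr 2; ring))
    (z1 r c1) (z2 r c1)
  have c5 : D.W p ^ 2 * (1 + ‖p - y‖) ^ (n + 1) ≤
      (K ^ 2 + 1) * (P * (Real.exp ε * Real.exp (ε * R))) * D.W y ^ 2 := by
    have s0 : 0 < 1 + ‖p - y‖ := by positivity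
    have d1 := pow_le_pow_left₀ (O.Wpos p).le (O.Wcmp p y) 2
    have d2 := hP _ (norm_nonneg (p - y))
    rw [Real.rpow_add s0, Real.rpow_natCast, mul_comm 2 K, Real.rpow_mul s0.le, Real.rpow_two] at d2
    have d3 : Real.exp (ε * ‖p - y‖) ≤ Real.exp ε * Real.exp (ε * R) := by
      rw [← Real.exp_add, Real.exp_le_exp]; linarith [mul_le_mul_of_nonneg_left b1 hε.le]
    calc _ ≤ (K * (1 + ‖p - y‖) ^ K * D.W y) ^ 2 * (1 + ‖p - y‖) ^ (n + 1) := by gcongr
      _ = K ^ 2 * (((1 + ‖p - y‖) ^ K) ^ 2 * (1 + ‖p - y‖) ^ (n + 1)) * D.W y ^ 2 := by ring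
      _ ≤ _ := by
        have := d2.trans (mul_le_mul_of_nonneg_left d3 (by linarith))
        gcongr
        linarith
  have c6 : D.ζ (D.h r) ^ 2 ≤ D.Z y ^ 2 :=
    pow_le_pow_left₀ (O.zbd _ (O.h_pos (by linarith))).1.le c3 2
  have c7 : 0 ≤ D.Z0 ^ 2 * D.f0 ^ 3 * D.F (pb b D.v p) := by
    have := pb_pos hv b p
    have := O.f1
    unfold Dat.F
    positivity
  have e1 : Real.exp ((2 * √2 + 2 * ε) * R) = Real.exp (ε * R) * Real.exp ((2 * √2 + ε) * R) := by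
    rw [← Real.exp_add]; congr 1; ring
  calc _ = D.Z0 ^ 2 * D.f0 ^ 3 * D.F (pb b D.v p) * (D.W p ^ 2 * (1 + ‖p - y‖) ^ (n + 1)) * 1 := by
        ring
    _ ≤ D.Z0 ^ 2 * D.f0 ^ 3 * D.F (pb b D.v p) *
        ((K ^ 2 + 1) * (P * (Real.exp ε * Real.exp (ε * R))) * D.W y ^ 2) *
        (T * Real.exp ((2 * √2 + ε) * R) * tt D.v y) := by gcongr
    _ = D.Z0 ^ 2 * D.f0 ^ 3 * D.F (pb b D.v p) * Real.exp ((2 * √2 + 2 * ε) * R) *
        ((K ^ 2 + 1) * P * Real.exp ε * T * (tt D.v y * D.W y ^ 2)) := by rw [e1]; ring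
    _ ≤ e / A / ((K ^ 2 + 1) * P * Real.exp ε * T) * D.Z y ^ 2 *
        ((K ^ 2 + 1) * P * Real.exp ε * T * (tt D.v y * D.W y ^ 2)) :=
        mul_le_mul_of_nonneg_right (c4.trans (mul_le_mul_of_nonneg_left c6 (by positivity)))
          (by positivity)
    _ = _ := by field_simp

end

end Crest.Agent.N067
end

-- ▼ part N067/L/Abs
section

/-! # Row 67, block L (helper53): `MIData` passes to pointwise limits -/

set_option autoImplicit false

open MeasureTheory Laplacian InnerProductSpace Topology Filter Set Metric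
open scoped RealInnerProductSpace ContDiff Gradient ENNReal

namespace Crest.Agent.N067.L

open Crest.Agent.R077

noncomputable section

variable {n : ℕ}

theorem lint_Om_lt_top (hn : n < 20) (c : EE n) {R : ℝ} (hR : 1 ≤ R) (A : ℝ) :
    ∫⁻ x, ENNReal.ofReal (A * Om c R x) ≠ ⊤ := by
  have h := ((integrable_one_add_norm (E := EE n) (μ := volume) (r := 20) (by
    rw [finrank_euclideanSpace_fin]; exact_mod_cast hn)).comp_sub_right c).const_mul (|A| * R ^ 20)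
  refine ne_top_of_le_ne_top h.lintegral_lt_top.ne (lintegral_mono fun x => ?_)
  refine ENNReal.ofReal_le_ofReal ?_
  have R0 : 0 < R := by linarith
  have h0 := norm_nonneg (x - c)
  have h1 : 1 + ‖x - c‖ ≤ R * (1 + ‖x - c‖ / R) := by
    rw [mul_add, mul_div_cancel₀ _ R0.ne']; linarith
  have h2 : Om c R x ≤ R ^ 20 * (1 + ‖x - c‖) ^ (-(20 : ℝ)) := by
    rw [Om, Real.rpow_neg (by positivity), show (20 : ℝ) = (20 : ℕ) by norm_num, Real.rpow_natCast,
      ← div_eq_mul_inv, le_div_iff₀ (by positivity), inv_mul_le_iff₀ (by positivity), mul_comm,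
      ← mul_pow]
    exact pow_le_pow_left₀ (by positivity) h1 20
  rw [mul_assoc]
  exact mul_le_mul (le_abs_self A) h2 (by unfold Om; positivity) (abs_nonneg A)

/-- the data at a finite truncation level; `z` is the price of the truncation -/
structure Pre (v : EE n → ℝ) (γ s P θ b C0 κ1 c C rs f0 C1 z : ℝ) (G J : EE n → ℝ) : Prop where
  mG : Measurable G
  mJ : Measurable J
  nG : ∀ x, 0 ≤ G x
  nJ : ∀ x, 0 ≤ J x
  cr1 : ∀ x, G x ≤ C1 * psi v x ^ b
  cr2 : ∀ x, G x ≤ C1 * (J x ^ θ + z) * (psi v x ^ b) ^ (1 - θ)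
  low : ∀ κ, C0 / f0 ≤ κ → κ ≤ κ1 → ∀ x ∈ Sh v, ¬ Flat v κ x → c * (f0 * κ) ^ (2 * s) ≤ G x
  mi : ∀ (I : Finset (Fin n)) (x0 : EE n) (r0 R : ℝ), 7 ≤ I.card → rs ≤ r0 → r0 ≤ R → f0 ≤ R →
    ∫⁻ x in ball x0 R, ENNReal.ofReal
        (G x * rh I x0 r0 x ^ (-(2 * γ) - 2) + J x * rh I x0 r0 x ^ (-(2 * γ))) ≤
      ENNReal.ofReal C * ((∫⁻ x, ENNReal.ofReal
          (R ^ (-2 : ℝ) * (G x * rh I x0 r0 x ^ (-(2 * γ)) * Om x0 R x))) +
        ∫⁻ x, ENNReal.ofReal (min (f0 ^ (-2 : ℝ)) (f0 ^ P * rh I x0 r0 x ^ (-P - 2)) *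
          (psi v x ^ b * rh I x0 r0 x ^ (-(2 * γ)) * Om x0 R x)))

/-- **the limit** -/
theorem mi_of_lim {v : EE n → ℝ} {γ s P θ b C0 κ1 c C rs f0 C1 : ℝ} {z : ℕ → ℝ}
    {G J : ℕ → EE n → ℝ} {G' J' : EE n → ℝ} (hn : n < 20) (hv : Sol v) (hγ : 0 ≤ γ) (hθ : 0 ≤ θ)
    (hb : 0 ≤ b) (hrs : 1 ≤ rs) (h : ∀ m, Pre v γ s P θ b C0 κ1 c C rs f0 C1 (z m) (G m) (J m))
    (hz : Tendsto z atTop (𝓝 0)) (hG : ∀ x, Tendsto (fun m => G m x) atTop (𝓝 (G' x)))
    (hJ : ∀ x, Tendsto (fun m => J m x) atTop (𝓝 (J' x))) :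
    MIData v γ s P θ b C0 κ1 c C rs f0 G' J' := by
  have mG : Measurable G' :=
    measurable_of_tendsto_metrizable (fun m => (h m).mG) (tendsto_pi_nhds.2 hG)
  have mJ : Measurable J' :=
    measurable_of_tendsto_metrizable (fun m => (h m).mJ) (tendsto_pi_nhds.2 hJ)
  refine ⟨mG, mJ, fun x => ge_of_tendsto' (hG x) fun m => (h m).nG x,
    fun x => ge_of_tendsto' (hJ x) fun m => (h m).nJ x,
    ⟨C1, fun x => ⟨le_of_tendsto' (hG x) fun m => (h m).cr1 x, ?_⟩⟩,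
    fun κ h1 h2 x hx hf => ge_of_tendsto' (hG x) fun m => (h m).low κ h1 h2 x hx hf,
    fun I x0 r0 R hI h1 h2 h3 => ?_⟩
  · have := ((((hJ x).rpow_const (Or.inr hθ)).add hz).const_mul C1).mul_const
      ((psi v x ^ b) ^ (1 - θ))
    rw [add_zero] at this
    exact le_of_tendsto_of_tendsto' (hG x) this fun m => (h m).cr2 x
  have r1 : 1 ≤ r0 := hrs.trans h1
  have R1 : 1 ≤ R := r1.trans h2
  have mr : Measurable (rh I x0 r0) := by unfold rh; fun_prop
  have mO : Measurable (Om x0 R) := by unfold Om; fun_prop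
  have t1 := tendsto_lintegral_of_dominated_convergence (μ := volume)
    (F := fun m x => ENNReal.ofReal
      (R ^ (-2 : ℝ) * (G m x * rh I x0 r0 x ^ (-(2 * γ)) * Om x0 R x)))
    (f := fun x => ENNReal.ofReal (R ^ (-2 : ℝ) * (G' x * rh I x0 r0 x ^ (-(2 * γ)) * Om x0 R x)))
    (fun x => ENNReal.ofReal (|C1| * Om x0 R x))
    (fun m => by have := (h m).mG; fun_prop)
    (fun m => Eventually.of_forall fun x => ENNReal.ofReal_le_ofReal (by
      have a1 : R ^ (-2 : ℝ) ≤ 1 := Real.rpow_le_one_of_one_le_of_nonpos R1 (by norm_num)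
      have a2 : 1 ≤ rh I x0 r0 x := Real.one_le_sqrt.2 (le_add_of_le_of_nonneg (one_le_pow₀ r1)
        (Finset.sum_nonneg fun _ _ => sq_nonneg _))
      have a3 : rh I x0 r0 x ^ (-(2 * γ)) ≤ 1 :=
        Real.rpow_le_one_of_one_le_of_nonpos a2 (by linarith)
      have a4 : G m x ≤ |C1| := ((h m).cr1 x).trans ((mul_le_mul_of_nonneg_right (le_abs_self C1)
        (Real.rpow_nonneg (hv.psi_pos x).le b)).trans (mul_le_of_le_one_right (abs_nonneg _)
          (Real.rpow_le_one (hv.psi_pos x).le (by unfold psi; nlinarith [sq_nonneg (v x)]) hb)))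
      have a5 : 0 ≤ Om x0 R x := by unfold Om; positivity
      have a6 := (h m).nG x
      exact (mul_le_of_le_one_left (by positivity) a1).trans (mul_le_mul_of_nonneg_right
        ((mul_le_of_le_one_right a6 a3).trans a4) a5)))
    (lint_Om_lt_top hn x0 R1 _)
    (Eventually.of_forall fun x => ENNReal.tendsto_ofReal
      ((((hG x).mul_const _).mul_const _).const_mul _))
  have t2 := ENNReal.Tendsto.const_mul (a := ENNReal.ofReal C) (t1.add_const
    (∫⁻ x, ENNReal.ofReal (min (f0 ^ (-2 : ℝ)) (f0 ^ P * rh I x0 r0 x ^ (-P - 2)) *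
      (psi v x ^ b * rh I x0 r0 x ^ (-(2 * γ)) * Om x0 R x)))) (Or.inr ENNReal.ofReal_ne_top)
  rw [← t2.liminf_eq]
  refine le_trans ?_ (liminf_le_liminf (Eventually.of_forall fun m => (h m).mi I x0 r0 R hI h1 h2 h3))
  refine le_trans (lintegral_mono fun x => ?_) (lintegral_liminf_le fun m => by
    have := (h m).mG; have := (h m).mJ; fun_prop)
  exact (ENNReal.tendsto_ofReal (((hG x).mul_const _).add ((hJ x).mul_const _))).liminf_eq.ge

end

end Crest.Agent.N067.L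
end

-- ▼ part N067/Z/Conv
section

/-! # Row 67, TOP (helper53): the limit `ρm → ∞` -/

set_option autoImplicit false
set_option linter.dupNamespace false

open MeasureTheory Laplacian InnerProductSpace Topology Filter Set Metric
open scoped RealInnerProductSpace Gradient ContDiff ENNReal

namespace Crest.Agent.N067.M

open Crest.Agent.R077 Crest.Agent.N067.V Crest.Agent.N067.Y

noncomputable section

variable {n : ℕ}

theorem rt_mono_cap (β : Bo) (v : EE n → ℝ) {ρ ρ' : ℝ} (h : ρ ≤ ρ') (x : EE n) :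
    rt β v ρ x ≤ rt β v ρ' x := by
  have hb : BddBelow ({r | |dd v x| < r ∧ ¬ Fit β v x r} ∪ {ρ}) :=
    ⟨min |dd v x| ρ, fun r hr => hr.elim (fun h1 => min_le_of_left_le h1.1.le)
      fun h1 => min_le_of_right_le (le_of_eq (mem_singleton_iff.1 h1).symm)⟩
  refine le_csInf ⟨ρ', Or.inr rfl⟩ fun r hr => hr.elim (fun h1 => csInf_le hb (Or.inl h1))
    fun h1 => ?_
  rw [mem_singleton_iff.1 h1]
  exact (csInf_le hb (Or.inr rfl)).trans h

theorem wf_abs (D : Dat n) {C1 : ℝ} (h : 0 ≤ C1) (y : EE n) :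
    |D.wf C1 y| ≤ C1 * (|Real.log (D.M ^ 2)| + |Real.log (D.f0 / 80)|) := by
  have a1 := abs_nonneg (Real.log (D.M ^ 2))
  have a2 := abs_nonneg (Real.log (D.f0 / 80))
  have a3 := le_abs_self (Real.log (D.M ^ 2))
  have a4 := le_abs_self (Real.log (D.f0 / 80))
  have a5 := neg_abs_le (Real.log (D.M ^ 2))
  rw [Dat.wf, abs_mul, abs_of_nonneg h]
  refine mul_le_mul_of_nonneg_left (abs_le.2 ⟨le_max_of_le_left (by linarith),
    max_le (by linarith) ?_⟩) h
  split_ifs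
  · exact min_le_of_right_le (by linarith)
  · linarith

section mono

variable {D : Dat n} {K lam C1 rs ρ ρ' : ℝ} {x : EE n}

theorem cap_Om (D : Dat n) (C1 : ℝ) (h : ρ ≤ ρ') : (D.cap C1 ρ).Om ⊆ (D.cap C1 ρ').Om :=
  fun _ hx => ⟨hx.1, hx.2.1, hx.2.2.trans_le h⟩

theorem cap_U (O : (D.cap C1 ρ).Ok K lam C1 rs) (B : (D.cap C1 ρ).Bas) (h : ρ ≤ ρ')
    (hx : x ∈ (D.cap C1 ρ).Om) : (D.cap C1 ρ').U x ≤ (D.cap C1 ρ).U x := by
  have h1 : D.h (rt D.β D.v ρ' x) ≤ D.h (rt D.β D.v ρ x) :=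
    O.h_anti (lt_of_lt_of_le (by norm_num) (B.rp8 hx)) (rt_mono_cap _ _ h x)
  have h2 : D.h (rt D.β (ng D.v) ρ' x) ≤ D.h (rt D.β (ng D.v) ρ x) :=
    O.h_anti (lt_of_lt_of_le (by norm_num) (B.rm8 hx)) (rt_mono_cap _ _ h x)
  have h3 : 0 ≤ 1 + D.κ0 := add_nonneg zero_le_one O.k0.le
  exact max_le_max (add_le_add h1 h2) (mul_le_mul_of_nonneg_left (max_le_max h1 h2) h3)

theorem cap_Z (O : (D.cap C1 ρ).Ok K lam C1 rs) (B : (D.cap C1 ρ).Bas)
    (O' : (D.cap C1 ρ').Ok K lam C1 rs) (B' : (D.cap C1 ρ').Bas) (h : ρ ≤ ρ') (x : EE n) :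
    (D.cap C1 ρ').Z x ≤ (D.cap C1 ρ).Z x := by
  by_cases hx : x ∈ (D.cap C1 ρ).Om
  · have hx' := cap_Om D C1 h hx
    rw [O.Z_eq B hx, O'.Z_eq B' hx']
    exact O.zmono (O'.U_pos B' hx').le (O.U_pos B hx).le (cap_U O B h hx)
  · rw [show (D.cap C1 ρ).Z x = 1 from if_neg hx]
    exact (O'.Z_mem B' x).2

theorem cap_wf (O : (D.cap C1 ρ).Ok K lam C1 rs) (B : (D.cap C1 ρ).Bas)
    (O' : (D.cap C1 ρ').Ok K lam C1 rs) (B' : (D.cap C1 ρ').Bas) (h : ρ ≤ ρ') (h0 : 0 ≤ C1)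
    (x : EE n) : (D.cap C1 ρ).wf C1 x ≤ (D.cap C1 ρ').wf C1 x := by
  refine mul_le_mul_of_nonneg_left (max_le (le_max_left _ _) ?_) h0
  by_cases hx : x ∈ (D.cap C1 ρ).Om
  · have hx' := cap_Om D C1 h hx
    rw [if_pos hx, if_pos hx']
    exact le_max_of_le_right (min_le_min (neg_le_neg
      (Real.log_le_log (O'.U_pos B' hx') (cap_U O B h hx))) le_rfl)
  · rw [if_neg hx]
    exact le_max_left _ _

theorem cap_Th (O : (D.cap C1 ρ).Ok K lam C1 rs) (B : (D.cap C1 ρ).Bas)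
    (O' : (D.cap C1 ρ').Ok K lam C1 rs) (B' : (D.cap C1 ρ').Bas) (h : ρ ≤ ρ') (h0 : 0 ≤ C1)
    (x : EE n) : (D.cap C1 ρ).Th x ≤ (D.cap C1 ρ').Th x :=
  integral_mono (int_bav (φ0 n) (O.meas_wf B C1) (wf_abs _ h0) _)
    (int_bav (φ0 n) (O'.meas_wf B' C1) (wf_abs _ h0) _) fun y =>
    mul_le_mul_of_nonneg_left (cap_wf O B O' B' h h0 y) ((φ0 n).nonneg_normed _)

end mono

theorem convS (n : ℕ) : ConvStmt n := by
  intro D K C1 rs ρ0 h0 H x
  have hρ : ∀ a b : ℕ, a ≤ b → ρ0 + a ≤ ρ0 + b := fun a b h =>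
    add_le_add le_rfl (Nat.cast_le.2 h)
  have hT := tendsto_atTop_ciSup (f := fun m : ℕ => (D.cap C1 (ρ0 + m)).Th x)
    (fun a b h => cap_Th (H a).1 (H a).2 (H b).1 (H b).2 (hρ a b h) h0 x)
    ⟨C1 * Real.log D.f0, by rintro _ ⟨m, rfl⟩; exact (H m).1.Thi x⟩
  have hZ := tendsto_atTop_ciInf (f := fun m : ℕ => (D.cap C1 (ρ0 + m)).Z x)
    (fun a b h => cap_Z (H a).1 (H a).2 (H b).1 (H b).2 (hρ a b h) x)
    ⟨0, by rintro _ ⟨m, rfl⟩; exact ((H m).1.Z_mem (H m).2 x).1.le⟩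
  have hc : Tendsto (fun m : ℕ => (D.cap C1 (ρ0 + m)).ch x) atTop (𝓝 (Real.smoothTransition
      (1 - (|dd D.v x| - ⨆ m : ℕ, (D.cap C1 (ρ0 + m)).Th x)))) :=
    (Real.smoothTransition.continuous.tendsto _).comp ((hT.const_sub _).const_sub _)
  have h2 : ∀ᶠ m : ℕ in atTop, x ∈ (D.cap C1 (ρ0 + m)).Om →
      2 * min ((D.cap C1 (ρ0 + m)).rp x) ((D.cap C1 (ρ0 + m)).rm x) < ρ0 + m := by
    filter_upwards [(tendsto_natCast_atTop_atTop (R := ℝ)).eventually_gt_atTop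
      (4 * (1 / ph0 D.v x) - ρ0)] with m hm hx
    have : min ((D.cap C1 (ρ0 + m)).rp x) ((D.cap C1 (ρ0 + m)).rm x) ≤ 2 * (1 / ph0 D.v x) :=
      (H m).2.min_le hx
    linarith
  by_cases hx : ∃ m0 : ℕ, x ∈ (D.cap C1 (ρ0 + m0)).Om
  · obtain ⟨m0, hx⟩ := hx
    refine ⟨_, ((hc.pow 2).mul (hZ.pow 2)).congr' ?_, fun _ => h2⟩
    filter_upwards [eventually_ge_atTop m0] with m hm
    exact (if_pos (cap_Om D C1 (hρ _ _ hm) hx)).symm
  · refine ⟨if |dd D.v x| ≤ 1 then 1 else 0, tendsto_const_nhds.congr fun m => ?_, fun _ => h2⟩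
    exact (if_neg fun h => hx ⟨m, h⟩).symm

theorem limG (n : ℕ) : LimGStmt n := by
  intro hn v C0 κ1 c Co rs f0 Z0 Φ g A hv hCo hrs hf hZ hΦ mg mA bg cv low mi
  choose l hl hA using cv
  have t0 : (0 : ℝ) < θ0 := by norm_num [θ0]
  have t1 : (0 : ℝ) < 1 / θ0 := by positivity
  have mψ : Measurable (psi v) := by
    have := hv.1.continuous.measurable
    unfold psi; fun_prop
  have l0 : ∀ x, 0 ≤ l x := fun x => ge_of_tendsto' (hl x) fun m => (bg m x).1
  have l1 : ∀ x, l x ≤ 1 := fun x => le_of_tendsto' (hl x) fun m => (bg m x).2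
  have key := L.mi_of_lim (v := v) (γ := 11 / 10) (s := 51 / 50) (P := 3) (θ := 0) (b := 2)
    (C0 := C0) (κ1 := κ1) (c := c) (C := 2 ^ 20 * Co + 1) (rs := rs) (f0 := f0) (C1 := 1 / Z0 ^ 2)
    (z := fun _ => 0) (G := fun m x => g m x * psi v x ^ 2 / Z0 ^ 2)
    (J := fun m => (A m).indicator fun x => g m x ^ (1 / θ0) * psi v x ^ 2 / (Φ * Z0 ^ 2))
    (G' := fun x => l x * psi v x ^ 2 / Z0 ^ 2)
    (J' := fun x => l x ^ (1 / θ0) * psi v x ^ 2 / (Φ * Z0 ^ 2)) (by omega) hv (by norm_num)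
    le_rfl (by norm_num) hrs (fun m => ?_) tendsto_const_nhds
    (fun x => ((hl x).mul_const _).div_const _) (fun x => ?_)
  · refine ⟨_, _, key.mG, key.mJ, key.nG, key.nJ, ⟨(1 + (Φ * Z0 ^ 2) ^ θ0) / Z0 ^ 2, fun x => ?_⟩,
      key.low, key.mi⟩
    have p0 := hv.psi_pos x
    have a0 := l0 x
    have a1 := l1 x
    have a2 : 0 < (Φ * Z0 ^ 2) ^ θ0 := by positivity
    rw [Real.rpow_two]
    refine ⟨?_, ?_⟩
    · rw [div_mul_eq_mul_div]
      gcongr
      linarith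
    · rw [Real.div_rpow (by positivity) (by positivity), Real.mul_rpow (x := l x ^ (1 / θ0))
        (by positivity) (by positivity), ← Real.rpow_mul a0, one_div_mul_cancel t0.ne', Real.rpow_one,
        Real.rpow_sub (by positivity), Real.rpow_one]
      have a3 : 0 < (psi v x ^ 2) ^ θ0 := by positivity
      calc _ = (Φ * Z0 ^ 2) ^ θ0 / Z0 ^ 2 * (l x * (psi v x ^ 2) ^ θ0 / (Φ * Z0 ^ 2) ^ θ0) *
            (psi v x ^ 2 / (psi v x ^ 2) ^ θ0) := by field_simp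
        _ ≤ _ := by gcongr; linarith
  · have mm := mg m
    have mJ : Measurable fun x => g m x ^ (1 / θ0) * psi v x ^ 2 / (Φ * Z0 ^ 2) := by fun_prop
    have c1 : ∀ x, g m x * psi v x ^ 2 / Z0 ^ 2 ≤ 1 / Z0 ^ 2 * psi v x ^ (2 : ℝ) := fun x => by
      rw [Real.rpow_two, div_mul_eq_mul_div]
      gcongr
      exact (bg m x).2
    refine ⟨by fun_prop, mJ.indicator (mA m), fun x => by have := (bg m x).1; positivity,
      fun x => indicator_nonneg (fun y _ => by have := (bg m y).1; positivity) x, c1,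
      fun x => by simpa using c1 x, low m, fun I x0 r0 R hI h1 h2 h3 => ?_⟩
    have r0' : 0 < r0 := by linarith
    have R0 : 0 < R := by linarith
    have h := mi ⟨I, x0, r0, R⟩ m hI h1 h2 h3
    simp only at h
    have mW : Measurable (H.WW (11 / 10) I x0 r0 R) := (H.cd_WW r0').continuous.measurable
    have mr : Measurable (rh I x0 r0) := by unfold rh; fun_prop
    have mO : Measurable (Om x0 R) := by unfold Om; fun_prop
    have s1 : ∫⁻ x in ball x0 R, ENNReal.ofReal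
        (g m x * psi v x ^ 2 / Z0 ^ 2 * rh I x0 r0 x ^ (-(2 * (11 / 10 : ℝ)) - 2) +
          (A m).indicator (fun x => g m x ^ (1 / θ0) * psi v x ^ 2 / (Φ * Z0 ^ 2)) x *
            rh I x0 r0 x ^ (-(2 * (11 / 10 : ℝ)))) ≤ ENNReal.ofReal (1024 / Z0 ^ 2) *
        ((∫⁻ x, ENNReal.ofReal (g m x * psi v x ^ 2 * H.WW (11 / 10) I x0 r0 R x ^ 2 *
          (rh I x0 r0 x)⁻¹ ^ 2)) + ENNReal.ofReal Φ⁻¹ * (∫⁻ x in A m, ENNReal.ofReal
          (g m x ^ (1 / θ0) * psi v x ^ 2 * H.WW (11 / 10) I x0 r0 R x ^ 2))) := by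
      rw [← lintegral_const_mul _ (by fun_prop), ← lintegral_indicator (mA m),
        ← lintegral_add_left (by fun_prop), ← lintegral_const_mul' _ _ ENNReal.ofReal_ne_top]
      refine (setLIntegral_mono' measurableSet_ball fun x hx => ?_).trans
        (setLIntegral_le_lintegral _ _)
      have b0 := (bg m x).1
      have b1 := H.rh_pos (I := I) (c := x0) r0' x
      have b2 := H.le_WW_sq (γ := 11 / 10) (I := I) r0' hx
      have b3 : g m x * psi v x ^ 2 / Z0 ^ 2 * rh I x0 r0 x ^ (-(2 * (11 / 10 : ℝ)) - 2) ≤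
          1024 / Z0 ^ 2 * (g m x * psi v x ^ 2 * H.WW (11 / 10) I x0 r0 R x ^ 2 *
            (rh I x0 r0 x)⁻¹ ^ 2) := by
        rw [Real.rpow_sub b1, Real.rpow_two]
        calc _ ≤ g m x * psi v x ^ 2 / Z0 ^ 2 *
              (1024 * H.WW (11 / 10) I x0 r0 R x ^ 2 / rh I x0 r0 x ^ 2) := by gcongr
          _ = _ := by field_simp
      by_cases hx : x ∈ A m
      · rw [indicator_of_mem hx, indicator_of_mem hx, ← ENNReal.ofReal_mul (by positivity),
          ← ENNReal.ofReal_add (by positivity) (by positivity),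
          ← ENNReal.ofReal_mul (by positivity), mul_add]
        refine ENNReal.ofReal_le_ofReal (add_le_add b3 ?_)
        calc _ ≤ g m x ^ (1 / θ0) * psi v x ^ 2 / (Φ * Z0 ^ 2) *
              (1024 * H.WW (11 / 10) I x0 r0 R x ^ 2) := by gcongr
          _ = _ := by field_simp
      · rw [indicator_of_notMem hx, indicator_of_notMem hx, zero_mul, add_zero, add_zero,
          ← ENNReal.ofReal_mul (by positivity)]
        exact ENNReal.ofReal_le_ofReal b3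
    have s2 : ENNReal.ofReal (1 / R ^ 2) * (∫⁻ x, ENNReal.ofReal
        (g m x * psi v x ^ 2 * H.WW (11 / 10) I x0 r0 R x ^ 2)) ≤ ENNReal.ofReal (1024 * Z0 ^ 2) *
        ∫⁻ x, ENNReal.ofReal (R ^ (-2 : ℝ) * (g m x * psi v x ^ 2 / Z0 ^ 2 *
          rh I x0 r0 x ^ (-(2 * (11 / 10 : ℝ))) * Om x0 R x)) := by
      rw [← lintegral_const_mul' _ _ ENNReal.ofReal_ne_top,
        ← lintegral_const_mul' _ _ ENNReal.ofReal_ne_top]
      refine lintegral_mono fun x => ?_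
      have b0 := (bg m x).1
      have b2 := H.WW_sq_le (γ := 11 / 10) (I := I) (c := x0) r0' R0 x
      rw [← ENNReal.ofReal_mul (by positivity), ← ENNReal.ofReal_mul (by positivity),
        Real.rpow_neg R0.le, Real.rpow_two]
      refine ENNReal.ofReal_le_ofReal ?_
      calc _ ≤ 1 / R ^ 2 * (g m x * psi v x ^ 2 *
            (1024 * (rh I x0 r0 x ^ (-(2 * (11 / 10 : ℝ))) * Om x0 R x))) := by gcongr
        _ = _ := by field_simp
    have s3 : ENNReal.ofReal (Z0 ^ 2) * SRC v f0 ⟨I, x0, r0, R⟩ ≤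
        ENNReal.ofReal (1024 * Z0 ^ 2) * SRC v f0 ⟨I, x0, r0, R⟩ := by
      gcongr
      nlinarith [sq_nonneg Z0]
    refine (s1.trans (mul_le_mul_right (h.trans (mul_le_mul_right (add_le_add s2 s3) _)) _)).trans ?_
    rw [← mul_add, ← mul_assoc, ← mul_assoc, ← ENNReal.ofReal_mul (by positivity),
      ← ENNReal.ofReal_mul (by positivity)]
    refine mul_le_mul_left (ENNReal.ofReal_le_ofReal ?_) _
    rw [show 1024 / Z0 ^ 2 * Co * (1024 * Z0 ^ 2) = 2 ^ 20 * Co by field_simp; ring]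
    linarith
  · have t := (((hl x).rpow_const (Or.inr t1.le)).mul_const (psi v x ^ 2)).div_const (Φ * Z0 ^ 2)
    rcases (l0 x).eq_or_lt with h | h
    · rw [← h, Real.zero_rpow t1.ne', zero_mul, zero_div] at t ⊢
      refine squeeze_zero (fun m => indicator_nonneg (fun y _ => ?_) x)
        (fun m => indicator_le_self' (fun y _ => ?_) x) t
      · have := (bg m y).1; positivity
      · have := (bg m y).1; positivity
    · refine t.congr' ?_
      filter_upwards [hA x h] with m hm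
      rw [indicator_of_mem hm]

end

end Crest.Agent.N067.M
end

-- ▼ part N067/D/H
section

/-!
# Row 67, design (helper93): the profile `h` and `H y = h (1 / y)`, convexity, Kato constants
-/

set_option autoImplicit false

open Topology Filter Set

namespace Crest.Agent.N067.Ds

noncomputable section

/-- gluing of two differentiable pieces -/
theorem hasDerivAt_ite {f g : ℝ → ℝ} {f' g' a x : ℝ} (hf : x ≤ a → HasDerivAt f f' x)
    (hg : a ≤ x → HasDerivAt g g' x) (h0 : f a = g a) (h1 : x = a → f' = g') :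
    HasDerivAt (fun r => if r ≤ a then f r else g r) (if x ≤ a then f' else g') x := by
  rcases lt_trichotomy x a with h | h | h
  · rw [if_pos h.le]
    refine (hf h.le).congr_of_eventuallyEq ?_
    filter_upwards [Iio_mem_nhds h] with r hr
    exact if_pos (le_of_lt hr)
  · subst h
    rw [if_pos le_rfl]
    have e1 : HasDerivWithinAt (fun r => if r ≤ x then f r else g r) f' (Iic x) x :=
      (hf le_rfl).hasDerivWithinAt.congr (fun r hr => if_pos hr) (if_pos le_rfl)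
    have e2 : HasDerivWithinAt (fun r => if r ≤ x then f r else g r) f' (Ici x) x := by
      rw [h1 rfl]
      refine (hg le_rfl).hasDerivWithinAt.congr (fun r hr => ?_) (by rw [if_pos le_rfl, h0])
      rcases eq_or_lt_of_le (mem_Ici.1 hr) with e | e
      · rw [← e, if_pos le_rfl, h0]
      · exact if_neg (not_le.2 e)
    have := e1.union e2
    rwa [Iic_union_Ici, hasDerivWithinAt_univ] at this
  · rw [if_neg (not_le.2 h)]
    refine (hg h.le).congr_of_eventuallyEq ?_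
    filter_upwards [Ioi_mem_nhds h] with r hr
    exact if_neg (not_le.2 hr)

/-- lower slope -/
def Slp (G : ℝ → ℝ) (y c : ℝ) : Prop :=
  ∀ ε > 0, ∀ᶠ s in 𝓝 (0 : ℝ), (c - ε) * s ^ 2 ≤ (G (y + s) - G y) * s

theorem Slp.of_deriv {G : ℝ → ℝ} {y a c : ℝ} (h : HasDerivAt G a y) (hc : c ≤ a) : Slp G y c := by
  intro ε hε
  have h1 := (hasDerivAt_iff_isLittleO_nhds_zero.1 h).bound hε
  filter_upwards [h1] with s hs
  simp only [smul_eq_mul, Real.norm_eq_abs] at hs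
  have h2 : |(G (y + s) - G y - s * a) * s| ≤ ε * s ^ 2 := by
    rw [abs_mul, ← sq_abs s, pow_two, ← mul_assoc]; gcongr
  have h3 := neg_abs_le ((G (y + s) - G y - s * a) * s)
  nlinarith [mul_le_mul_of_nonneg_right hc (sq_nonneg s)]

theorem Slp.of_or {G A B : ℝ → ℝ} {y c : ℝ} (hA : Slp A y c) (hB : Slp B y c)
    (h : ∀ᶠ s in 𝓝 y, G s = A s ∨ G s = B s) (e1 : G y = A y) (e2 : G y = B y) : Slp G y c := by
  intro ε hε
  have h0 : Tendsto (fun s : ℝ => y + s) (𝓝 0) (𝓝 y) :=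
    Continuous.tendsto' (by fun_prop) 0 y (by simp)
  filter_upwards [hA ε hε, hB ε hε, h0.eventually h] with s h1 h2 h3
  rcases h3 with h3 | h3
  · rwa [h3, e1]
  · rwa [h3, e2]

/-- the final exponential rate -/
def lam : ℝ := 51 / 25
def TT (f0 : ℝ) : ℝ := 5 / 2 * f0
def T1 (f0 : ℝ) : ℝ := TT f0 - 4 / lam
/-- `h T1` -/
def h1 (f0 : ℝ) : ℝ := 2 / 27 * (4 / lam) ^ 4 / f0 ^ 5
def p3 (f0 r : ℝ) : ℝ := h1 f0 * Real.exp (-(lam * (r - T1 f0)))

/-- the profile -/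
def hh (f0 r : ℝ) : ℝ := if r ≤ f0 then 1 / r - 5 / (8 * f0) else
  if r ≤ T1 f0 then 2 / 27 * (TT f0 - r) ^ 4 / f0 ^ 5 else p3 f0 r
/-- its derivative -/
def hd (f0 r : ℝ) : ℝ := if r ≤ f0 then -(1 / r ^ 2) else
  if r ≤ T1 f0 then -(8 / 27 * (TT f0 - r) ^ 3 / f0 ^ 5) else -(lam * p3 f0 r)
def A2 (f0 r : ℝ) : ℝ := 8 / 27 * (r ^ 2 * (TT f0 - r) ^ 3) / f0 ^ 5
def A3 (f0 r : ℝ) : ℝ := lam * (r ^ 2 * p3 f0 r)
def B2 (f0 r : ℝ) : ℝ := 40 / 27 * (r * (TT f0 - r) ^ 2 * (r - f0)) / f0 ^ 5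
def B3 (f0 r : ℝ) : ℝ := lam * (r * p3 f0 r * (lam * r - 2))
/-- `- r² h' r` -/
def g1 (f0 r : ℝ) : ℝ := if r ≤ f0 then 1 else if r ≤ T1 f0 then A2 f0 r else A3 f0 r
def g2 (f0 r : ℝ) : ℝ := if r ≤ f0 then 0 else if r ≤ T1 f0 then B2 f0 r else B3 f0 r

def HH (f0 y : ℝ) : ℝ := hh f0 y⁻¹
def H1 (f0 y : ℝ) : ℝ := g1 f0 y⁻¹
def H2 (f0 y : ℝ) : ℝ := y⁻¹ ^ 2 * g2 f0 y⁻¹

variable {f0 r : ℝ}

theorem lam_pos : 0 < lam := by norm_num [lam]
theorem four_lam : 4 / lam = 100 / 51 := by norm_num [lam]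
theorem T1_eq (f0 : ℝ) : T1 f0 = 5 / 2 * f0 - 100 / 51 := by rw [T1, TT, four_lam]
theorem TT_sub (f0 : ℝ) : TT f0 - T1 f0 = 4 / lam := by rw [T1]; ring
theorem T1_ge (hf : 100 ≤ f0) : 2 * f0 ≤ T1 f0 := by rw [T1_eq]; linarith
theorem T1_lt (f0 : ℝ) : T1 f0 < TT f0 := by rw [T1_eq, TT]; linarith
theorem h1_pos (hf : 100 ≤ f0) : 0 < h1 f0 := by
  have := lam_pos
  have : 0 < f0 := by linarith
  unfold h1; positivity
theorem p3_pos (hf : 100 ≤ f0) (r : ℝ) : 0 < p3 f0 r := mul_pos (h1_pos hf) (Real.exp_pos _)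
theorem p3_T1 (f0 : ℝ) : p3 f0 (T1 f0) = h1 f0 := by simp [p3]

theorem hh_low (h : r ≤ f0) : hh f0 r = 1 / r - 5 / (8 * f0) := if_pos h
theorem hd_low (h : r ≤ f0) : hd f0 r = -(1 / r ^ 2) := if_pos h

theorem hh_mid (hf : 100 ≤ f0) (h : f0 ≤ r) (h' : r ≤ T1 f0) :
    hh f0 r = 2 / 27 * (TT f0 - r) ^ 4 / f0 ^ 5 := by
  rcases h.eq_or_lt with e | e
  · subst e
    rw [hh_low le_rfl, TT]; field_simp; ring
  · rw [hh, if_neg (not_le.2 e), if_pos h']

theorem hd_mid (hf : 100 ≤ f0) (h : f0 ≤ r) (h' : r ≤ T1 f0) :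
    hd f0 r = -(8 / 27 * (TT f0 - r) ^ 3 / f0 ^ 5) := by
  rcases h.eq_or_lt with e | e
  · subst e
    rw [hd_low le_rfl, TT]; field_simp; ring
  · rw [hd, if_neg (not_le.2 e), if_pos h']

theorem hh_top (hf : 100 ≤ f0) (h : T1 f0 ≤ r) : hh f0 r = p3 f0 r := by
  have := T1_ge hf
  rcases h.eq_or_lt with e | e
  · rw [← e, hh_mid hf (by linarith) le_rfl, TT_sub, p3_T1, h1]
  · rw [hh, if_neg (not_le.2 (by linarith)), if_neg (not_le.2 e)]

theorem hd_top (hf : 100 ≤ f0) (h : T1 f0 ≤ r) : hd f0 r = -(lam * p3 f0 r) := by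
  have := T1_ge hf
  rcases h.eq_or_lt with e | e
  · rw [← e, hd_mid hf (by linarith) le_rfl, TT_sub, p3_T1, h1, four_lam, lam]; ring
  · rw [hd, if_neg (not_le.2 (by linarith)), if_neg (not_le.2 e)]

theorem hh_T1 (hf : 100 ≤ f0) : hh f0 (T1 f0) = h1 f0 := by rw [hh_top hf le_rfl, p3_T1]

theorem hasDerivAt_p3 (f0 r : ℝ) : HasDerivAt (p3 f0) (-(lam * p3 f0 r)) r := by
  unfold p3
  refine ((((hasDerivAt_id r).sub_const (T1 f0)).const_mul lam).neg.exp.const_mul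
    (h1 f0)).congr_deriv ?_
  simp only [id, Pi.neg_apply]; ring

theorem hasDerivAt_hh (hf : 100 ≤ f0) (hr : 0 < r) : HasDerivAt (hh f0) (hd f0 r) r := by
  have hT := T1_ge hf
  have hf0 : 0 < f0 := by linarith
  have d2 : ∀ r, HasDerivAt (fun r => 2 / 27 * (TT f0 - r) ^ 4 / f0 ^ 5)
      (-(8 / 27 * (TT f0 - r) ^ 3 / f0 ^ 5)) r := fun r => by
    refine (((((hasDerivAt_id r).const_sub (TT f0)).fun_pow 4).const_mul (2 / 27)).div_const
      (f0 ^ 5)).congr_deriv ?_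
    simp only [id]; push_cast; ring
  refine hasDerivAt_ite (fun _ => ?_) (fun _ => hasDerivAt_ite (fun _ => d2 r)
    (fun _ => hasDerivAt_p3 f0 r) ?_ fun e => ?_) ?_ fun e => ?_
  · simpa [one_div] using (hasDerivAt_inv hr.ne').sub_const (5 / (8 * f0))
  · rw [TT_sub, p3_T1, h1]
  · rw [e, TT_sub, p3_T1, h1, four_lam, lam]; ring
  · rw [if_pos (by linarith), TT]; field_simp; ring
  · rw [e, if_pos (by linarith), TT]; field_simp; ring

theorem g1_eq (hr : 0 < r) : g1 f0 r = -(r ^ 2 * hd f0 r) := by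
  unfold g1 hd A2 A3
  split_ifs
  · field_simp
  · ring
  · ring

theorem hh_pos (hf : 100 ≤ f0) (hr : 0 < r) : 0 < hh f0 r := by
  have hf0 : 0 < f0 := by linarith
  unfold hh
  split_ifs with h1 h2
  · have : 5 / (8 * f0) < 1 / r := by rw [div_lt_div_iff₀ (by positivity) hr]; linarith
    linarith
  · have : 0 < TT f0 - r := by linarith [T1_lt f0]
    positivity
  · exact p3_pos hf r

theorem g1_pos (hf : 100 ≤ f0) (hr : 0 < r) : 0 < g1 f0 r := by
  have hf0 : 0 < f0 := by linarith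
  unfold g1 A2 A3
  split_ifs with h1 h2
  · exact one_pos
  · have : 0 < TT f0 - r := by linarith [T1_lt f0]
    positivity
  · have := p3_pos hf r
    have := lam_pos
    positivity

theorem hd_neg (hf : 100 ≤ f0) (hr : 0 < r) : hd f0 r < 0 := by
  have := g1_pos hf hr
  rw [g1_eq hr] at this
  by_contra h
  nlinarith [mul_nonneg (sq_nonneg r) (not_lt.1 h)]

theorem lam_r (hf : 100 ≤ f0) (h : T1 f0 ≤ r) : 40 ≤ lam * r := by
  have := T1_ge hf
  rw [lam]; linarith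

theorem B2_nonneg (hf : 100 ≤ f0) (h : f0 ≤ r) : 0 ≤ B2 f0 r := by
  have hf0 : 0 < f0 := by linarith
  have : 0 ≤ r := by linarith
  have : 0 ≤ r - f0 := by linarith
  unfold B2; positivity

theorem B3_nonneg (hf : 100 ≤ f0) (h : T1 f0 ≤ r) : 0 ≤ B3 f0 r := by
  have := lam_r hf h
  have := T1_ge hf
  have := p3_pos hf r
  have := lam_pos
  have : 0 ≤ r := by linarith
  have : 0 ≤ lam * r - 2 := by linarith
  unfold B3; positivity

theorem g2_nonneg (hf : 100 ≤ f0) (r : ℝ) : 0 ≤ g2 f0 r := by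
  unfold g2
  split_ifs with h1 h2
  · exact le_rfl
  · exact B2_nonneg hf (not_le.1 h1).le
  · exact B3_nonneg hf (not_le.1 h2).le

theorem hasDerivAt_A2 (f0 r : ℝ) : HasDerivAt (A2 f0) (-B2 f0 r) r := by
  unfold A2 B2
  refine (((((hasDerivAt_id r).fun_pow 2).fun_mul (((hasDerivAt_id r).const_sub (TT f0)).fun_pow
    3)).const_mul (8 / 27)).div_const (f0 ^ 5)).congr_deriv ?_
  simp only [id, TT]; push_cast; ring

theorem hasDerivAt_A3 (f0 r : ℝ) : HasDerivAt (A3 f0) (-B3 f0 r) r := by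
  unfold A3 B3
  refine ((((hasDerivAt_id r).fun_pow 2).fun_mul (hasDerivAt_p3 f0 r)).const_mul lam).congr_deriv ?_
  simp only [id]; push_cast; ring

theorem A2_f0 (hf : 100 ≤ f0) : A2 f0 f0 = 1 := by
  have hf0 : 0 < f0 := by linarith
  rw [A2, TT]; field_simp; ring

theorem A2_T1 (f0 : ℝ) : A2 f0 (T1 f0) = A3 f0 (T1 f0) := by
  rw [A2, A3, TT_sub, p3_T1, h1, four_lam, lam]; ring

theorem B2_T1 (hf : 100 ≤ f0) : B2 f0 (T1 f0) ≤ B3 f0 (T1 f0) := by
  have hf0 : 0 < f0 := by linarith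
  have hT := T1_ge hf
  rw [B2, B3, TT_sub, p3_T1, h1, four_lam, lam]
  have e : T1 f0 - f0 = 3 / 5 * T1 f0 - 2 / 5 * (100 / 51) := by rw [T1_eq]; ring
  rw [e, ← sub_nonneg]
  have : 51 / 25 * (T1 f0 * (2 / 27 * (100 / 51) ^ 4 / f0 ^ 5) * (51 / 25 * T1 f0 - 2)) -
      40 / 27 * (T1 f0 * (100 / 51) ^ 2 * (3 / 5 * T1 f0 - 2 / 5 * (100 / 51))) / f0 ^ 5 =
      8 / 27 * (100 / 51) ^ 2 * T1 f0 ^ 2 / f0 ^ 5 := by ring
  rw [this]; positivity

theorem g1_anti (hf : 100 ≤ f0) {x y : ℝ} (hxy : x ≤ y) : g1 f0 y ≤ g1 f0 x := by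
  have hT := T1_ge hf
  have a2 : AntitoneOn (A2 f0) (Ici f0) := antitoneOn_of_deriv_nonpos (convex_Ici _)
    (fun r _ => (hasDerivAt_A2 f0 r).continuousAt.continuousWithinAt)
    (fun r _ => (hasDerivAt_A2 f0 r).differentiableAt.differentiableWithinAt) fun r hr => by
      rw [(hasDerivAt_A2 f0 r).deriv]; linarith [B2_nonneg hf (interior_subset hr)]
  have a3 : AntitoneOn (A3 f0) (Ici (T1 f0)) := antitoneOn_of_deriv_nonpos (convex_Ici _)
    (fun r _ => (hasDerivAt_A3 f0 r).continuousAt.continuousWithinAt)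
    (fun r _ => (hasDerivAt_A3 f0 r).differentiableAt.differentiableWithinAt) fun r hr => by
      rw [(hasDerivAt_A3 f0 r).deriv]; linarith [B3_nonneg hf (interior_subset hr)]
  have e1 := A2_f0 hf
  have e2 := A2_T1 f0
  have b1 : A2 f0 (T1 f0) ≤ A2 f0 f0 := a2 self_mem_Ici (mem_Ici.2 (by linarith)) (by linarith)
  unfold g1
  split_ifs with h1 h2 h3 h4 h5 h6 h7
  · exact le_rfl
  · linarith
  · linarith
  · linarith [a2 self_mem_Ici (mem_Ici.2 (not_le.1 h1).le) (not_le.1 h1).le]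
  · exact a2 (mem_Ici.2 (not_le.1 ‹_›).le) (mem_Ici.2 (not_le.1 h1).le) hxy
  · linarith
  · linarith [a3 self_mem_Ici (mem_Ici.2 (not_le.1 ‹¬y ≤ T1 f0›).le) (not_le.1 ‹¬y ≤ T1 f0›).le]
  · linarith [a3 self_mem_Ici (mem_Ici.2 (not_le.1 ‹¬y ≤ T1 f0›).le) (not_le.1 ‹¬y ≤ T1 f0›).le,
      a2 (mem_Ici.2 (not_le.1 ‹¬x ≤ f0›).le) (mem_Ici.2 (by linarith : f0 ≤ T1 f0)) ‹x ≤ T1 f0›]
  · exact a3 (mem_Ici.2 (not_le.1 ‹¬x ≤ T1 f0›).le) (mem_Ici.2 (not_le.1 ‹¬y ≤ T1 f0›).le) hxy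

theorem g1_le_one (hf : 100 ≤ f0) (r : ℝ) : g1 f0 r ≤ 1 := by
  have := g1_anti hf (min_le_left r f0)
  rwa [g1, g1, if_pos (min_le_right r f0)] at this

/-- `m = r |h'| / h ≥ 1` -/
theorem hdec (hf : 100 ≤ f0) (hr : 0 < r) : hh f0 r ≤ r * |hd f0 r| := by
  have hf0 : 0 < f0 := by linarith
  rw [abs_of_neg (hd_neg hf hr)]
  unfold hh hd
  split_ifs with h1 h2
  · have : r * -(-(1 / r ^ 2)) = 1 / r := by field_simp
    have : 0 < 5 / (8 * f0) := by positivity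
    linarith
  · have h3 : 0 < TT f0 - r := by linarith [T1_lt f0]
    have h4 : TT f0 - r ≤ 4 * r := by rw [TT]; linarith [not_le.1 h1]
    have : r * -(-(8 / 27 * (TT f0 - r) ^ 3 / f0 ^ 5)) - 2 / 27 * (TT f0 - r) ^ 4 / f0 ^ 5 =
      2 / 27 * (TT f0 - r) ^ 3 * (4 * r - (TT f0 - r)) / f0 ^ 5 := by ring
    have h5 : 0 ≤ 4 * r - (TT f0 - r) := by linarith
    have : 0 ≤ 2 / 27 * (TT f0 - r) ^ 3 * (4 * r - (TT f0 - r)) / f0 ^ 5 := by positivity
    linarith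
  · nlinarith [lam_r hf (not_le.1 h2).le, p3_pos hf r]

theorem abs_hd (hf : 100 ≤ f0) (hr : 0 < r) : |hd f0 r| = g1 f0 r / r ^ 2 := by
  rw [abs_of_neg (hd_neg hf hr), g1_eq hr]; field_simp

theorem abs_hd_le (hf : 100 ≤ f0) (hr : 0 < r) : |hd f0 r| ≤ 1 / r ^ 2 := by
  rw [abs_hd hf hr]; gcongr; exact g1_le_one hf r

theorem hh_le (hf : 100 ≤ f0) (hr : 0 < r) : hh f0 r ≤ 1 / r := by
  have := abs_hd_le hf hr
  calc hh f0 r ≤ r * |hd f0 r| := hdec hf hr
    _ ≤ r * (1 / r ^ 2) := by gcongr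
    _ = 1 / r := by field_simp

/-- `Ok.hpos` -/
theorem hpos (hf : 100 ≤ f0) (r : ℝ) (hr : 0 < r) :
    0 < hh f0 r ∧ hh f0 r ≤ 1 / r ∧ HasDerivAt (hh f0) (hd f0 r) r ∧ hd f0 r ≤ 0 :=
  ⟨hh_pos hf hr, hh_le hf hr, hasDerivAt_hh hf hr, (hd_neg hf hr).le⟩

/-- `Ok.hlow` -/
theorem hlow (hf : 100 ≤ f0) (r : ℝ) (hr : 0 < r) (h : r ≤ f0) :
    3 / (8 * r) ≤ hh f0 r ∧ |hd f0 r| ≤ 3 / r * hh f0 r := by
  have hf0 : 0 < f0 := by linarith
  have h1 : 5 / (8 * f0) ≤ 5 / (8 * r) := by gcongr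
  have h2 : 3 / (8 * r) ≤ hh f0 r := by
    have : 3 / (8 * r) = 1 / r - 5 / (8 * r) := by field_simp; ring
    rw [hh_low h]; linarith
  refine ⟨h2, (abs_hd_le hf hr).trans ?_⟩
  calc 1 / r ^ 2 ≤ 3 / r * (3 / (8 * r)) := by
        rw [div_mul_div_comm, div_le_div_iff₀ (by positivity) (by positivity)]; nlinarith
    _ ≤ _ := by gcongr

/-- `Ok.hhigh` -/
theorem hhigh (hf : 100 ≤ f0) (r : ℝ) (h : f0 ≤ r) : |hd f0 r| ≤ lam * hh f0 r := by
  have hf0 : 0 < f0 := by linarith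
  rw [abs_of_neg (hd_neg hf (by linarith))]
  rcases le_total r (T1 f0) with h2 | h2
  · rw [hh_mid hf h h2, hd_mid hf h h2]
    have h3 : 0 < TT f0 - r := by linarith [T1_lt f0]
    have h4 : 0 ≤ lam * (TT f0 - r) - 4 := by rw [T1_eq] at h2; rw [lam, TT]; linarith
    have : lam * (2 / 27 * (TT f0 - r) ^ 4 / f0 ^ 5) - -(-(8 / 27 * (TT f0 - r) ^ 3 / f0 ^ 5)) =
      2 / 27 * (TT f0 - r) ^ 3 * (lam * (TT f0 - r) - 4) / f0 ^ 5 := by ring
    have : 0 ≤ 2 / 27 * (TT f0 - r) ^ 3 * (lam * (TT f0 - r) - 4) / f0 ^ 5 := by positivity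
    linarith
  · rw [hh_top hf h2, hd_top hf h2, neg_neg]

theorem hh_strictAnti (hf : 100 ≤ f0) : StrictAntiOn (hh f0) (Ioi 0) :=
  strictAntiOn_of_deriv_neg (convex_Ioi _)
    (fun r hr => (hasDerivAt_hh hf hr).continuousAt.continuousWithinAt) fun r hr => by
      rw [interior_Ioi] at hr
      rw [(hasDerivAt_hh hf hr).deriv]; exact hd_neg hf hr

theorem hh_anti (hf : 100 ≤ f0) {x y : ℝ} (hx : 0 < x) (hxy : x ≤ y) : hh f0 y ≤ hh f0 x :=
  (hh_strictAnti hf).antitoneOn hx (hx.trans_le hxy) hxy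

/-- the tangent line of the first piece is a global lower bound -/
theorem le_hh (hf : 100 ≤ f0) (hr : 0 < r) : 1 / r - 5 / (8 * f0) ≤ hh f0 r := by
  have hf0 : 0 < f0 := by linarith
  rcases le_total r f0 with h | h
  · rw [hh_low h]
  · have hm : MonotoneOn (fun r => hh f0 r - r⁻¹) (Ioi 0) := monotoneOn_of_deriv_nonneg (convex_Ioi _)
      (fun r hr => ((hasDerivAt_hh hf hr).fun_sub
        (hasDerivAt_inv (ne_of_gt hr))).continuousAt.continuousWithinAt)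
      (fun r hr => by
        rw [interior_Ioi] at hr
        exact ((hasDerivAt_hh hf hr).fun_sub
          (hasDerivAt_inv (ne_of_gt hr))).differentiableAt.differentiableWithinAt)
      fun r hr => by
        rw [interior_Ioi] at hr
        rw [((hasDerivAt_hh hf hr).fun_sub (hasDerivAt_inv (ne_of_gt hr))).deriv]
        have := abs_hd_le hf hr
        rw [one_div] at this
        linarith [neg_abs_le (hd f0 r)]
    have := hm hf0 hr h
    simp only [hh_low le_rfl, one_div] at this ⊢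
    linarith

/-- amplification on the middle piece -/
theorem m_mid (hf : 100 ≤ f0) (h : f0 ≤ r) (h' : r ≤ T1 f0) :
    |hd f0 r| * (TT f0 - r) = 4 * hh f0 r := by
  rw [abs_of_neg (hd_neg hf (by linarith)), hh_mid hf h h', hd_mid hf h h']; ring


/-! ### the convex profile -/

theorem slp_H1 (hf : 100 ≤ f0) {y : ℝ} (hy : 0 < y) : Slp (H1 f0) y (H2 f0 y) := by
  have hT := T1_ge hf
  have hi := hasDerivAt_inv hy.ne'
  have hc : ContinuousAt (fun s : ℝ => s⁻¹) y := hi.continuousAt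
  have d1 : HasDerivAt (fun _ : ℝ => (1 : ℝ)) 0 y := hasDerivAt_const y 1
  have d2 : HasDerivAt (fun s => A2 f0 s⁻¹) (y⁻¹ ^ 2 * B2 f0 y⁻¹) y :=
    ((hasDerivAt_A2 f0 y⁻¹).comp y hi).congr_deriv (by rw [inv_pow]; ring)
  have d3 : HasDerivAt (fun s => A3 f0 s⁻¹) (y⁻¹ ^ 2 * B3 f0 y⁻¹) y :=
    ((hasDerivAt_A3 f0 y⁻¹).comp y hi).congr_deriv (by rw [inv_pow]; ring)
  rcases lt_trichotomy y⁻¹ f0 with h | h | h
  · have e : H2 f0 y = 0 := by rw [H2, g2, if_pos h.le, mul_zero]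
    refine Slp.of_or (Slp.of_deriv d1 e.le) (Slp.of_deriv d1 e.le) ?_ (if_pos h.le) (if_pos h.le)
    filter_upwards [hc.eventually (Iio_mem_nhds h)] with s hs
    exact Or.inl (if_pos (le_of_lt hs))
  · have e : H2 f0 y = 0 := by rw [H2, g2, if_pos h.le, mul_zero]
    refine Slp.of_or (Slp.of_deriv d1 e.le) (Slp.of_deriv d2 ?_) ?_ (if_pos h.le) ?_
    · rw [e]; exact mul_nonneg (sq_nonneg _) (B2_nonneg hf h.ge)
    · filter_upwards [hc.eventually (Iio_mem_nhds (show y⁻¹ < T1 f0 by linarith))] with s hs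
      by_cases h1 : s⁻¹ ≤ f0
      · exact Or.inl (if_pos h1)
      · exact Or.inr (by rw [H1, g1, if_neg h1, if_pos (le_of_lt hs)])
    · rw [H1, g1, if_pos h.le, h, A2_f0 hf]
  · rcases lt_trichotomy y⁻¹ (T1 f0) with h' | h' | h'
    · have e : H2 f0 y = y⁻¹ ^ 2 * B2 f0 y⁻¹ := by rw [H2, g2, if_neg (not_le.2 h), if_pos h'.le]
      have e' : H1 f0 y = A2 f0 y⁻¹ := by rw [H1, g1, if_neg (not_le.2 h), if_pos h'.le]
      refine Slp.of_or (Slp.of_deriv d2 e.le) (Slp.of_deriv d2 e.le) ?_ e' e'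
      filter_upwards [hc.eventually (Ioo_mem_nhds h h')] with s hs
      exact Or.inl (by rw [H1, g1, if_neg (not_le.2 hs.1), if_pos hs.2.le])
    · have e : H2 f0 y = y⁻¹ ^ 2 * B2 f0 y⁻¹ := by rw [H2, g2, if_neg (not_le.2 h), if_pos h'.le]
      have e' : H1 f0 y = A2 f0 y⁻¹ := by rw [H1, g1, if_neg (not_le.2 h), if_pos h'.le]
      refine Slp.of_or (Slp.of_deriv d2 e.le) (Slp.of_deriv d3 ?_) ?_ e' ?_
      · rw [e, h']; gcongr; exact B2_T1 hf
      · filter_upwards [hc.eventually (Ioi_mem_nhds h)] with s hs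
        by_cases h1 : s⁻¹ ≤ T1 f0
        · exact Or.inl (by rw [H1, g1, if_neg (not_le.2 hs), if_pos h1])
        · exact Or.inr (by rw [H1, g1, if_neg (not_le.2 hs), if_neg h1])
      · rw [e', h', A2_T1]
    · have e : H2 f0 y = y⁻¹ ^ 2 * B3 f0 y⁻¹ := by
        rw [H2, g2, if_neg (not_le.2 h), if_neg (not_le.2 h')]
      have e' : H1 f0 y = A3 f0 y⁻¹ := by rw [H1, g1, if_neg (not_le.2 h), if_neg (not_le.2 h')]
      refine Slp.of_or (Slp.of_deriv d3 e.le) (Slp.of_deriv d3 e.le) ?_ e' e'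
      filter_upwards [hc.eventually (Ioi_mem_nhds h')] with s hs
      have hs' : T1 f0 < s⁻¹ := hs
      exact Or.inl (by rw [H1, g1, if_neg (not_le.2 (by linarith)), if_neg (not_le.2 hs')])

theorem hasDerivAt_HH (hf : 100 ≤ f0) {y : ℝ} (hy : 0 < y) : HasDerivAt (HH f0) (H1 f0 y) y := by
  refine ((hasDerivAt_hh hf (inv_pos.2 hy)).comp y (hasDerivAt_inv hy.ne')).congr_deriv ?_
  rw [H1, g1_eq (inv_pos.2 hy), inv_pow]; ring

theorem H1_eq (hf : 100 ≤ f0) {y : ℝ} (hy : 0 < y) : H1 f0 y * y = y⁻¹ * |hd f0 y⁻¹| := by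
  rw [H1, abs_hd hf (inv_pos.2 hy)]; field_simp

theorem H1_le_one (hf : 100 ≤ f0) (y : ℝ) : H1 f0 y ≤ 1 := g1_le_one hf _

theorem le_HH (hf : 100 ≤ f0) {y : ℝ} (hy : 0 < y) : y - 5 / (8 * f0) ≤ HH f0 y := by
  simpa [HH] using le_hh hf (inv_pos.2 hy)

theorem hdes (hf : 100 ≤ f0) : W.HDes (HH f0) (H1 f0) (H2 f0) where
  pos y hy := hh_pos hf (inv_pos.2 hy)
  hd y hy := hasDerivAt_HH hf hy
  pos1 y hy := g1_pos hf (inv_pos.2 hy)
  mono x hx y _ hxy := g1_anti hf (inv_anti₀ hx hxy)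
  le y hy := by rw [mul_comm, H1_eq hf hy]; exact hdec hf (inv_pos.2 hy)
  pos2 y _ := mul_nonneg (sq_nonneg _) (g2_nonneg hf _)
  jet y hy := W.jet_of_slope
    (by filter_upwards [Ioi_mem_nhds hy] with s hs using hasDerivAt_HH hf hs) (slp_H1 hf hy)

/-! ### Kato constants -/


/-- the bound of the power range -/
theorem kato_U (hf : 100 ≤ f0) {k0 a b κ : ℝ} (ha : 0 < a) (hb : 0 < b) (h0 : 0 ≤ κ)
    (h : κ * (W.U0 k0 (HH f0 a) (HH f0 b) + 5 / (4 * f0)) ≤ 2 * W.U0 k0 (HH f0 a) (HH f0 b)) :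
    W.Kato (HH f0) (H1 f0) (H2 f0) k0 a b κ := by
  refine ⟨h0, Or.inl (le_trans ?_ h)⟩
  have h1 := le_HH hf ha
  have h2 := le_HH hf hb
  have h3 : HH f0 a + HH f0 b ≤ W.U0 k0 (HH f0 a) (HH f0 b) := le_max_left _ _
  have e : 5 / (4 * f0) = 5 / (8 * f0) + 5 / (8 * f0) := by ring
  calc κ * H1 f0 (max a b) * (a + b) ≤ κ * 1 * (a + b) := by
        gcongr; exact H1_le_one hf _
    _ ≤ _ := by rw [mul_one]; exact mul_le_mul_of_nonneg_left (by linarith) h0

theorem kato_top (hf : 100 ≤ f0) {y : ℝ} (h : T1 f0 < y⁻¹) :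
    19 / 20 * H1 f0 y ^ 2 ≤ HH f0 y * H2 f0 y := by
  have hT := T1_ge hf
  have h1 := lam_r hf h.le
  rw [HH, H1, H2, hh_top hf h.le, g1, g2, if_neg (not_le.2 (by linarith)), if_neg (not_le.2 h),
    if_neg (not_le.2 (by linarith)), if_neg (not_le.2 h), A3, B3, ← sub_nonneg]
  set r := y⁻¹
  have : p3 f0 r * (r ^ 2 * (lam * (r * p3 f0 r * (lam * r - 2)))) -
      19 / 20 * (lam * (r ^ 2 * p3 f0 r)) ^ 2 =
      lam * r ^ 3 * p3 f0 r ^ 2 * ((lam * r - 40) / 20) := by ring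
  rw [this]
  have := lam_pos
  have : 0 ≤ r := by linarith
  have : 0 ≤ lam * r - 40 := by linarith
  positivity

theorem kato_mid (hf : 100 ≤ f0) {y : ℝ} (h : 5 / 4 * f0 ≤ y⁻¹) :
    1 / 4 * H1 f0 y ^ 2 ≤ HH f0 y * H2 f0 y := by
  have hf0 : 0 < f0 := by linarith
  rcases le_or_gt y⁻¹ (T1 f0) with h' | h'
  · rw [HH, H1, H2, hh_mid hf (by linarith) h', g1, g2, if_neg (not_le.2 (by linarith)), if_pos h',
      if_neg (not_le.2 (by linarith)), if_pos h', A2, B2, ← sub_nonneg]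
    set r := y⁻¹
    have : 2 / 27 * (TT f0 - r) ^ 4 / f0 ^ 5 *
        (r ^ 2 * (40 / 27 * (r * (TT f0 - r) ^ 2 * (r - f0)) / f0 ^ 5)) -
        1 / 4 * (8 / 27 * (r ^ 2 * (TT f0 - r) ^ 3) / f0 ^ 5) ^ 2 =
        64 / 729 * ((TT f0 - r) ^ 3) ^ 2 * r ^ 3 * (r - 5 / 4 * f0) / f0 ^ 10 := by ring
    rw [this]
    have : 0 ≤ r := by linarith
    have : 0 ≤ r - 5 / 4 * f0 := by linarith
    positivity
  · nlinarith [kato_top hf h', sq_nonneg (H1 f0 y)]

theorem max_le_U0 (hf : 100 ≤ f0) {k0 a b : ℝ} (ha : 0 < a) (hb : 0 < b) :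
    HH f0 a ≤ W.U0 k0 (HH f0 a) (HH f0 b) ∧ HH f0 b ≤ W.U0 k0 (HH f0 a) (HH f0 b) := by
  have h3 : HH f0 a + HH f0 b ≤ W.U0 k0 (HH f0 a) (HH f0 b) := le_max_left _ _
  exact ⟨by linarith [(hdes hf).pos b hb], by linarith [(hdes hf).pos a ha]⟩

/-- `κ = 1 / 4` is always admissible -/
theorem kato_q (hf : 100 ≤ f0) {k0 a b : ℝ} (ha : 0 < a) (hb : 0 < b) :
    W.Kato (HH f0) (H1 f0) (H2 f0) k0 a b (1 / 4) := by
  have hf0 : 0 < f0 := by linarith
  have hm : 0 < max a b := lt_max_of_lt_left ha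
  refine ⟨by norm_num, ?_⟩
  rcases le_total (5 / 4 * f0) (max a b)⁻¹ with h | h
  · exact Or.inr ⟨kato_mid hf (h.trans (inv_anti₀ ha (le_max_left _ _))),
      kato_mid hf (h.trans (inv_anti₀ hb (le_max_right _ _)))⟩
  · left
    have hr := inv_pos.2 hm
    have h1 : H1 f0 (max a b) * max a b ≤ 4 * HH f0 (max a b) := by
      rw [H1_eq hf hm, HH]
      set r := (max a b)⁻¹
      rcases le_total r f0 with h2 | h2
      · have := (hlow hf r hr h2).2
        have h3 : r * (3 / r * hh f0 r) = 3 * hh f0 r := by field_simp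
        nlinarith [hh_pos hf hr, mul_le_mul_of_nonneg_left this hr.le]
      · rw [← m_mid hf h2 (by linarith [T1_ge hf]), mul_comm]
        gcongr
        rw [TT]; linarith
    have h2 : HH f0 (max a b) ≤ W.U0 k0 (HH f0 a) (HH f0 b) := by
      rcases max_choice a b with e | e <;> rw [e]
      exacts [(max_le_U0 hf ha hb).1, (max_le_U0 hf ha hb).2]
    have h3 : a + b ≤ 2 * max a b := by linarith [le_max_left a b, le_max_right a b]
    have h4 := ((hdes hf).pos1 _ hm).le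
    nlinarith [mul_le_mul_of_nonneg_left h3 h4]

/-- the exponential range -/
theorem kato_exp (hf : 100 ≤ f0) {k0 a b : ℝ} (ha : 0 < a) (hb : 0 < b)
    (h : W.U0 k0 (HH f0 a) (HH f0 b) < h1 f0) :
    W.Kato (HH f0) (H1 f0) (H2 f0) k0 a b (19 / 20) := by
  have key : ∀ y, 0 < y → HH f0 y < h1 f0 → T1 f0 < y⁻¹ := fun y hy h2 => by
    by_contra h3
    have := hh_anti hf (inv_pos.2 hy) (not_lt.1 h3)
    rw [hh_T1 hf] at this
    exact absurd h2 (not_lt.2 this)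
  exact ⟨by norm_num, Or.inr ⟨kato_top hf (key a ha ((max_le_U0 hf ha hb).1.trans_lt h)),
    kato_top hf (key b hb ((max_le_U0 hf ha hb).2.trans_lt h))⟩⟩

end

end Crest.Agent.N067.Ds
end

-- ▼ part N067/D/Defs
section

/-!
# Row 67, block D (helper1): the one-dimensional design of the master inequality (h93-X4)

`f = f0`.  The profile `h` is a function of the size `r`, `H y = h (1 / y)`; `ζ, s, b, c, kap` are
functions of `U`.  `bu = U b'`, `cu = U c'`, `s = U ζ' / ζ`.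
-/

set_option autoImplicit false

open Topology Filter Set

namespace Crest.Agent.N067.D

noncomputable section

/-- the exponential rate -/
def lam : ℝ := 51 / 25
/-- start of the exponential range -/
def T1 (f : ℝ) : ℝ := 5 / 2 * f - 4 / lam
/-- the middle piece -/
def h2 (f r : ℝ) : ℝ := 2 / (27 * f ^ 5) * (5 / 2 * f - r) ^ 4
def hT (f : ℝ) : ℝ := h2 f (T1 f)
/-- the last piece -/
def h3 (f r : ℝ) : ℝ := hT f * Real.exp (-(lam * (r - T1 f)))

def h (f r : ℝ) : ℝ := if r ≤ f then 1 / r - 5 / (8 * f) else if r ≤ T1 f then h2 f r else h3 f r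
def hd (f r : ℝ) : ℝ := if r ≤ f then -(1 / r ^ 2) else
  if r ≤ T1 f then -(8 / (27 * f ^ 5) * (5 / 2 * f - r) ^ 3) else -(lam * h3 f r)
def H (f y : ℝ) : ℝ := h f (1 / y)
def H1 (f y : ℝ) : ℝ := -(hd f (1 / y) / y ^ 2)
def H2 (f y : ℝ) : ℝ := if 1 / y ≤ f then 0 else
  if 1 / y ≤ T1 f then 40 / (27 * f ^ 5) * (5 / 2 * f - 1 / y) ^ 2 * (1 / y - f) / y ^ 3
  else lam * h3 f (1 / y) * (lam * (1 / y) - 2) / y ^ 3

/-- the Kato constant -/
def kap (f U : ℝ) : ℝ := if U < hT f then 19 / 20 else if U < 2 / f then 1 / 4 else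
  if U < 80 / f then 6 / 5 else 39 / 20

/-- clamp -/
def cl (a b U : ℝ) : ℝ := max a (min U b)
/-- its derivative from the right -/
def ch (a b U : ℝ) : ℝ := if a ≤ U ∧ U < b then 1 else 0

/-- top of the main range -/
def U3 (be Ub : ℝ) : ℝ := Ub * (be / (24 / 25 + be)) ^ 2

def ζ (f be Ub U : ℝ) : ℝ :=
  cl 0 (hT f) U / hT f * (cl (hT f) (80 / f) U / (80 / f)) ^ (3 / 4 : ℝ) *
    (cl (80 / f) (U3 be Ub) U / U3 be Ub) ^ (51 / 50 : ℝ) *
    (cl (U3 be Ub) (9 * U3 be Ub) U / (9 * U3 be Ub)) ^ (3 / 10 : ℝ)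
def s (f be Ub U : ℝ) : ℝ := ch 0 (hT f) U + 3 / 4 * ch (hT f) (80 / f) U +
  51 / 50 * ch (80 / f) (U3 be Ub) U + 3 / 10 * ch (U3 be Ub) (9 * U3 be Ub) U
def b (f be Ub U : ℝ) : ℝ := 24 / 25 / (f * cl (2 / f) (4 / f) U) - 6 / 25 +
  ((24 / 25 + be) * √(U3 be Ub / cl (U3 be Ub) Ub U) - be)
def bu (f be Ub U : ℝ) : ℝ := -(ch (2 / f) (4 / f) U * (24 / 25 / (f * U))) -
  ch (U3 be Ub) Ub U * ((24 / 25 + be) * √(U3 be Ub / U) / 2)
def c (Ub U : ℝ) : ℝ := 12 / 5 * (1 - cl (Ub / 2) Ub U / Ub)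
def cu (Ub U : ℝ) : ℝ := -(12 / 5 * ch (Ub / 2) Ub U * (U / Ub))
/-- the kinks -/
def Ex (f be Ub : ℝ) : Set ℝ :=
  {hT f, 2 / f, 4 / f, 80 / f, U3 be Ub, 9 * U3 be Ub, Ub / 2, Ub}

/-- admissible parameters -/
structure Par (f be Ub : ℝ) : Prop where
  f1 : 100 ≤ f
  be0 : 0 < be
  be1 : be ≤ 1 / 100
  Ub0 : 0 < Ub
  Ub1 : Ub ≤ 1
  big : (80 / U3 be Ub) ^ 102 ≤ f

/-- the output for the profile `h` (`theorem D.hOut : 100 ≤ f → HOut f`) -/
structure HOut (f : ℝ) : Prop where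
  hpos : ∀ r, 0 < r → 0 < h f r ∧ h f r ≤ 1 / r ∧ HasDerivAt (h f) (hd f r) r ∧ hd f r ≤ 0
  hlow : ∀ r, 0 < r → r ≤ f → 3 / (8 * r) ≤ h f r ∧ |hd f r| ≤ 3 / r * h f r
  hhigh : ∀ r, f ≤ r → |hd f r| ≤ lam * h f r
  hdec : ∀ r, 0 < r → h f r ≤ r * |hd f r|
  anti : StrictAntiOn (h f) (Ioi 0)
  /-- `|hd| ≤ 1 / r²` -/
  hd1 : ∀ r, 0 < r → r ^ 2 * |hd f r| ≤ 1
  sub : ∀ r, 0 < r → 1 / r - 5 / (8 * f) ≤ h f r
  hT0 : 0 < hT f ∧ hT f < 2 / f ∧ 2 * f ≤ T1 f ∧ T1 f ≤ 5 / 2 * f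
  tail : ∀ r, T1 f ≤ r → h f r = hT f * Real.exp (-(lam * (r - T1 f)))
  lower : ∀ r, 0 < r → 3 / (8 * f) * Real.exp (-(lam * r)) ≤ h f r
  mhd : Measurable (hd f)
  des : W.HDes (H f) (H1 f) (H2 f)
  one : ∀ y, 0 < y → H1 f y ≤ 1 ∧ y - 5 / (8 * f) ≤ H f y ∧ H f y ≤ y
  mkap : Measurable (kap f)
  bkap : ∀ U, 0 ≤ kap f U ∧ kap f U ≤ 2
  kato : ∀ k0 x y, 0 ≤ k0 → 0 < x → 0 < y →
    W.Kato (H f) (H1 f) (H2 f) k0 x y (kap f (W.U0 k0 (H f x) (H f y)))

/-- the output for the functions of `U` (`theorem D.zOut : Par f be Ub → ZOut f be Ub`);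
`Z0 = ζ (80 / f)`, `K = 10 ^ 7` -/
structure ZOut (f be Ub : ℝ) : Prop where
  ord : 0 < U3 be Ub ∧ 80 / f ≤ U3 be Ub ∧ 9 * U3 be Ub ≤ Ub / 400
  fin : (Ex f be Ub).Finite
  lip : LocallyLipschitzOn (Ioi 0) (ζ f be Ub) ∧ LocallyLipschitzOn (Ioi 0) (b f be Ub) ∧
    LocallyLipschitzOn (Ioi 0) (c Ub)
  der : ∀ U, 0 < U → U ∉ Ex f be Ub →
    HasDerivAt (ζ f be Ub) (s f be Ub U * ζ f be Ub U / U) U ∧
    HasDerivAt (b f be Ub) (bu f be Ub U / U) U ∧ HasDerivAt (c Ub) (cu Ub U / U) U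
  meas : Measurable (s f be Ub) ∧ Measurable (b f be Ub) ∧ Measurable (bu f be Ub) ∧
    Measurable (c Ub) ∧ Measurable (cu Ub)
  zmono : Monotone (ζ f be Ub)
  zcont : Continuous (ζ f be Ub)
  zbd : ∀ U, 0 < U → 0 < ζ f be Ub U ∧ ζ f be Ub U ≤ 1
  ztop : ∀ U, 9 * U3 be Ub ≤ U → ζ f be Ub U = 1 ∧ s f be Ub U = 0
  z2 : ∀ U θ, 0 < U → 0 ≤ θ → θ ≤ 1 → θ ^ (11 / 10 : ℝ) * ζ f be Ub U ≤ ζ f be Ub (θ * U)
  z1 : ∀ U θ, 0 < U → U ≤ 80 / f → 0 ≤ θ → θ ≤ 1 → θ * ζ f be Ub U ≤ ζ f be Ub (θ * U)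
  zdec : ∀ r, f ≤ r →
    ζ f be Ub (3 * h f r) ≤ 10 ^ 7 * ζ f be Ub (80 / f) * Real.exp (-(r - 3 * f)) ∧
    r ^ 4 * ζ f be Ub (3 * h f r) ≤ 10 ^ 7 * ζ f be Ub (80 / f) * f ^ 4
  /-- below `80 / f` -/
  zsub : ∀ U, 0 < U → U ≤ 80 / f → ζ f be Ub U ≤ ζ f be Ub (80 / f) * (f * U / 80) ^ (3 / 4 : ℝ)
  zmain : ∀ U, 80 / f ≤ U → U ≤ U3 be Ub →
    ζ f be Ub U = ζ f be Ub (80 / f) * (f * U / 80) ^ (51 / 50 : ℝ)
  zbad1 : ∀ r, 0 < r → ζ f be Ub (80 / f) * Real.exp (-(lam * r)) ≤ 10 ^ 7 * ζ f be Ub (h f r)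
  zbad2 : ∀ r, 1 ≤ r → r ≤ f →
    ζ f be Ub (80 / f) * (f / r) ^ (101 / 100 : ℝ) ≤ 10 ^ 7 * ζ f be Ub (h f r)
  zup : ∀ r, 0 < r → ζ f be Ub (3 * h f r) ≤ 3 * Real.exp (lam * T1 f) * Real.exp (-(lam * r))
  /-- the quadratic form is positive -/
  q1 : ∀ U, 0 < U → U ≤ Ub / 400 → c Ub U = 6 / 5 ∧ cu Ub U = 0 ∧ 0 < b f be Ub U ∧
    53 / 50 * (11 / 5 * s f be Ub U - b f be Ub U) ^ 2 + b f be Ub U / 50 ≤
      bu f be Ub U + 2 * s f be Ub U * b f be Ub U + b f be Ub U * (99 / 100 * kap f U - 1) -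
        s f be Ub U ^ 2
  q2 : ∀ U, 0 < U → 0 ≤ s f be Ub U ∧ s f be Ub U ≤ 11 / 10 * b f be Ub U ∧
    0 ≤ b f be Ub U ∧ b f be Ub U ≤ 6 / 5 ∧ -(1 / 2) ≤ bu f be Ub U ∧ bu f be Ub U ≤ 0 ∧
    0 ≤ c Ub U ∧ c Ub U ≤ 6 / 5 ∧ -(12 / 5) ≤ cu Ub U ∧ cu Ub U ≤ 0
  q3 : ∀ U, Ub / 400 ≤ U → s f be Ub U = 0 ∧ b f be Ub U ≤ 20 * be ∧
    -(10 * be) ≤ bu f be Ub U ∧ kap f U = 39 / 20
  bmain : ∀ U, 4 / f ≤ U → b f be Ub U ≤ 24 / 25 ∧ (U ≤ U3 be Ub → b f be Ub U = 24 / 25)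
  btop : ∀ U, U3 be Ub ≤ U → b f be Ub U ≤ be * √(Ub / U)
  bzero : ∀ U, Ub ≤ U → b f be Ub U = 0 ∧ bu f be Ub U = 0 ∧ c Ub U = 0 ∧ cu Ub U = 0

end

end Crest.Agent.N067.D
end

-- ▼ part N067/D/HOut
section

/-!
# Row 67, design (helper93): `D.hOut`
-/

set_option autoImplicit false

open Topology Filter Set

namespace Crest.Agent.N067.D

variable {f : ℝ}

theorem lam_eq : lam = Ds.lam := rfl
theorem T1_eq (f : ℝ) : T1 f = Ds.T1 f := rfl
theorem hT_eq (f : ℝ) : hT f = Ds.h1 f := by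
  rw [hT, h2, Ds.h1, T1, lam_eq]; ring
theorem h3_eq (f r : ℝ) : h3 f r = Ds.p3 f r := by rw [h3, hT_eq]; rfl
theorem h_eq (f : ℝ) : h f = Ds.hh f := funext fun r => by
  unfold h Ds.hh h2 Ds.TT
  rw [h3_eq, T1_eq]
  split_ifs
  · rfl
  · ring
  · rfl
theorem hd_eq (f : ℝ) : hd f = Ds.hd f := funext fun r => by
  unfold hd Ds.hd Ds.TT
  rw [h3_eq, T1_eq, lam_eq]
  split_ifs
  · rfl
  · ring
  · rfl
theorem H_eq (f : ℝ) : H f = Ds.HH f := funext fun y => by rw [H, h_eq, one_div]; rfl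
theorem H1_eq (f : ℝ) {y : ℝ} (hy : 0 < y) : H1 f y = Ds.H1 f y := by
  rw [H1, hd_eq, one_div, Ds.H1, Ds.g1_eq (inv_pos.2 hy), inv_pow]; ring
theorem H2_eq (f : ℝ) (y : ℝ) : H2 f y = Ds.H2 f y := by
  unfold H2 Ds.H2 Ds.g2 Ds.B2 Ds.B3 Ds.TT
  rw [h3_eq, T1_eq, lam_eq, one_div]
  split_ifs
  · ring
  · ring
  · ring

theorem kato_congr {k0 x y κ : ℝ} (hx : 0 < x) (hy : 0 < y)
    (h : W.Kato (Ds.HH f) (Ds.H1 f) (Ds.H2 f) k0 x y κ) : W.Kato (H f) (H1 f) (H2 f) k0 x y κ := by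
  unfold W.Kato at h ⊢
  rwa [H_eq, H1_eq f hx, H1_eq f hy, H1_eq f (lt_max_of_lt_left hx), H2_eq, H2_eq]

theorem hdes (hf : 100 ≤ f) : W.HDes (H f) (H1 f) (H2 f) := by
  have h0 := Ds.hdes hf
  rw [H_eq]
  exact ⟨h0.pos, fun y hy => H1_eq f hy ▸ h0.hd y hy, fun y hy => H1_eq f hy ▸ h0.pos1 y hy,
    fun x hx y hy hxy => by rw [H1_eq f hx, H1_eq f hy]; exact h0.mono hx hy hxy,
    fun y hy => H1_eq f hy ▸ h0.le y hy, fun y hy => H2_eq f y ▸ h0.pos2 y hy,
    fun y hy => by rw [H1_eq f hy, H2_eq]; exact h0.jet y hy⟩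

theorem lower (hf : 100 ≤ f) (r : ℝ) (hr : 0 < r) :
    3 / (8 * f) * Real.exp (-(lam * r)) ≤ Ds.hh f r := by
  have hf0 : 0 < f := by linarith
  have hl := Ds.lam_pos
  rw [lam_eq]
  rcases le_total r f with h1 | h1
  · have h2 : Real.exp (-(Ds.lam * r)) ≤ 1 := Real.exp_le_one_iff.2 (by nlinarith)
    calc 3 / (8 * f) * Real.exp (-(Ds.lam * r)) ≤ 3 / (8 * r) * 1 := by gcongr
      _ ≤ _ := by rw [mul_one]; exact (Ds.hlow hf r hr h1).1
  · have hD : ∀ s, f ≤ s → HasDerivAt (fun s => Ds.hh f s * Real.exp (Ds.lam * s))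
        ((Ds.hd f s + Ds.lam * Ds.hh f s) * Real.exp (Ds.lam * s)) s := fun s hs => by
      refine ((Ds.hasDerivAt_hh hf (hf0.trans_le hs)).fun_mul
        ((hasDerivAt_id s).const_mul Ds.lam).exp).congr_deriv ?_
      simp only [id]; ring
    have hm : MonotoneOn (fun s => Ds.hh f s * Real.exp (Ds.lam * s)) (Ici f) :=
      monotoneOn_of_deriv_nonneg (convex_Ici _)
        (fun s hs => (hD s hs).continuousAt.continuousWithinAt)
        (fun s hs => (hD s (interior_subset hs)).differentiableAt.differentiableWithinAt)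
        fun s hs => by
          rw [(hD s (interior_subset hs)).deriv]
          have := Ds.hhigh hf s (interior_subset hs)
          have h3 : 0 ≤ Ds.hd f s + Ds.lam * Ds.hh f s := by linarith [neg_abs_le (Ds.hd f s)]
          positivity
    have h2 : Ds.hh f f * Real.exp (Ds.lam * f) ≤ Ds.hh f r * Real.exp (Ds.lam * r) :=
      hm self_mem_Ici h1 h1
    have h3 := (Ds.hlow hf f hf0 le_rfl).1
    have h4 : 1 ≤ Real.exp (Ds.lam * f) := Real.one_le_exp (by positivity)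
    have h5 : 3 / (8 * f) ≤ Ds.hh f r * Real.exp (Ds.lam * r) := by
      have : 0 < 3 / (8 * f) := by positivity
      nlinarith
    rw [Real.exp_neg, ← div_eq_mul_inv, div_le_iff₀ (Real.exp_pos _)]
    exact h5

theorem h1_lt (hf : 100 ≤ f) : Ds.h1 f < 2 / f := by
  have hf0 : 0 < f := by linarith
  have h1 := Ds.hh_le hf (show 0 < Ds.T1 f by linarith [Ds.T1_ge hf])
  rw [Ds.hh_T1 hf] at h1
  refine h1.trans_lt ?_
  rw [div_lt_div_iff₀ (by linarith [Ds.T1_ge hf]) hf0]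
  linarith [Ds.T1_ge hf]

theorem hOut (hf : 100 ≤ f) : HOut f := by
  have hf0 : 0 < f := by linarith
  refine ⟨?_, ?_, ?_, ?_, ?_, ?_, ?_, ?_, ?_, ?_, ?_, hdes hf, ?_, ?_, ?_, ?_⟩
  · rw [h_eq, hd_eq]; exact Ds.hpos hf
  · rw [h_eq, hd_eq]; exact Ds.hlow hf
  · rw [h_eq, hd_eq]; exact Ds.hhigh hf
  · rw [h_eq, hd_eq]; exact fun r hr => Ds.hdec hf hr
  · rw [h_eq]; exact Ds.hh_strictAnti hf
  · rw [hd_eq]
    intro r hr
    rw [Ds.abs_hd hf hr, mul_div_cancel₀ _ (by positivity)]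
    exact Ds.g1_le_one hf r
  · rw [h_eq]; exact fun r hr => Ds.le_hh hf hr
  · rw [hT_eq, T1_eq]
    exact ⟨Ds.h1_pos hf, h1_lt hf, Ds.T1_ge hf, (Ds.T1_lt f).le⟩
  · rw [h_eq, hT_eq]; exact fun r hr => Ds.hh_top hf hr
  · rw [h_eq]; exact lower hf
  · unfold hd h3
    refine Measurable.ite measurableSet_Iic (by fun_prop)
      (Measurable.ite measurableSet_Iic (by fun_prop) (by fun_prop))
  · intro y hy
    rw [H1_eq f hy, H_eq]
    refine ⟨Ds.H1_le_one hf y, Ds.le_HH hf hy, ?_⟩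
    simpa [Ds.HH] using Ds.hh_le hf (inv_pos.2 hy)
  · unfold kap
    exact Measurable.ite measurableSet_Iio measurable_const (Measurable.ite measurableSet_Iio
      measurable_const (Measurable.ite measurableSet_Iio measurable_const measurable_const))
  · intro U
    unfold kap
    split_ifs <;> norm_num
  · intro k0 x y _ hx hy
    refine kato_congr hx hy ?_
    rw [H_eq]
    have e : 5 / (4 * f) = 5 / 8 * (2 / f) := by field_simp; ring
    have e' : 5 / (4 * f) = 1 / 64 * (80 / f) := by field_simp; ring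
    unfold kap
    split_ifs with h1 h2 h3
    · exact Ds.kato_exp hf hx hy (hT_eq f ▸ h1)
    · exact Ds.kato_q hf hx hy
    · exact Ds.kato_U hf hx hy (by norm_num) (by linarith [not_lt.1 h2])
    · have : 0 < 80 / f := by positivity
      exact Ds.kato_U hf hx hy (by norm_num) (by linarith [not_lt.1 h3])

end Crest.Agent.N067.D
end

-- ▼ part N067/D/Z0
section

/-!
# Row 67, block D (helper1): clamps, power factors, comparison
-/

set_option autoImplicit false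

open Topology Filter Set

namespace Crest.Agent.N067.D

noncomputable section

variable {a b' U : ℝ}

theorem cl_lip (a b' : ℝ) : LipschitzWith 1 (cl a b') :=
  (LipschitzWith.id.min_const b').const_max a

theorem cl_cont (a b' : ℝ) : Continuous (cl a b') := (cl_lip a b').continuous

theorem cl_mono (a b' : ℝ) : Monotone (cl a b') := fun _ _ h =>
  max_le_max le_rfl (min_le_min h le_rfl)

theorem le_cl (a b' U : ℝ) : a ≤ cl a b' U := le_max_left _ _

theorem cl_le (h : a ≤ b') (U : ℝ) : cl a b' U ≤ b' := max_le h (min_le_right _ _)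

theorem cl_of_le (h : U ≤ a) : cl a b' U = a := max_eq_left ((min_le_left _ _).trans h)

theorem cl_of_ge (hab : a ≤ b') (h : b' ≤ U) : cl a b' U = b' := by
  rw [cl, min_eq_right h, max_eq_right hab]

theorem cl_of_mem (h1 : a ≤ U) (h2 : U ≤ b') : cl a b' U = U := by
  rw [cl, min_eq_left h2, max_eq_right h1]

theorem cl_pos (hb : 0 < b') (hU : 0 < U) : 0 < cl a b' U :=
  (lt_min hU hb).trans_le (le_max_right _ _)

theorem ch_one (h1 : a ≤ U) (h2 : U < b') : ch a b' U = 1 := if_pos ⟨h1, h2⟩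
theorem ch_lt (h : U < a) : ch a b' U = 0 := if_neg fun h' => absurd h'.1 (not_le.2 h)
theorem ch_ge (h : b' ≤ U) : ch a b' U = 0 := if_neg fun h' => absurd h'.2 (not_lt.2 h)

theorem ch_cases (a b' U : ℝ) :
    (ch a b' U = 1 ∧ a ≤ U ∧ U < b') ∨ (ch a b' U = 0 ∧ (U < a ∨ b' ≤ U)) := by
  rcases lt_or_ge U a with h | h
  · exact Or.inr ⟨ch_lt h, Or.inl h⟩
  rcases lt_or_ge U b' with h' | h'
  · exact Or.inl ⟨ch_one h h', h, h'⟩
  · exact Or.inr ⟨ch_ge h', Or.inr h'⟩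

theorem meas_ch (a b' : ℝ) : Measurable (ch a b') :=
  Measurable.ite (measurableSet_Ico (a := a) (b := b')) measurable_const measurable_const

/-- the derivative of the clamp: from the right everywhere, two-sided off the kinks -/
theorem cl_der (hab : a ≤ b') {S : Set ℝ} (hS : S = Ici U ∨ (U ≠ a ∧ U ≠ b')) :
    HasDerivWithinAt (cl a b') (ch a b' U) S U := by
  have key : ∀ g : ℝ → ℝ, ∀ g', HasDerivAt g g' U → ∀ p q : ℝ, p ≤ U → U < q →
      (p = U → S = Ici U) → (∀ x, p ≤ x → x < q → cl a b' x = g x) →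
      HasDerivWithinAt (cl a b') g' S U := by
    intro g g' hg p q hp hq hpS he
    refine hg.hasDerivWithinAt.congr_of_eventuallyEq ?_ (he U hp hq)
    rcases hp.eq_or_lt with e | hlt
    · rw [hpS e]
      filter_upwards [Ico_mem_nhdsGE hq] with x hx using he x (e ▸ hx.1) hx.2
    · filter_upwards [mem_nhdsWithin_of_mem_nhds (Ioo_mem_nhds hlt hq)] with x hx using
        he x hx.1.le hx.2
  rcases ch_cases a b' U with ⟨e, h1, h2⟩ | ⟨e, h | h⟩ <;> rw [e]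
  · exact key id 1 (hasDerivAt_id U) a b' h1 h2
      (fun e => hS.resolve_right fun h => h.1 e.symm) fun x h1 h2 => cl_of_mem h1 h2.le
  · exact key (fun _ => a) 0 (hasDerivAt_const U a) (U - 1) a (by linarith) h
      (fun e => by linarith) fun x _ h2 => cl_of_le h2.le
  · exact key (fun _ => b') 0 (hasDerivAt_const U b') b' (U + 1) h (by linarith)
      (fun e => hS.resolve_right fun h => h.2 e.symm) fun x h1 _ => cl_of_ge hab h1

/-- a smooth function of the clamp; `φ' U` only matters inside the window -/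
theorem comp_cl_der (hab : a ≤ b') {S : Set ℝ} (hS : S = Ici U ∨ (U ≠ a ∧ U ≠ b'))
    {φ φ' : ℝ → ℝ} (hφ : HasDerivAt φ (φ' (cl a b' U)) (cl a b' U)) :
    HasDerivWithinAt (fun x => φ (cl a b' x)) (ch a b' U * φ' U) S U := by
  refine (hφ.comp_hasDerivWithinAt U (cl_der hab hS)).congr_deriv ?_
  rcases ch_cases a b' U with ⟨e, h1, h2⟩ | ⟨e, _⟩ <;> rw [e]
  · rw [cl_of_mem h1 h2.le, mul_comm]
  · simp

theorem ll_comp {u : ℝ → ℝ} {Ω : Set ℝ} (hu : LocallyLipschitzOn Ω u) {F : ℝ → ℝ}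
    (hF : ∀ x ∈ Ω, ContDiffAt ℝ 1 F (u x)) : LocallyLipschitzOn Ω fun x => F (u x) := by
  intro x hx
  obtain ⟨K, t, ht, hK⟩ := hu hx
  obtain ⟨L, s, hs, hL⟩ := (hF x hx).exists_lipschitzOnWith
  exact ⟨L * K, t ∩ u ⁻¹' s, inter_mem ht (hu.continuousOn x hx hs),
    hL.comp (hK.mono inter_subset_left) fun y hy => hy.2⟩

theorem ll_mul {u w : ℝ → ℝ} {Ω : Set ℝ} (hu : LocallyLipschitzOn Ω u)
    (hw : LocallyLipschitzOn Ω w) : LocallyLipschitzOn Ω fun x => u x * w x := by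
  have e : (fun x => u x * w x) = fun x => ((u x + w x) ^ 2 - (u x - w x) ^ 2) / 4 := by
    funext x; ring
  have h1 := ll_comp (hu.add hw) (F := fun y => y ^ 2) fun _ _ => by fun_prop
  have h2 := ll_comp (hu.sub hw) (F := fun y => y ^ 2) fun _ _ => by fun_prop
  rw [e]
  exact ll_comp (h1.sub h2) (F := fun y => y / 4) fun _ _ => by fun_prop

theorem ll_cl (a b' : ℝ) (Ω : Set ℝ) : LocallyLipschitzOn Ω (cl a b') :=
  (cl_lip a b').locallyLipschitz.locallyLipschitzOn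

/-- a power factor -/
def pf (a b' σ U : ℝ) : ℝ := (cl a b' U / b') ^ σ

variable {σ : ℝ}

theorem pf_pos (hb : 0 < b') (hU : 0 < U) : 0 < pf a b' σ U :=
  Real.rpow_pos_of_pos (div_pos (cl_pos hb hU) hb) _

theorem pf_nonneg (ha : 0 ≤ a) (hb : 0 < b') (U : ℝ) : 0 ≤ pf a b' σ U :=
  Real.rpow_nonneg (div_nonneg (ha.trans (le_cl _ _ _)) hb.le) _


theorem pf_one (hab : a ≤ b') (hb : 0 < b') (h : b' ≤ U) : pf a b' σ U = 1 := by
  rw [pf, cl_of_ge hab h, div_self hb.ne', Real.one_rpow]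

theorem pf_mono (ha : 0 ≤ a) (hb : 0 < b') (hσ : 0 ≤ σ) : Monotone (pf a b' σ) := fun x _ h =>
  Real.rpow_le_rpow (div_nonneg (ha.trans (le_cl _ _ x)) hb.le)
    (div_le_div_of_nonneg_right (cl_mono _ _ h) hb.le) hσ

theorem pf_cont (hσ : 0 ≤ σ) : Continuous (pf a b' σ) :=
  ((cl_cont a b').div_const b').rpow_const fun _ => Or.inr hσ

theorem pf_lip (hb : 0 < b') : LocallyLipschitzOn (Ioi 0) (pf a b' σ) :=
  ll_comp (ll_cl a b' _) (F := fun y => (y / b') ^ σ) fun _ hx =>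
    (contDiffAt_id.div_const b').rpow_const_of_ne (div_pos (cl_pos hb hx) hb).ne'

theorem pf_der (hab : a ≤ b') (hb : 0 < b') (hU : 0 < U) {S : Set ℝ}
    (hS : S = Ici U ∨ (U ≠ a ∧ U ≠ b')) :
    HasDerivWithinAt (pf a b' σ) (σ * ch a b' U * pf a b' σ U / U) S U := by
  have h0 := cl_pos (a := a) hb hU
  have := comp_cl_der hab hS (φ := fun y => (y / b') ^ σ)
    (φ' := fun y => 1 / b' * σ * (y / b') ^ (σ - 1))
    (((hasDerivAt_id _).div_const b').rpow_const (Or.inl (div_pos h0 hb).ne'))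
  refine this.congr_deriv ?_
  rcases ch_cases a b' U with ⟨e, h1, h2⟩ | ⟨e, _⟩ <;> rw [e]
  · rw [pf, cl_of_mem h1 h2.le, Real.rpow_sub_one (div_pos hU hb).ne']
    field_simp
  · simp

/-- comparison with a power -/
theorem pow_cmp {z s : ℝ → ℝ} (hc : Continuous z) (hp : ∀ U, 0 < U → 0 < z U)
    (hd : ∀ U, 0 < U → HasDerivWithinAt z (s U * z U / U) (Ici U) U) {x y : ℝ} (hx : 0 < x)
    (hxy : x ≤ y) (σ : ℝ) :
    ((∀ U, x ≤ U → U < y → s U ≤ σ) → z y ≤ z x * (y / x) ^ σ) ∧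
      ((∀ U, x ≤ U → U < y → σ ≤ s U) → z x * (y / x) ^ σ ≤ z y) := by
  have hy : 0 < y := hx.trans_le hxy
  have c1 : ContinuousOn (fun U => Real.log (z U)) (Icc x y) :=
    hc.continuousOn.log fun U hU => (hp U (hx.trans_le hU.1)).ne'
  have c2 : ContinuousOn (fun U => Real.log (z x) + σ * (Real.log U - Real.log x)) (Icc x y) :=
    continuousOn_const.add (continuousOn_const.mul
      ((continuousOn_id.log fun U hU => (hx.trans_le hU.1).ne').sub continuousOn_const))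
  have d1 : ∀ U ∈ Ico x y, HasDerivWithinAt (fun U => Real.log (z U)) (s U / U) (Ici U) U :=
    fun U hU => by
      have h0 := hx.trans_le hU.1
      refine ((hd U h0).log (hp U h0).ne').congr_deriv ?_
      have := (hp U h0).ne'
      field_simp
  have d2 : ∀ U ∈ Ico x y, HasDerivWithinAt
      (fun U => Real.log (z x) + σ * (Real.log U - Real.log x)) (σ / U) (Ici U) U :=
    fun U hU => ((((Real.hasDerivAt_log (hx.trans_le hU.1).ne').sub_const _).const_mul σ).const_add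
      _).hasDerivWithinAt
  have e : Real.log (z x * (y / x) ^ σ) = Real.log (z x) + σ * (Real.log y - Real.log x) := by
    rw [Real.log_mul (hp x hx).ne' (by positivity), Real.log_rpow (by positivity),
      Real.log_div hy.ne' hx.ne']
  have p1 : 0 < z x * (y / x) ^ σ := mul_pos (hp x hx) (by positivity)
  constructor
  · intro h
    rw [← Real.log_le_log_iff (hp y hy) p1, e]
    exact image_le_of_deriv_right_le_deriv_boundary c1 d1 (by simp) c2 d2
      (fun U hU => div_le_div_of_nonneg_right (h U hU.1 hU.2) (hx.le.trans hU.1)) ⟨hxy, le_rfl⟩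
  · intro h
    rw [← Real.log_le_log_iff p1 (hp y hy), e]
    exact image_le_of_deriv_right_le_deriv_boundary c2 d2 (by simp) c1 d1
      (fun U hU => div_le_div_of_nonneg_right (h U hU.1 hU.2) (hx.le.trans hU.1)) ⟨hxy, le_rfl⟩

end

end Crest.Agent.N067.D
end

-- ▼ part N067/D/Z1
section

/-!
# Row 67, block D (helper1): the table of `s, b, c, kap`
-/

set_option autoImplicit false

open Topology Filter Set

namespace Crest.Agent.N067.D

noncomputable section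

variable {f be Ub U : ℝ}

theorem Par.f0 (P : Par f be Ub) : 0 < f := by linarith [P.f1]

theorem Par.den (P : Par f be Ub) : 0 < 24 / 25 + be := by linarith [P.be0]

theorem Par.U30 (P : Par f be Ub) : 0 < U3 be Ub :=
  mul_pos P.Ub0 (pow_pos (div_pos P.be0 P.den) 2)

theorem Par.U3le (P : Par f be Ub) : 9 * U3 be Ub ≤ Ub / 400 := by
  have h1 : be / (24 / 25 + be) ≤ 1 / 97 := by
    rw [div_le_div_iff₀ P.den (by norm_num)]; linarith [P.be1]
  have h2 := pow_le_pow_left₀ (div_pos P.be0 P.den).le h1 2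
  have h3 := mul_le_mul_of_nonneg_left h2 P.Ub0.le
  rw [U3]
  linarith [P.Ub0]

theorem Par.leU3 (P : Par f be Ub) : 80 / f ≤ U3 be Ub := by
  have h1 : 1 ≤ 80 / U3 be Ub := by
    rw [le_div_iff₀ P.U30]; linarith [P.U3le, P.Ub1]
  have h2 : 80 / U3 be Ub ≤ f := (le_self_pow₀ h1 (by norm_num)).trans P.big
  rw [div_le_iff₀ P.U30] at h2
  rw [div_le_iff₀ P.f0]
  linarith

theorem Par.o24 (P : Par f be Ub) : 0 < 2 / f ∧ 2 / f < 4 / f ∧ 4 / f < 80 / f :=
  ⟨div_pos two_pos P.f0, div_lt_div_of_pos_right (by norm_num) P.f0,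
    div_lt_div_of_pos_right (by norm_num) P.f0⟩

theorem Par.g_eq (P : Par f be Ub) (U : ℝ) :
    (24 / 25 + be) * √(U3 be Ub / U) = be * √(Ub / U) := by
  have e : U3 be Ub / U = (be / (24 / 25 + be)) ^ 2 * (Ub / U) := by rw [U3]; ring
  rw [e, Real.sqrt_mul (sq_nonneg _), Real.sqrt_sq (div_pos P.be0 P.den).le, ← mul_assoc,
    mul_div_cancel₀ _ P.den.ne']

/-- the table -/
theorem table (P : Par f be Ub) (hT0 : 0 < hT f) (hT2 : hT f < 2 / f) (hU : 0 < U) :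
    (U < hT f ∧ s f be Ub U = 1 ∧ b f be Ub U = 6 / 5 ∧ bu f be Ub U = 0 ∧ kap f U = 19 / 20) ∨
    (hT f ≤ U ∧ U < 2 / f ∧ s f be Ub U = 3 / 4 ∧ b f be Ub U = 6 / 5 ∧ bu f be Ub U = 0 ∧
      kap f U = 1 / 4) ∨
    (2 / f ≤ U ∧ U < 4 / f ∧ s f be Ub U = 3 / 4 ∧ kap f U = 6 / 5 ∧ ∃ w, 6 / 25 ≤ w ∧
      w ≤ 12 / 25 ∧ b f be Ub U = w + 18 / 25 ∧ bu f be Ub U = -w) ∨
    (4 / f ≤ U ∧ U < 80 / f ∧ s f be Ub U = 3 / 4 ∧ b f be Ub U = 24 / 25 ∧ bu f be Ub U = 0 ∧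
      kap f U = 6 / 5) ∨
    (80 / f ≤ U ∧ U < U3 be Ub ∧ s f be Ub U = 51 / 50 ∧ b f be Ub U = 24 / 25 ∧
      bu f be Ub U = 0 ∧ kap f U = 39 / 20) ∨
    (U3 be Ub ≤ U ∧ U < Ub ∧ kap f U = 39 / 20 ∧ ∃ g, g = be * √(Ub / U) ∧ b f be Ub U = g - be ∧
      bu f be Ub U = -(g / 2) ∧ be ≤ g ∧ g ≤ 24 / 25 + be ∧ (U = U3 be Ub → g = 24 / 25 + be) ∧
      (U ≤ Ub / 400 → 20 * be ≤ g) ∧ (Ub / 400 ≤ U → g ≤ 20 * be) ∧
      ((U < 9 * U3 be Ub ∧ s f be Ub U = 3 / 10 ∧ (24 / 25 + be) / 3 ≤ g) ∨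
        (9 * U3 be Ub ≤ U ∧ s f be Ub U = 0 ∧ g ≤ (24 / 25 + be) / 3))) ∨
    (Ub ≤ U ∧ s f be Ub U = 0 ∧ b f be Ub U = 0 ∧ bu f be Ub U = 0 ∧ kap f U = 39 / 20) := by
  obtain ⟨o1, o2, o3⟩ := P.o24
  have o4 := P.leU3
  have o5 := P.U3le
  have o6 := P.U30
  have o7 := P.Ub0
  have f0 := P.f0
  have e2 : 24 / 25 / (f * (2 / f)) = 12 / 25 := by field_simp; norm_num
  have e4 : 24 / 25 / (f * (4 / f)) = 6 / 25 := by field_simp; norm_num
  have lo : U ≤ U3 be Ub → √(U3 be Ub / cl (U3 be Ub) Ub U) = 1 := fun h => by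
    rw [cl_of_le h, div_self o6.ne', Real.sqrt_one]
  rcases lt_or_ge U (hT f) with h1 | h1
  · refine Or.inl ⟨h1, ?_, ?_, ?_, if_pos h1⟩
    · rw [s, ch_one hU.le h1, ch_lt h1, ch_lt (by linarith), ch_lt (by linarith)]; norm_num
    · rw [b, lo (by linarith), cl_of_le (by linarith), e2]; ring
    · rw [bu, ch_lt (by linarith), ch_lt (by linarith)]; ring
  rcases lt_or_ge U (2 / f) with h2 | h2
  · refine Or.inr (Or.inl ⟨h1, h2, ?_, ?_, ?_, ?_⟩)
    · rw [s, ch_ge h1, ch_one h1 (by linarith), ch_lt (by linarith), ch_lt (by linarith)]; norm_num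
    · rw [b, lo (by linarith), cl_of_le h2.le, e2]; ring
    · rw [bu, ch_lt h2, ch_lt (by linarith)]; ring
    · rw [kap, if_neg (not_lt.2 h1), if_pos h2]
  rcases lt_or_ge U (80 / f) with h8 | h8
  · have es : s f be Ub U = 3 / 4 := by
      rw [s, ch_ge h1, ch_one h1 h8, ch_lt h8, ch_lt (by linarith)]; norm_num
    have ek : kap f U = 6 / 5 := by
      rw [kap, if_neg (not_lt.2 h1), if_neg (not_lt.2 h2), if_pos h8]
    rcases lt_or_ge U (4 / f) with h4 | h4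
    · refine Or.inr (Or.inr (Or.inl ⟨h2, h4, es, ek, 24 / 25 / (f * U), ?_, ?_, ?_, ?_⟩))
      · rw [← e4]; gcongr
      · rw [← e2]; gcongr
      · rw [b, lo (by linarith), cl_of_mem h2 h4.le]; ring
      · rw [bu, ch_one h2 h4, ch_lt (by linarith)]; ring
    · refine Or.inr (Or.inr (Or.inr (Or.inl ⟨h4, h8, es, ?_, ?_, ek⟩)))
      · rw [b, lo (by linarith), cl_of_ge o2.le h4, e4]; ring
      · rw [bu, ch_ge h4, ch_lt (by linarith)]; ring
  have ek : kap f U = 39 / 20 := by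
    rw [kap, if_neg (not_lt.2 h1), if_neg (not_lt.2 h2), if_neg (not_lt.2 h8)]
  have h4 : 4 / f ≤ U := by linarith
  rcases lt_or_ge U (U3 be Ub) with h3 | h3
  · refine Or.inr (Or.inr (Or.inr (Or.inr (Or.inl ⟨h8, h3, ?_, ?_, ?_, ek⟩))))
    · rw [s, ch_ge h1, ch_ge h8, ch_one h8 h3, ch_lt h3]; norm_num
    · rw [b, lo h3.le, cl_of_ge o2.le h4, e4]; ring
    · rw [bu, ch_ge h4, ch_lt h3]; ring
  rcases lt_or_ge U Ub with hb | hb
  · refine Or.inr (Or.inr (Or.inr (Or.inr (Or.inr (Or.inl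
      ⟨h3, hb, ek, _, rfl, ?_, ?_, ?_, ?_, ?_, ?_, ?_, ?_⟩)))))
    · rw [b, cl_of_ge o2.le h4, e4, cl_of_mem h3 hb.le, P.g_eq]; ring
    · rw [bu, ch_ge h4, ch_one h3 hb, P.g_eq]; ring
    · exact le_mul_of_one_le_right P.be0.le (Real.one_le_sqrt.2 ((one_le_div hU).2 hb.le))
    · rw [← P.g_eq]
      exact mul_le_of_le_one_right P.den.le (Real.sqrt_le_one.2 ((div_le_one hU).2 h3))
    · intro e
      rw [← P.g_eq, e, div_self o6.ne', Real.sqrt_one, mul_one]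
    · intro h
      rw [mul_comm]
      refine mul_le_mul_of_nonneg_left (Real.le_sqrt_of_sq_le ?_) P.be0.le
      rw [le_div_iff₀ hU]; linarith
    · intro h
      rw [mul_comm 20]
      refine mul_le_mul_of_nonneg_left (Real.sqrt_le_iff.2 ⟨by norm_num, ?_⟩) P.be0.le
      rw [div_le_iff₀ hU]; linarith
    rw [← P.g_eq, div_eq_mul_one_div (24 / 25 + be) 3]
    rcases lt_or_ge U (9 * U3 be Ub) with h9 | h9
    · refine Or.inl ⟨h9, ?_, mul_le_mul_of_nonneg_left (Real.le_sqrt_of_sq_le ?_) P.den.le⟩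
      · rw [s, ch_ge h1, ch_ge h8, ch_ge h3, ch_one h3 h9]; norm_num
      · rw [le_div_iff₀ hU]; linarith
    · refine Or.inr ⟨h9, ?_,
        mul_le_mul_of_nonneg_left (Real.sqrt_le_iff.2 ⟨by norm_num, ?_⟩) P.den.le⟩
      · rw [s, ch_ge h1, ch_ge h8, ch_ge h3, ch_ge h9]; norm_num
      · rw [div_le_iff₀ hU]; linarith
  · refine Or.inr (Or.inr (Or.inr (Or.inr (Or.inr (Or.inr ⟨hb, ?_, ?_, ?_, ek⟩)))))
    · rw [s, ch_ge h1, ch_ge h8, ch_ge h3, ch_ge (by linarith)]; norm_num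
    · rw [b, cl_of_ge o2.le h4, e4, cl_of_ge (by linarith) hb, P.g_eq, div_self o7.ne',
        Real.sqrt_one]
      ring
    · rw [bu, ch_ge h4, ch_ge hb]; ring

theorem c_low (P : Par f be Ub) (h : U < Ub / 2) : c Ub U = 6 / 5 ∧ cu Ub U = 0 := by
  have := P.Ub0
  rw [c, cu, cl_of_le h.le, ch_lt h]
  constructor
  · field_simp; norm_num
  · ring

theorem c_bd (P : Par f be Ub) (hU : 0 < U) :
    0 ≤ c Ub U ∧ c Ub U ≤ 6 / 5 ∧ -(12 / 5) ≤ cu Ub U ∧ cu Ub U ≤ 0 := by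
  have h0 := P.Ub0
  have h1 : cl (Ub / 2) Ub U / Ub ≤ 1 := (div_le_one h0).2 (cl_le (by linarith) U)
  have h2 : 1 / 2 ≤ cl (Ub / 2) Ub U / Ub := by
    rw [le_div_iff₀ h0]; linarith [le_cl (Ub / 2) Ub U]
  rw [c, cu]
  refine ⟨by linarith, by linarith, ?_⟩
  rcases ch_cases (Ub / 2) Ub U with ⟨e, _, h3⟩ | ⟨e, _⟩ <;> rw [e]
  · have := (div_le_one h0).2 h3.le
    have := div_pos hU h0
    constructor <;> linarith
  · norm_num

theorem c_zero (P : Par f be Ub) (h : Ub ≤ U) : c Ub U = 0 ∧ cu Ub U = 0 := by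
  have := P.Ub0
  rw [c, cu, cl_of_ge (by linarith) h, ch_ge h, div_self this.ne']
  norm_num

/-- the coefficients are admissible for `H.quad`, with the reserve `b / 50` -/
theorem adm (P : Par f be Ub) (hT0 : 0 < hT f) (hT2 : hT f < 2 / f) (hU : 0 < U)
    (h : U ≤ Ub / 400) : 0 < b f be Ub U ∧ H.Adm (bu f be Ub U + 2 * s f be Ub U * b f be Ub U +
      b f be Ub U * (99 / 100 * kap f U - 1) - b f be Ub U / 50) (b f be Ub U) (s f be Ub U) := by
  have b0 := P.be0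
  have b1 := P.be1
  have o7 := P.Ub0
  rcases table P hT0 hT2 hU with ⟨-, e1, e2, e3, e4⟩ | ⟨-, -, e1, e2, e3, e4⟩ |
    ⟨-, -, e1, e4, w, w1, w2, e2, e3⟩ | ⟨-, -, e1, e2, e3, e4⟩ | ⟨-, -, e1, e2, e3, e4⟩ |
    ⟨-, -, e4, g, -, e2, e3, g1, g2, -, g3, -, ⟨-, e1, g4⟩ | ⟨-, e1, g4⟩⟩ | ⟨h', -⟩
  any_goals rw [e1, e2, e3, e4]
  · exact ⟨by norm_num, by constructor <;> norm_num⟩
  · exact ⟨by norm_num, by constructor <;> norm_num⟩
  · exact ⟨by linarith, by constructor <;> nlinarith⟩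
  · exact ⟨by norm_num, by constructor <;> norm_num⟩
  · exact ⟨by norm_num, by constructor <;> norm_num⟩
  · exact ⟨by linarith, by constructor <;> nlinarith⟩
  · have := g3 h
    exact ⟨by linarith, by constructor <;> nlinarith⟩
  · linarith

end

end Crest.Agent.N067.D
end

-- ▼ part N067/D/Z
section

/-!
# Row 67, block D (helper1): the functions of `U`
-/

set_option autoImplicit false

open Topology Filter Set

namespace Crest.Agent.N067.D

noncomputable section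

variable {f be Ub U : ℝ}

theorem ζ_eq (f be Ub : ℝ) : ζ f be Ub = fun U => pf 0 (hT f) 1 U * pf (hT f) (80 / f) (3 / 4) U *
    pf (80 / f) (U3 be Ub) (51 / 50) U * pf (U3 be Ub) (9 * U3 be Ub) (3 / 10) U := by
  funext U
  simp only [ζ, pf, Real.rpow_one]

theorem mul_der {A B : ℝ → ℝ} {α β : ℝ} {S : Set ℝ} (hA : HasDerivWithinAt A (α * A U / U) S U)
    (hB : HasDerivWithinAt B (β * B U / U) S U) :
    HasDerivWithinAt (fun x => A x * B x) ((α + β) * (A U * B U) / U) S U :=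
  (hA.mul hB).congr_deriv (by ring)

theorem ζ_der (P : Par f be Ub) (hT0 : 0 < hT f) (hT2 : hT f < 2 / f) (hU : 0 < U) {S : Set ℝ}
    (hS : S = Ici U ∨ U ∉ Ex f be Ub) :
    HasDerivWithinAt (ζ f be Ub) (s f be Ub U * ζ f be Ub U / U) S U := by
  obtain ⟨o1, o2, o3⟩ := P.o24
  have o4 := P.leU3
  have o6 := P.U30
  simp only [Ex, mem_insert_iff, mem_singleton_iff, not_or] at hS
  rw [ζ_eq]
  refine (mul_der (mul_der (mul_der
    (pf_der hT0.le hT0 hU (hS.imp_right fun h => ⟨hU.ne', h.1⟩))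
    (pf_der (by linarith) (by linarith) hU (hS.imp_right fun h => ⟨h.1, h.2.2.2.1⟩)))
    (pf_der o4 o6 hU (hS.imp_right fun h => ⟨h.2.2.2.1, h.2.2.2.2.1⟩)))
    (pf_der (by linarith) (by linarith) hU
      (hS.imp_right fun h => ⟨h.2.2.2.2.1, h.2.2.2.2.2.1⟩))).congr_deriv ?_
  rw [s, one_mul]

theorem der_inv {f y : ℝ} (f0 : 0 < f) (hy : 0 < y) :
    HasDerivAt (fun y => 24 / 25 / (f * y)) (-(24 / 25 / (f * y) / y)) y :=
  ((hasDerivAt_const _ (24 / 25 : ℝ)).fun_div ((hasDerivAt_id' _).const_mul f)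
    (mul_pos f0 hy).ne').congr_deriv (by field_simp; ring)

theorem der_sqrt {a y : ℝ} (ha : 0 < a) (hy : 0 < y) :
    HasDerivAt (fun y => √(a / y)) (-(√(a / y) / 2 / y)) y := by
  refine (((hasDerivAt_const _ a).fun_div (hasDerivAt_id' _) hy.ne').sqrt
    (div_pos ha hy).ne').congr_deriv ?_
  have h1 := Real.mul_self_sqrt (div_pos ha hy).le
  have h2 := Real.sqrt_pos.2 (div_pos ha hy)
  generalize √(a / y) = q at h1 h2
  rw [eq_div_iff hy.ne'] at h1
  rw [← h1]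
  field_simp
  ring

theorem b_der (P : Par f be Ub) (hU : 0 < U) (hS : U ∉ Ex f be Ub) :
    HasDerivAt (b f be Ub) (bu f be Ub U / U) U := by
  obtain ⟨o1, o2, o3⟩ := P.o24
  have o5 := P.U3le
  have o6 := P.U30
  have o7 := P.Ub0
  have f0 := P.f0
  simp only [Ex, mem_insert_iff, mem_singleton_iff, not_or] at hS
  have p1 : 0 < cl (2 / f) (4 / f) U := cl_pos (by linarith) hU
  have p2 : 0 < cl (U3 be Ub) Ub U := cl_pos o7 hU
  have d1 := comp_cl_der (S := univ) o2.le (Or.inr ⟨hS.2.1, hS.2.2.1⟩)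
    (φ := fun y => 24 / 25 / (f * y)) (φ' := fun y => -(24 / 25 / (f * y) / y))
    (der_inv f0 p1)
  have d2 := comp_cl_der (S := univ) (a := U3 be Ub) (b' := Ub) (by linarith)
    (Or.inr ⟨hS.2.2.2.2.1, hS.2.2.2.2.2.2.2⟩)
    (φ := fun y => √(U3 be Ub / y)) (φ' := fun y => -(√(U3 be Ub / y) / 2 / y))
    (der_sqrt o6 p2)
  rw [← hasDerivWithinAt_univ]
  refine ((d1.sub_const (6 / 25)).add ((d2.const_mul (24 / 25 + be)).sub_const be)).congr_deriv ?_
  rw [bu]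
  ring

theorem c_der (P : Par f be Ub) (hU : 0 < U) (hS : U ∉ Ex f be Ub) :
    HasDerivAt (c Ub) (cu Ub U / U) U := by
  have o7 := P.Ub0
  simp only [Ex, mem_insert_iff, mem_singleton_iff, not_or] at hS
  rw [← hasDerivWithinAt_univ]
  refine ((((cl_der (S := univ) (a := Ub / 2) (b' := Ub) (by linarith)
    (Or.inr hS.2.2.2.2.2.2)).div_const Ub).const_sub 1).const_mul (12 / 5)).congr_deriv ?_
  rw [cu]
  field_simp

theorem b_lip (P : Par f be Ub) : LocallyLipschitzOn (Ioi 0) (b f be Ub) := by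
  obtain ⟨o1, o2, o3⟩ := P.o24
  have h1 := ll_comp (ll_cl (2 / f) (4 / f) (Ioi 0)) (F := fun y => 24 / 25 / (f * y) - 6 / 25)
    fun U hU => (contDiffAt_const.div (contDiffAt_const.mul contDiffAt_id)
      (mul_pos P.f0 (cl_pos (by linarith) hU)).ne').sub contDiffAt_const
  have h2 := ll_comp (ll_cl (U3 be Ub) Ub (Ioi 0))
    (F := fun y => (24 / 25 + be) * √(U3 be Ub / y) - be) fun U hU =>
      (contDiffAt_const.mul ((contDiffAt_const.div contDiffAt_id (cl_pos P.Ub0 hU).ne').sqrt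
        (div_pos P.U30 (cl_pos P.Ub0 hU)).ne')).sub contDiffAt_const
  exact h1.add h2

theorem pow4_exp {x : ℝ} (hx : 0 ≤ x) : (1 + x) ^ 4 * Real.exp (-x) ≤ 72 := by
  have h1 := Real.pow_div_factorial_le_exp (1 + x) (by linarith) 4
  have h2 : Real.exp 1 ≤ 3 := Real.exp_one_lt_three.le
  rw [Real.exp_add] at h1
  have h3 : (1 + x) ^ 4 ≤ 72 * Real.exp x := by
    have : Real.exp 1 * Real.exp x ≤ 3 * Real.exp x :=
      mul_le_mul_of_nonneg_right h2 (Real.exp_pos x).le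
    simp only [Nat.factorial] at h1
    push_cast at h1
    linarith
  rw [Real.exp_neg, ← div_eq_mul_inv, div_le_iff₀ (Real.exp_pos x)]
  exact h3

section tab

variable (P : Par f be Ub) (hT0 : 0 < hT f) (hT2 : hT f < 2 / f)
include P hT0 hT2

theorem q2' (hU : 0 < U) : 0 ≤ s f be Ub U ∧ s f be Ub U ≤ 11 / 10 * b f be Ub U ∧
    0 ≤ b f be Ub U ∧ b f be Ub U ≤ 6 / 5 ∧ -(1 / 2) ≤ bu f be Ub U ∧ bu f be Ub U ≤ 0 ∧
    0 ≤ c Ub U ∧ c Ub U ≤ 6 / 5 ∧ -(12 / 5) ≤ cu Ub U ∧ cu Ub U ≤ 0 := by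
  obtain ⟨o1, o2, o3⟩ := P.o24
  have o4 := P.leU3
  have o5 := P.U3le
  have o7 := P.Ub0
  have b0 := P.be0
  have b1 := P.be1
  have tb := fun U (hU : 0 < U) => table P hT0 hT2 hU
  obtain ⟨a1, a2, a3, a4⟩ := c_bd P hU
  rcases tb U hU with ⟨-, e1, e2, e3, -⟩ | ⟨-, -, e1, e2, e3, -⟩ |
    ⟨-, -, e1, -, w, w1, w2, e2, e3⟩ | ⟨-, -, e1, e2, e3, -⟩ | ⟨-, -, e1, e2, e3, -⟩ |
    ⟨-, -, -, g, -, e2, e3, g1, g2, -, -, -, ⟨-, e1, g4⟩ | ⟨-, e1, g4⟩⟩ | ⟨-, e1, e2, e3, -⟩ <;>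
  rw [e1, e2, e3] <;> exact ⟨by linarith, by linarith, by linarith, by linarith, by linarith,
    by linarith, a1, a2, a3, a4⟩

theorem q3' (h : Ub / 400 ≤ U) : s f be Ub U = 0 ∧ b f be Ub U ≤ 20 * be ∧
    -(10 * be) ≤ bu f be Ub U ∧ kap f U = 39 / 20 := by
  obtain ⟨o1, o2, o3⟩ := P.o24
  have o4 := P.leU3
  have o5 := P.U3le
  have o7 := P.Ub0
  have b0 := P.be0
  have b1 := P.be1
  have tb := fun U (hU : 0 < U) => table P hT0 hT2 hU
  rcases tb U (by linarith) with ⟨a, -⟩ | ⟨-, a, -⟩ | ⟨-, a, -⟩ | ⟨-, a, -⟩ | ⟨-, a, -⟩ |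
    ⟨-, -, e4, g, -, e2, e3, g1, g2, -, -, g3, ⟨a, -⟩ | ⟨-, e1, -⟩⟩ | ⟨-, e1, e2, e3, e4⟩
  any_goals linarith
  · have := g3 h
    exact ⟨e1, by linarith, by linarith, e4⟩
  · exact ⟨e1, by linarith, by linarith, e4⟩

theorem bmain' (h : 4 / f ≤ U) :
    b f be Ub U ≤ 24 / 25 ∧ (U ≤ U3 be Ub → b f be Ub U = 24 / 25) := by
  obtain ⟨o1, o2, o3⟩ := P.o24
  have o4 := P.leU3
  have o5 := P.U3le
  have o7 := P.Ub0
  have b0 := P.be0
  have b1 := P.be1
  have tb := fun U (hU : 0 < U) => table P hT0 hT2 hU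
  rcases tb U (by linarith) with ⟨a, -⟩ | ⟨-, a, -⟩ | ⟨-, a, -⟩ | ⟨-, -, -, e, -⟩ |
    ⟨-, -, -, e, -⟩ | ⟨a, -, -, g, -, e2, -, -, g2, g3, -⟩ | ⟨a, -, e, -⟩
  any_goals linarith
  · exact ⟨e.le, fun _ => e⟩
  · exact ⟨e.le, fun _ => e⟩
  · exact ⟨by linarith, fun h' => by linarith [g3 (le_antisymm h' a)]⟩
  · exact ⟨by linarith, fun h' => by linarith⟩

theorem btop' (h : U3 be Ub ≤ U) : b f be Ub U ≤ be * √(Ub / U) := by
  obtain ⟨o1, o2, o3⟩ := P.o24
  have o4 := P.leU3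
  have o5 := P.U3le
  have o7 := P.Ub0
  have b0 := P.be0
  have b1 := P.be1
  have tb := fun U (hU : 0 < U) => table P hT0 hT2 hU
  rcases tb U (by linarith) with ⟨a, -⟩ | ⟨-, a, -⟩ | ⟨-, a, -⟩ | ⟨-, a, -⟩ |
    ⟨-, a, -⟩ | ⟨-, -, -, g, e, e2, -⟩ | ⟨-, -, e, -⟩
  any_goals linarith
  rw [e]; positivity

theorem bzero' (h : Ub ≤ U) :
    b f be Ub U = 0 ∧ bu f be Ub U = 0 ∧ c Ub U = 0 ∧ cu Ub U = 0 := by
  obtain ⟨o1, o2, o3⟩ := P.o24
  have o4 := P.leU3
  have o5 := P.U3le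
  have o7 := P.Ub0
  have b0 := P.be0
  have b1 := P.be1
  have tb := fun U (hU : 0 < U) => table P hT0 hT2 hU
  obtain ⟨a1, a2⟩ := c_zero P h
  rcases tb U (by linarith) with ⟨a, -⟩ | ⟨-, a, -⟩ | ⟨-, a, -⟩ | ⟨-, a, -⟩ |
    ⟨-, a, -⟩ | ⟨-, a, -⟩ | ⟨-, -, e2, e3, -⟩
  any_goals linarith
  exact ⟨e2, e3, a1, a2⟩

end tab

set_option maxHeartbeats 800000 in
theorem zOut (P : Par f be Ub) (Hh : HOut f) : ZOut f be Ub := by
  obtain ⟨hT0, hT2, hT3, hT4⟩ := Hh.hT0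
  obtain ⟨o1, o2, o3⟩ := P.o24
  have o4 := P.leU3
  have o5 := P.U3le
  have o6 := P.U30
  have o7 := P.Ub0
  have f0 := P.f0
  have f1 := P.f1
  have b0 := P.be0
  have b1 := P.be1
  have o8 : 0 < 80 / f := by linarith
  have tb := fun U (hU : 0 < U) => table P hT0 hT2 hU
  have zc : Continuous (ζ f be Ub) := by
    rw [ζ_eq]
    exact (((pf_cont zero_le_one).mul (pf_cont (by norm_num))).mul (pf_cont (by norm_num))).mul
      (pf_cont (by norm_num))
  have n1 := pf_nonneg (a := 0) (σ := 1) le_rfl hT0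
  have n2 := pf_nonneg (σ := 3 / 4) hT0.le o8
  have n3 := pf_nonneg (σ := 51 / 50) o8.le o6
  have n4 := pf_nonneg (σ := 3 / 10) o6.le (by linarith : 0 < 9 * U3 be Ub)
  have zm : Monotone (ζ f be Ub) := by
    rw [ζ_eq]
    exact (((pf_mono le_rfl hT0 zero_le_one).mul (pf_mono hT0.le o8 (by norm_num)) n1 n2).mul
      (pf_mono o8.le o6 (by norm_num)) (fun U => mul_nonneg (n1 U) (n2 U)) n3).mul
      (pf_mono o6.le (by linarith) (by norm_num))
      (fun U => mul_nonneg (mul_nonneg (n1 U) (n2 U)) (n3 U)) n4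
  have zp : ∀ U, 0 < U → 0 < ζ f be Ub U := fun U hU => by
    rw [ζ_eq]
    exact mul_pos (mul_pos (mul_pos (pf_pos hT0 hU) (pf_pos o8 hU)) (pf_pos o6 hU))
      (pf_pos (by linarith) hU)
  have z0 : ∀ U, 0 ≤ ζ f be Ub U := fun U => by
    rw [ζ_eq]
    exact mul_nonneg (mul_nonneg (mul_nonneg (n1 U) (n2 U)) (n3 U)) (n4 U)
  have zt : ∀ U, 9 * U3 be Ub ≤ U → ζ f be Ub U = 1 := fun U hU => by
    rw [ζ_eq]
    simp only
    rw [pf_one hT0.le hT0 (by linarith), pf_one (by linarith) o8 (by linarith),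
      pf_one o4 o6 (by linarith), pf_one (by linarith) (by linarith) hU]
    norm_num
  have zl : ∀ U, ζ f be Ub U ≤ 1 := fun U =>
    (zm (le_max_left U (9 * U3 be Ub))).trans (zt _ (le_max_right _ _)).le
  have cmp := fun {x y : ℝ} (hx : 0 < x) (hxy : x ≤ y) (σ : ℝ) =>
    pow_cmp zc zp (fun U hU => ζ_der P hT0 hT2 hU (Or.inl rfl)) hx hxy σ
  have sb : ∀ U, 0 < U → s f be Ub U ≤ 11 / 10 ∧
      (U < 80 / f → 3 / 4 ≤ s f be Ub U ∧ s f be Ub U ≤ 1) ∧
      (80 / f ≤ U → U < U3 be Ub → s f be Ub U = 51 / 50) ∧ (U < hT f → s f be Ub U = 1) := by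
    intro U hU
    rcases tb U hU with ⟨a1, e, -⟩ | ⟨a1, a2, e, -⟩ | ⟨a1, a2, e, -⟩ | ⟨a1, a2, e, -⟩ |
      ⟨a1, a2, e, -⟩ | ⟨a1, a2, -, g, -, -, -, -, -, -, -, -, ⟨-, e, -⟩ | ⟨-, e, -⟩⟩ | ⟨a1, e, -⟩ <;>
    rw [e] <;> refine ⟨by norm_num, fun _ => ⟨by linarith, by linarith⟩, fun _ _ => by linarith,
      fun _ => by linarith⟩
  have zs : ∀ U θ σ : ℝ, 0 < U → 0 ≤ θ → θ ≤ 1 → 0 < σ → (∀ x, 0 < x → x < U → s f be Ub x ≤ σ) →
      θ ^ σ * ζ f be Ub U ≤ ζ f be Ub (θ * U) := by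
    intro U θ σ hU h0 h1 hσ hs
    rcases h0.eq_or_lt with e | h0
    · rw [← e, Real.zero_rpow hσ.ne', zero_mul]; exact z0 _
    have hx : 0 < θ * U := mul_pos h0 hU
    have := (cmp hx (mul_le_of_le_one_left hU.le h1) σ).1 fun x h1 h2 => hs x (hx.trans_le h1) h2
    have e : U / (θ * U) = θ⁻¹ := by field_simp
    rw [e, Real.inv_rpow h0.le, ← div_eq_mul_inv, le_div_iff₀ (Real.rpow_pos_of_pos h0 _)] at this
    linarith
  have z1 : ∀ U θ, 0 < U → U ≤ 80 / f → 0 ≤ θ → θ ≤ 1 → θ * ζ f be Ub U ≤ ζ f be Ub (θ * U) :=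
    fun U θ hU h h0 h1 => by
      simpa using zs U θ 1 hU h0 h1 one_pos fun x hx hxU => ((sb x hx).2.1 (hxU.trans_le h)).2
  set Z0 := ζ f be Ub (80 / f) with hZ0
  have Z00 : 0 < Z0 := zp _ o8
  have zsub : ∀ U, 0 < U → U ≤ 80 / f → ζ f be Ub U ≤ Z0 * (f * U / 80) ^ (3 / 4 : ℝ) := by
    intro U hU h
    have := (cmp hU h (3 / 4)).2 fun x h1 h2 => ((sb x (hU.trans_le h1)).2.1 h2).1
    have e : 80 / f / U = (f * U / 80)⁻¹ := by field_simp
    rwa [e, Real.inv_rpow (by positivity), ← div_eq_mul_inv, div_le_iff₀ (by positivity)] at this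
  have zmain : ∀ U, 80 / f ≤ U → U ≤ U3 be Ub → ζ f be Ub U = Z0 * (f * U / 80) ^ (51 / 50 : ℝ) := by
    intro U h1 h2
    have e : U / (80 / f) = f * U / 80 := by field_simp
    have := cmp o8 h1 (51 / 50)
    rw [e] at this
    exact le_antisymm (this.1 fun x a1 a2 => ((sb x (by linarith)).2.2.1 a1 (by linarith)).le)
      (this.2 fun x a1 a2 => ((sb x (by linarith)).2.2.1 a1 (by linarith)).ge)
  have zlin : ∀ U, 0 < U → U ≤ 80 / f → Z0 * (f * U / 80) ≤ ζ f be Ub U := fun U hU h => by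
    have := z1 (80 / f) (f * U / 80) o8 le_rfl (by positivity) (by
      rw [le_div_iff₀ f0] at h; linarith)
    have e : f * U / 80 * (80 / f) = U := by field_simp
    rwa [e, mul_comm] at this
  have hp := fun r (hr : 0 < r) => (Hh.hpos r hr).1
  have l0 : (2 : ℝ) ≤ lam := by rw [lam]; norm_num
  have h80 : ∀ r, f ≤ r → 3 * h f r ≤ 80 / f := fun r hr => by
    have h1 := (Hh.hpos r (by linarith)).2.1
    have h2 : 1 / r ≤ 1 / f := one_div_le_one_div_of_le f0 hr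
    have h3 : 80 / f = 80 * (1 / f) := by ring
    have : 0 < 1 / f := by positivity
    linarith
  have dec : ∀ r, f ≤ r → ζ f be Ub (3 * h f r) ≤ Z0 * Real.exp (-(r - 3 * f)) := by
    intro r hr
    rcases le_total r (3 * f) with h3 | h3
    · exact (zm (h80 r hr)).trans
        (le_mul_of_one_le_right Z00.le (Real.one_le_exp (by linarith)))
    have hr0 : 0 < r := by linarith
    refine (zsub _ (mul_pos three_pos (hp r hr0)) (h80 r hr)).trans
      (mul_le_mul_of_nonneg_left ?_ Z00.le)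
    have e1 : f * (3 * h f r) / 80 ≤ Real.exp (-(lam * (r - T1 f))) := by
      rw [Hh.tail r (by linarith)]
      rw [lt_div_iff₀ f0] at hT2
      nlinarith [Real.exp_pos (-(lam * (r - T1 f)))]
    refine (Real.rpow_le_rpow (by have := hp r hr0; positivity) e1 (by norm_num)).trans ?_
    rw [← Real.exp_mul]
    exact Real.exp_le_exp.2 (by nlinarith)
  refine
    { ord := ⟨o6, o4, o5⟩
      fin := by unfold Ex; exact toFinite _
      lip := ⟨?_, b_lip P, ?_⟩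
      der := fun U hU hS => ⟨hasDerivWithinAt_univ.1 (ζ_der P hT0 hT2 hU (Or.inr hS)),
        b_der P hU hS, c_der P hU hS⟩
      meas := ?_
      zmono := zm
      zcont := zc
      zbd := fun U hU => ⟨zp U hU, zl U⟩
      ztop := fun U hU => ⟨zt U hU, ?_⟩
      z2 := fun U θ hU h0 h1 => zs U θ _ hU h0 h1 (by norm_num) fun x hx _ => (sb x hx).1
      z1 := z1
      zdec := fun r hr => ⟨?_, ?_⟩
      zsub := zsub
      zmain := zmain
      zbad1 := fun r hr => ?_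
      zbad2 := fun r h1 hr => ?_
      zup := fun r hr => ?_
      q1 := fun U hU h => ?_
      q2 := fun U hU => q2' P hT0 hT2 hU
      q3 := fun U h => q3' P hT0 hT2 h
      bmain := fun U h => bmain' P hT0 hT2 h
      btop := fun U h => btop' P hT0 hT2 h
      bzero := fun U h => bzero' P hT0 hT2 h }
  · rw [ζ_eq]
    exact ll_mul (ll_mul (ll_mul (pf_lip hT0) (pf_lip o8)) (pf_lip o6)) (pf_lip (by linarith))
  · exact ll_comp (ll_cl (Ub / 2) Ub _) (F := fun y => 12 / 5 * (1 - y / Ub)) fun _ _ => by fun_prop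
  · have m1 := meas_ch
    have m2 := fun a b => (cl_cont a b).measurable
    unfold s b bu c cu
    refine ⟨by fun_prop, by fun_prop, by fun_prop, by fun_prop, by fun_prop⟩
  · rw [s, ch_ge (by linarith), ch_ge (by linarith), ch_ge (by linarith), ch_ge hU]; norm_num
  · refine (dec r hr).trans (mul_le_mul_of_nonneg_right ?_ (Real.exp_pos _).le)
    linarith
  · have hr0 : 0 < r := by linarith
    have f4 : 0 < Z0 * f ^ 4 := by positivity
    rcases le_total r (3 * f) with h3 | h3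
    · have := mul_le_mul (pow_le_pow_left₀ hr0.le h3 4) (zm (h80 r hr)) (z0 _) (by positivity)
      nlinarith
    · have e1 : r ≤ 3 * f * (1 + (r - 3 * f)) := by nlinarith
      have e2 := pow4_exp (x := r - 3 * f) (by linarith)
      calc r ^ 4 * ζ f be Ub (3 * h f r)
          ≤ (3 * f * (1 + (r - 3 * f))) ^ 4 * (Z0 * Real.exp (-(r - 3 * f))) :=
            mul_le_mul (pow_le_pow_left₀ hr0.le e1 4) (dec r hr) (z0 _) (by positivity)
        _ = 81 * (Z0 * f ^ 4) * ((1 + (r - 3 * f)) ^ 4 * Real.exp (-(r - 3 * f))) := by ring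
        _ ≤ 81 * (Z0 * f ^ 4) * 72 := mul_le_mul_of_nonneg_left e2 (by positivity)
        _ ≤ _ := by nlinarith
  · have e0 : Real.exp (-(lam * r)) ≤ 1 := Real.exp_le_one_iff.2 (by nlinarith)
    have e1 := Real.exp_pos (-(lam * r))
    rcases le_total (h f r) (80 / f) with h8 | h8
    · have e2 := zlin _ (hp r hr) h8
      have e3 := mul_le_mul_of_nonneg_left (Hh.lower r hr) f0.le
      have e4 : f * (3 / (8 * f) * Real.exp (-(lam * r))) = 3 / 8 * Real.exp (-(lam * r)) := by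
        field_simp
      rw [e4] at e3
      nlinarith [mul_le_mul_of_nonneg_left e3 Z00.le]
    · have := zm h8
      nlinarith
  · have hr0 : 0 < r := by linarith
    have a1 := (Hh.hlow r hr0 hr).1
    set U := h f r
    have U0 : 0 < U := hp r hr0
    have a2 : f / r ≤ 640 / 3 * (f * U / 80) := by
      rw [div_le_iff₀ (by positivity)] at a1
      rw [div_le_iff₀ hr0]
      nlinarith
    have a3 : 1 ≤ f / r := (one_le_div hr0).2 hr
    rcases le_total U (80 / f) with h8 | h8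
    · have e2 := zlin _ U0 h8
      have e3 : f * U / 80 ≤ 1 := by rw [le_div_iff₀ f0] at h8; linarith
      have e4 : (f / r) ^ (101 / 100 : ℝ) ≤ (f / r) ^ 2 := by
        rw [← Real.rpow_two]; exact Real.rpow_le_rpow_of_exponent_le a3 (by norm_num)
      have e5 : (f / r) ^ 2 ≤ 10 ^ 7 * (f * U / 80) := by nlinarith
      nlinarith [mul_le_mul_of_nonneg_left (e4.trans e5) Z00.le]
    have a4 : 1 ≤ f * U / 80 := by rw [div_le_iff₀ f0] at h8; linarith
    rcases le_total U (U3 be Ub) with h3 | h3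
    · rw [zmain U h8 h3]
      have e1 : (f / r) ^ (101 / 100 : ℝ) ≤
          (640 / 3 : ℝ) ^ (101 / 100 : ℝ) * (f * U / 80) ^ (101 / 100 : ℝ) := by
        rw [← Real.mul_rpow (by norm_num) (by linarith)]
        exact Real.rpow_le_rpow (by linarith) a2 (by norm_num)
      have e2 : (640 / 3 : ℝ) ^ (101 / 100 : ℝ) ≤ 10 ^ 7 := by
        refine (Real.rpow_le_rpow_of_exponent_le (z := 2) (by norm_num) (by norm_num)).trans ?_
        rw [Real.rpow_two]; norm_num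
      have e3 : (f * U / 80) ^ (101 / 100 : ℝ) ≤ (f * U / 80) ^ (51 / 50 : ℝ) :=
        Real.rpow_le_rpow_of_exponent_le a4 (by norm_num)
      have e4 := e1.trans (mul_le_mul e2 e3 (by positivity) (by norm_num))
      nlinarith [mul_le_mul_of_nonneg_left e4 Z00.le]
    · have e1 := zm h3
      rw [zmain _ o4 le_rfl] at e1
      have e2 : (f / r) ^ (101 / 100 : ℝ) ≤ f ^ (101 / 100 : ℝ) :=
        Real.rpow_le_rpow (by linarith) (div_le_self f0.le h1) (by norm_num)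
      have e3 : (80 / U3 be Ub) ^ (51 / 50 : ℝ) ≤ f ^ (1 / 100 : ℝ) := by
        refine le_trans (le_of_eq ?_) (Real.rpow_le_rpow (by positivity) P.big (by norm_num))
        rw [← Real.rpow_natCast, ← Real.rpow_mul (by positivity)]
        norm_num
      have e4 : f ^ (101 / 100 : ℝ) ≤ (f * U3 be Ub / 80) ^ (51 / 50 : ℝ) := by
        have : f * U3 be Ub / 80 = f / (80 / U3 be Ub) := by field_simp
        rw [this, Real.div_rpow f0.le (by positivity), le_div_iff₀ (by positivity)]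
        refine (mul_le_mul_of_nonneg_left e3 (by positivity)).trans (le_of_eq ?_)
        rw [← Real.rpow_add f0]
        norm_num
      have e5 := mul_le_mul_of_nonneg_left (e2.trans e4) Z00.le
      linarith [z0 U]
  · rw [mul_assoc, ← Real.exp_add]
    rcases le_total r (T1 f) with h1 | h1
    · have := Real.one_le_exp (x := lam * T1 f + -(lam * r)) (by nlinarith)
      linarith [zl (3 * h f r)]
    have U0 : 0 < 3 * h f r := mul_pos three_pos (hp r hr)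
    have e1 : 3 * h f r / hT f = 3 * Real.exp (lam * T1 f + -(lam * r)) := by
      rw [Hh.tail r h1, show -(lam * (r - T1 f)) = lam * T1 f + -(lam * r) by ring]
      field_simp
    rw [← e1]
    rcases le_total (hT f) (3 * h f r) with h2 | h2
    · exact (zl _).trans ((one_le_div hT0).2 h2)
    · have := (cmp U0 h2 1).2 fun x a1 a2 => ((sb x (by linarith)).2.2.2 a2).ge
      rw [Real.rpow_one, ← mul_div_assoc, div_le_iff₀ U0] at this
      rw [le_div_iff₀ hT0]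
      nlinarith [zl (hT f)]
  · obtain ⟨a1, a2⟩ := c_low P (U := U) (by linarith)
    obtain ⟨a3, a4⟩ := adm P hT0 hT2 hU h
    exact ⟨a1, a2, a3, by linarith [a4.h1]⟩

end

end Crest.Agent.N067.D
end

-- ▼ part N067/D/Ext
section

/-!
# Row 67, design (helper93): further one-dimensional facts used by the assembly
-/

set_option autoImplicit false

open Topology Filter Set

namespace Crest.Agent.N067.D

variable {f be Ub U : ℝ}

/-! ### the thick weight -/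






/-! ### the multiplier `b` -/


theorem U3_pos (P : Par f be Ub) : 0 < U3 be Ub := by
  have := P.be0; have := P.Ub0; unfold U3; positivity

theorem b_anti (P : Par f be Ub) : Antitone (b f be Ub) := fun U U' hU => by
  have f0 : 0 < f := by linarith [P.f1]
  have u0 := U3_pos P
  have b0 := P.be0
  have a1 : 0 < cl (2 / f) (4 / f) U := lt_of_lt_of_le (by positivity) (le_cl _ _ _)
  have a2 : 0 < cl (U3 be Ub) Ub U := u0.trans_le (le_cl _ _ _)
  have a3 := cl_mono (2 / f) (4 / f) hU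
  have a4 := cl_mono (U3 be Ub) Ub hU
  unfold b
  gcongr

theorem b_low (P : Par f be Ub) (Z : ZOut f be Ub) (hU : U ≤ U3 be Ub) :
    24 / 25 ≤ b f be Ub U := by
  have f0 : 0 < f := by linarith [P.f1]
  have := (Z.bmain (U3 be Ub) (le_trans (by gcongr; norm_num) Z.ord.2.1)).2 le_rfl
  rw [← this]; exact b_anti P hU

/-- the value of `b` on the top range -/
theorem b_top (P : Par f be Ub) (Z : ZOut f be Ub) (h1 : U3 be Ub ≤ U) (h2 : U ≤ Ub) :
    b f be Ub U = be * (√(Ub / U) - 1) := by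
  have f0 : 0 < f := by linarith [P.f1]
  have u0 := U3_pos P
  have b0 := P.be0
  have U0 : 0 < U := u0.trans_le h1
  have a1 : 4 / f ≤ U := le_trans (le_trans (by gcongr; norm_num) Z.ord.2.1) h1
  have e : U3 be Ub / U = (be / (24 / 25 + be)) ^ 2 * (Ub / U) := by unfold U3; ring
  rw [b, cl_of_ge (by gcongr; norm_num) a1, cl_of_mem h1 h2, e, Real.sqrt_mul (by positivity),
    Real.sqrt_sq (by positivity)]
  field_simp
  ring

theorem be_le_b (P : Par f be Ub) (Z : ZOut f be Ub) (hU : 0 < U) (h2 : U ≤ Ub / 400) :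
    19 * be ≤ b f be Ub U := by
  have u1 := P.Ub0
  have b0 := P.be0
  have a1 : U3 be Ub ≤ Ub / 400 := by linarith [Z.ord.1, Z.ord.2.2]
  have a2 := b_top P Z a1 (by linarith)
  have a3 : √(Ub / (Ub / 400)) = 20 := by
    rw [show Ub / (Ub / 400) = 20 ^ 2 by field_simp; norm_num, Real.sqrt_sq (by norm_num)]
  have := b_anti P h2
  rw [a2, a3] at this
  linarith

/-- the ratio bound needed at the cut -/
theorem b_ratio (P : Par f be Ub) (Z : ZOut f be Ub) {U1 : ℝ} (hU : 0 < U) (h0 : 0 < U1)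
    (h2 : U1 ≤ Ub / 400) : b f be Ub U + be ≤ 2 * max 1 (U1 / U) * b f be Ub U1 := by
  have b0 := P.be0
  have u1 := P.Ub0
  have u0 := U3_pos P
  have a1 := be_le_b P Z h0 h2
  have q0 : 0 < U1 / U := by positivity
  have a2 := (Z.q2 U hU).2.2.2.1
  have m1 := le_max_left 1 (U1 / U)
  have m2 := le_max_right 1 (U1 / U)
  rcases le_total U1 U with h3 | h3
  · have := b_anti P h3
    nlinarith
  rcases le_total U1 (U3 be Ub) with h4 | h4
  · have := b_low P Z h4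
    nlinarith [P.be1]
  have q1 : 1 ≤ U1 / U := (one_le_div hU).2 h3
  have e1 := b_top P Z h4 (by linarith)
  -- `b U + be ≤ (5/4) be √(Ub / U)`
  have a3 : b f be Ub U + be ≤ 5 / 4 * (be * √(Ub / U)) := by
    rcases le_total (U3 be Ub) U with h5 | h5
    · rw [b_top P Z h5 (by linarith)]
      have : 0 ≤ be * √(Ub / U) := by positivity
      nlinarith
    · have c1 : √(Ub / U3 be Ub) ≤ √(Ub / U) := by gcongr
      have c2 : √(Ub / U3 be Ub) = (24 / 25 + be) / be := by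
        rw [show Ub / U3 be Ub = ((24 / 25 + be) / be) ^ 2 by unfold U3; field_simp,
          Real.sqrt_sq (by positivity)]
      have c3 : 24 / 25 + be ≤ be * √(Ub / U) := by
        rw [c2, div_le_iff₀ b0] at c1; linarith
      linarith
  have a4 : √(Ub / U) ≤ √(Ub / U1) * (U1 / U) := by
    rw [show Ub / U = Ub / U1 * (U1 / U) by field_simp, Real.sqrt_mul (by positivity)]
    gcongr
    exact Real.sqrt_le_iff.2 ⟨q0.le, by nlinarith⟩
  have a5 : be * √(Ub / U1) ≤ 20 / 19 * b f be Ub U1 := by nlinarith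
  calc b f be Ub U + be ≤ 5 / 4 * (be * (√(Ub / U1) * (U1 / U))) := a3.trans (by gcongr)
    _ = 5 / 4 * (be * √(Ub / U1)) * (U1 / U) := by ring
    _ ≤ 5 / 4 * (20 / 19 * b f be Ub U1) * (U1 / U) := by gcongr
    _ ≤ _ := by nlinarith

/-! ### admissibility of the quadratic form -/

theorem admk (P : Par f be Ub) (Z : ZOut f be Ub) (hU : 0 < U) (h2 : U ≤ Ub / 400) {k : ℝ}
    (hk : 99 / 100 * kap f U ≤ k) :
    H.Adm (bu f be Ub U + 2 * s f be Ub U * b f be Ub U + b f be Ub U * (k - 1)) (b f be Ub U)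
      (s f be Ub U) ∧ b f be Ub U / 50 ≤
      bu f be Ub U + 2 * s f be Ub U * b f be Ub U + b f be Ub U * (k - 1) - s f be Ub U ^ 2 := by
  obtain ⟨-, -, b0, q1⟩ := Z.q1 U hU h2
  obtain ⟨s0, -, -, b1, -⟩ := Z.q2 U hU
  have m1 : b f be Ub U * (99 / 100 * kap f U - 1) ≤ b f be Ub U * (k - 1) := by gcongr
  have f0 : 0 < f := by linarith [P.f1]
  obtain ⟨t0, t1, -⟩ := (hOut P.f1).hT0
  obtain ⟨u0, u1, u2⟩ := Z.ord
  have g1 : 2 / f < 80 / f := by gcongr; norm_num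
  have sq := sq_nonneg (11 / 5 * s f be Ub U - b f be Ub U)
  refine ⟨H.Adm.mono (a := bu f be Ub U + 2 * s f be Ub U * b f be Ub U +
    b f be Ub U * (99 / 100 * kap f U - 1)) ?_ (by linarith), by nlinarith⟩
  rcases lt_or_ge U (U3 be Ub) with h3 | h3
  · have b2 := b_low P Z h3.le
    have hs : s f be Ub U = 1 ∧ b f be Ub U = 6 / 5 ∨ s f be Ub U = 3 / 4 ∨
        s f be Ub U = 51 / 50 ∧ b f be Ub U = 24 / 25 := by
      rcases lt_or_ge U (hT f) with h4 | h4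
      · refine Or.inl ⟨?_, ?_⟩
        · rw [s, ch_one hU.le h4, ch_lt h4, ch_lt (by linarith), ch_lt h3]; norm_num
        · rw [b, cl_of_le (by linarith), cl_of_le h3.le, div_self u0.ne', Real.sqrt_one]
          field_simp; ring
      rcases lt_or_ge U (80 / f) with h5 | h5
      · refine Or.inr (Or.inl ?_)
        rw [s, ch_ge h4, ch_one h4 h5, ch_lt h5, ch_lt h3]; norm_num
      · refine Or.inr (Or.inr ⟨?_, (Z.bmain U (le_trans (by gcongr; norm_num) h5)).2 h3.le⟩)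
        rw [s, ch_ge h4, ch_ge h5, ch_one h5 h3, ch_lt h3]; norm_num
    rcases hs with ⟨e1, e2⟩ | e1 | ⟨e1, e2⟩
    · rw [e1, e2] at q1 ⊢
      exact ⟨by linarith, by linarith, by linarith, by linarith, by norm_num, by norm_num⟩
    · rw [e1] at q1 ⊢
      refine ⟨by linarith, ?_, ?_, ?_, b0.le, by norm_num⟩ <;> nlinarith
    · rw [e1, e2] at q1 ⊢
      exact ⟨by linarith, by linarith, by linarith, by linarith, by norm_num, by norm_num⟩
  · have be0 := P.be0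
    have be1 := P.be1
    have u3 := P.Ub0
    have a0 : 4 / f ≤ U := le_trans (le_trans (by gcongr; norm_num) u1) h3
    have e1 : kap f U = 39 / 20 := by
      rw [kap, if_neg (by linarith), if_neg (by linarith), if_neg (by linarith)]
    have e2 : bu f be Ub U = -((b f be Ub U + be) / 2) := by
      rw [bu, b, ch_ge a0, ch_one h3 (by linarith), cl_of_ge (by gcongr; norm_num) a0,
        cl_of_mem h3 (by linarith)]
      field_simp; ring
    have b2 := be_le_b P Z hU h2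
    have b3 := (Z.bmain U a0).1
    rcases lt_or_ge U (9 * U3 be Ub) with h4 | h4
    · have e3 : s f be Ub U = 3 / 10 := by
        rw [s, ch_ge (by linarith), ch_ge (by linarith), ch_ge h3, ch_one h3 h4]; norm_num
      have b4 : 3 / 10 ≤ b f be Ub U := by
        have c1 := b_anti P h4.le
        have c2 : b f be Ub (9 * U3 be Ub) = (24 / 25 + be) / 3 - be := by
          rw [b, cl_of_ge (by gcongr; norm_num) (by linarith), cl_of_mem (by linarith) (by linarith),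
            show U3 be Ub / (9 * U3 be Ub) = (1 / 3) ^ 2 by field_simp; norm_num,
            Real.sqrt_sq (by norm_num)]
          field_simp; ring
        linarith
      rw [e3] at q1 ⊢
      refine ⟨by linarith, ?_, ?_, ?_, b0.le, by norm_num⟩ <;> rw [e1, e2] <;> nlinarith
    · rw [(Z.ztop U h4).2] at q1 ⊢
      refine ⟨by linarith, ?_, ?_, ?_, b0.le, le_rfl⟩ <;> rw [e1, e2] <;> nlinarith

/-- the Kato factor of `W.GD` -/
theorem k_ge {κ η ε k0 : ℝ} (h0 : 0 ≤ κ) (h1 : η ≤ 1 / 1000) (e0 : 0 ≤ ε) (e1 : ε ≤ 1 / 1000)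
    (k1 : 0 ≤ k0) (k2 : k0 ≤ 1 / 1000) :
    99 / 100 * κ ≤ (1 - η) * κ / ((1 + ε + k0) * (1 + k0)) := by
  rw [le_div_iff₀ (by positivity)]
  have a1 : (1 + ε + k0) * (1 + k0) ≤ (1 + 2 / 1000) * (1 + 1 / 1000) :=
    mul_le_mul (by linarith) (by linarith) (by linarith) (by norm_num)
  nlinarith

end Crest.Agent.N067.D
end

-- ▼ part N067/Z/Des
section

/-!
# Row 67, TOP (helper93): `desS : DesStmt`
-/

set_option autoImplicit false
set_option linter.dupNamespace false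

open Topology Filter Set

namespace Crest.Agent.N067.D

variable {f be Ub U : ℝ}

theorem rpow34_le {x y : ℝ} (hx : 0 ≤ x) (hy : 0 ≤ y) (h : x ≤ y ^ 4) :
    x ^ (3 / 4 : ℝ) ≤ y ^ 3 := by
  calc x ^ (3 / 4 : ℝ) ≤ (y ^ 4) ^ (3 / 4 : ℝ) := by gcongr
    _ = y ^ 3 := by
      rw [← Real.rpow_natCast y 4, ← Real.rpow_mul hy, ← Real.rpow_natCast y 3]; norm_num

theorem hT_le (hf : 100 ≤ f) : hT f ≤ 2 / f ^ 5 := by
  have f0 : 0 < f := by linarith
  have e : hT f = 2 / (27 * f ^ 5) * (4 / lam) ^ 4 := by rw [hT, h2, T1]; ring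
  rw [e, lam, div_mul_eq_mul_div, div_le_div_iff₀ (by positivity) (by positivity)]
  nlinarith [pow_pos f0 5]

theorem pot2 (hf : 100 ≤ f) (Z : ZOut f be Ub) {r : ℝ} (hr : 0 < r) (h1 : h f r ≤ 80 / f) :
    |hd f r| * r * ζ f be Ub (h f r) * max 1 (r / f) ^ 3 ≤
      10 ^ 7 * ζ f be Ub (80 / f) * h f r := by
  have H := hOut hf
  have f0 : 0 < f := by linarith
  have h0 := (H.hpos r hr).1
  have z0 := (Z.zbd _ h0).1
  have Z0 := (Z.zbd (80 / f) (by positivity)).1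
  obtain ⟨t0, -, t2, t3⟩ := H.hT0
  have l0 : 0 < lam := by rw [lam]; norm_num
  rcases le_total r f with h3 | h3
  · rw [max_eq_left ((div_le_one f0).2 h3), one_pow, mul_one]
    have a1 := (H.hlow r hr h3).2
    have a3 := Z.zmono h1
    calc |hd f r| * r * ζ f be Ub (h f r) ≤ 3 / r * h f r * r * ζ f be Ub (80 / f) := by gcongr
      _ = 3 * ζ f be Ub (80 / f) * h f r := by field_simp
      _ ≤ _ := by gcongr; norm_num
  rw [max_eq_right ((one_le_div f0).2 h3)]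
  have a1 := Z.zsub _ h0 h1
  rcases eq_or_lt_of_le h3 with h4 | h4
  · subst h4
    have a2 := (H.hlow f hr le_rfl).2
    have a3 := Z.zmono h1
    rw [div_self hr.ne', one_pow, mul_one]
    calc |hd f f| * f * ζ f be Ub (h f f) ≤ 3 / f * h f f * f * ζ f be Ub (80 / f) := by gcongr
      _ = 3 * ζ f be Ub (80 / f) * h f f := by field_simp
      _ ≤ _ := by gcongr; norm_num
  rcases le_total r (T1 f) with h5 | h5
  · have e1 : h f r = 2 / (27 * f ^ 5) * (5 / 2 * f - r) ^ 4 := by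
      rw [h, if_neg (not_le.2 h4), if_pos h5, h2]
    have e2 : hd f r = -(8 / (27 * f ^ 5) * (5 / 2 * f - r) ^ 3) := by
      rw [hd, if_neg (not_le.2 h4), if_pos h5]
    set w := 5 / 2 * f - r with hw
    have w0 : 0 < w := by
      have : 0 < 4 / lam := by positivity
      rw [T1] at h5; linarith
    have w1 : w ≤ 2 * f := by linarith
    have r1 : r ≤ 3 * f := by linarith
    have a2 : (f * h f r / 80) ^ (3 / 4 : ℝ) ≤ (w / f) ^ 3 := rpow34_le (by positivity)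
      (by positivity) (by
        rw [e1, show f * (2 / (27 * f ^ 5) * w ^ 4) / 80 = 1 / 1080 * (w / f) ^ 4 by
          field_simp; norm_num]
        have : 0 ≤ (w / f) ^ 4 := by positivity
        linarith)
    have a3 : ζ f be Ub (h f r) ≤ ζ f be Ub (80 / f) * (w / f) ^ 3 := a1.trans (by gcongr)
    have a4 : |hd f r| = 4 / w * h f r := by
      rw [e2, abs_neg, abs_of_nonneg (by positivity), e1]; field_simp; norm_num
    calc |hd f r| * r * ζ f be Ub (h f r) * (r / f) ^ 3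
        ≤ 4 / w * h f r * r * (ζ f be Ub (80 / f) * (w / f) ^ 3) * (r / f) ^ 3 := by
          rw [a4]; gcongr
      _ = 4 * ((w / f) ^ 2 * (r / f) ^ 4) * ζ f be Ub (80 / f) * h f r := by field_simp
      _ ≤ 4 * ((2 * f / f) ^ 2 * (3 * f / f) ^ 4) * ζ f be Ub (80 / f) * h f r := by gcongr
      _ ≤ _ := by
        gcongr
        rw [mul_div_assoc, mul_div_assoc, div_self f0.ne']; norm_num
  · have a2 := H.hhigh r h3
    have T0 : 0 < T1 f := by linarith
    set E := Real.exp (-(lam * (r - T1 f)) / 4) with hE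
    have E0 : 0 < E := Real.exp_pos _
    have e4 : E ^ 4 = Real.exp (-(lam * (r - T1 f))) := by
      rw [hE, ← Real.exp_nat_mul]; congr 1; push_cast; ring
    have a3 : (f * h f r / 80) ^ (3 / 4 : ℝ) ≤ (E / f) ^ 3 := rpow34_le (by positivity)
      (by positivity) (by
        have := hT_le hf
        rw [H.tail r h5, ← e4]
        calc f * (hT f * E ^ 4) / 80 ≤ f * (2 / f ^ 5 * E ^ 4) / 80 := by gcongr
          _ = 1 / 40 * (E / f) ^ 4 := by field_simp; norm_num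
          _ ≤ _ := by
            have : 0 ≤ (E / f) ^ 4 := by positivity
            linarith)
    have a4 : ζ f be Ub (h f r) ≤ ζ f be Ub (80 / f) * (E / f) ^ 3 := a1.trans (by gcongr)
    -- `r √E ≤ T1`
    have a5 : r ^ 2 * E ≤ T1 f ^ 2 := by
      have b1 : r ≤ T1 f * Real.exp (lam * (r - T1 f) / 8) := by
        have := Real.add_one_le_exp (lam * (r - T1 f) / 8)
        have b2 : r - T1 f ≤ T1 f * (lam * (r - T1 f) / 8) := by
          rw [lam]; nlinarith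
        nlinarith
      calc r ^ 2 * E ≤ (T1 f * Real.exp (lam * (r - T1 f) / 8)) ^ 2 * E := by gcongr
        _ = T1 f ^ 2 * Real.exp (lam * (r - T1 f) / 8 + lam * (r - T1 f) / 8 +
              -(lam * (r - T1 f)) / 4) := by
          rw [Real.exp_add, Real.exp_add]; ring
        _ = _ := by
          rw [show lam * (r - T1 f) / 8 + lam * (r - T1 f) / 8 + -(lam * (r - T1 f)) / 4 = 0 by
            ring, Real.exp_zero, mul_one]
    have E1 : E ≤ 1 := Real.exp_le_one_iff.2 (by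
      have := mul_nonneg l0.le (sub_nonneg.2 h5); linarith)
    have a6 : r ^ 2 * E ≤ 9 * f ^ 2 := a5.trans (by nlinarith)
    calc |hd f r| * r * ζ f be Ub (h f r) * (r / f) ^ 3
        ≤ lam * h f r * r * (ζ f be Ub (80 / f) * (E / f) ^ 3) * (r / f) ^ 3 := by gcongr
      _ = lam * ((r ^ 2 * E) ^ 2 * E / f ^ 6) * ζ f be Ub (80 / f) * h f r := by field_simp
      _ ≤ lam * ((9 * f ^ 2) ^ 2 * 1 / f ^ 6) * ζ f be Ub (80 / f) * h f r := by gcongr
      _ ≤ _ := by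
        gcongr
        rw [show lam * ((9 * f ^ 2) ^ 2 * 1 / f ^ 6) = 81 * lam / f ^ 2 by field_simp; norm_num,
          div_le_iff₀ (by positivity), lam]
        nlinarith

theorem s_le (P : Par f be Ub) (Z : ZOut f be Ub) (U : ℝ) : s f be Ub U ≤ 11 / 10 := by
  have f0 := P.f0
  obtain ⟨t0, t1, -⟩ := (hOut P.f1).hT0
  obtain ⟨u0, u1, -⟩ := Z.ord
  have g1 : 2 / f < 80 / f := by gcongr; norm_num
  have c1 : ∀ a b', ch a b' U ≤ 1 := fun a b' => by unfold ch; split_ifs <;> norm_num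
  unfold s
  rcases lt_or_ge U (hT f) with h1 | h1
  · rw [ch_lt h1, ch_lt (a := 80 / f) (by linarith), ch_lt (a := U3 be Ub) (by linarith)]
    linarith [c1 0 (hT f)]
  rcases lt_or_ge U (80 / f) with h2 | h2
  · rw [ch_ge h1, ch_lt h2, ch_lt (a := U3 be Ub) (by linarith)]
    linarith [c1 (hT f) (80 / f)]
  rcases lt_or_ge U (U3 be Ub) with h3 | h3
  · rw [ch_ge h1, ch_ge h2, ch_lt h3]
    linarith [c1 (80 / f) (U3 be Ub)]
  · rw [ch_ge h1, ch_ge h2, ch_ge h3]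
    linarith [c1 (U3 be Ub) (9 * U3 be Ub)]

theorem b_half (P : Par f be Ub) (Z : ZOut f be Ub) (h : U ≤ 2 * U3 be Ub) :
    1 / 2 ≤ b f be Ub U := by
  have u0 := P.U30
  have b0 := P.be0
  have b1 := P.be1
  have u1 := P.Ub0
  have a0 : U ≤ 9 / 4 * U3 be Ub := by linarith
  have a1 := b_anti P a0
  have a2 := b_top P Z (U := 9 / 4 * U3 be Ub) (by linarith) (by linarith [Z.ord.2.2])
  rw [show Ub / (9 / 4 * U3 be Ub) = (2 / 3 * ((24 / 25 + be) / be)) ^ 2 by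
    unfold U3; field_simp; norm_num, Real.sqrt_sq (by positivity)] at a2
  have a3 : be * (2 / 3 * ((24 / 25 + be) / be) - 1) = 2 / 3 * (24 / 25 + be) - be := by
    field_simp
  linarith

end Crest.Agent.N067.D

namespace Crest.Agent.N067.M

open D

theorem desS : DesStmt := by
  refine ⟨10 ^ 7, by norm_num, fun M be hM hbe => ?_⟩
  have M0 : 0 < M := by linarith
  set Ub : ℝ := 400 / M ^ 2 with hUb
  set b' : ℝ := min (be / 10) (1 / 100) with hb'
  have b0 : 0 < b' := lt_min (by positivity) (by norm_num)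
  have Ub0 : 0 < Ub := by positivity
  have Ub1 : Ub ≤ 1 := by rw [hUb, div_le_one (by positivity)]; nlinarith
  have Ub4 : Ub / 400 = 1 / M ^ 2 := by rw [hUb]; ring
  have u0 : 0 < U3 b' Ub := by unfold U3; positivity
  refine ⟨U3 b' Ub, max (max 100 ((80 / U3 b' Ub) ^ 102)) (1 / U3 b' Ub ^ 2), u0, fun f hf => ?_⟩
  have hf1 : 100 ≤ f := ((le_max_left _ _).trans (le_max_left _ _)).trans hf
  have P : Par f b' Ub := ⟨hf1, b0, min_le_right _ _, Ub0, Ub1,
    ((le_max_right _ _).trans (le_max_left _ _)).trans hf⟩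
  have H := hOut hf1
  have Z := zOut P H
  have f0 := P.f0
  obtain ⟨-, o1, o2⟩ := Z.ord
  have hk : ∀ U, 99 / 100 * kap f U ≤ (1 - et) * kap f U / ((1 + ep + k0) * (1 + k0)) := fun U =>
    k_ge (H.bkap U).1 (by norm_num [et]) (by norm_num [ep]) (by norm_num [ep]) (by norm_num [k0])
      (by norm_num [k0])
  refine ⟨h f, hd f, ζ f b' Ub, ⟨s f b' Ub, b f b' Ub, bu f b' Ub, kap f, H2 f, U3 b' Ub, be⟩,
    rfl, rfl, ⟨H.hpos, H.hlow, H.hhigh, Z.zmono.monotoneOn _, Z.zcont, Z.zbd,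
      fun U hU => (Z.ztop U ?_).1, Z.z2, Z.z1, Z.zdec, ⟨o1, by dsimp only; linarith, ?_⟩, hbe.le,
      H.mhd, H.des, H.mkap, fun U => abs_le.2 ⟨by linarith [(H.bkap U).1], (H.bkap U).2⟩,
      fun a ha b hb => H.kato k0 a b (by norm_num [k0]) ha hb, ⟨Z.lip.1, Z.lip.2.1⟩,
      ⟨_, Z.fin.countable, fun U hU hN => ⟨(Z.der U hU hN).1, (Z.der U hU hN).2.1⟩⟩,
      ⟨Z.meas.1, Z.meas.2.1, Z.meas.2.2.1⟩, fun U hU => ?_, fun U hU => (Z.bzero U hU).1,
      fun U hU h1 => (admk P Z hU (by dsimp only at h1; linarith) (hk U)).1,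
      fun U _ h1 => b_half P Z h1, fun U h1 => ?_, fun U U' hU hU' h1 => ?_,
      fun y hy => ⟨(H.one y hy).1, (H.one y hy).2.1⟩,
      fun U hU => (Z.bmain U (le_trans (by gcongr; norm_num) hU)).1,
      fun r hr h1 => pot2 hf1 Z hr h1, fun U h1 h2 => (Z.zmain U h1 h2).ge,
      fun r hr => Z.zbad1 r (by linarith), Z.zbad2,
      ⟨3 * Real.exp (lam * T1 f), fun r hr => le_trans (Z.zmono ?_) (Z.zup r (by linarith))⟩⟩⟩
  · refine o2.trans (le_trans ?_ hU)
    rw [Ub4, div_le_div_iff₀ (by positivity) (by positivity)]; nlinarith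
  · have := (le_max_right _ _).trans hf
    rwa [div_le_iff₀ (by positivity)] at this
  · obtain ⟨q1, -, q3, q4, q5, q6, -⟩ := Z.q2 U hU
    exact ⟨q1, s_le P Z U, q3, q4, abs_le.2 ⟨by dsimp only; linarith, by dsimp only; linarith⟩⟩
  · dsimp only at h1
    have hU := u0.trans_le h1
    obtain ⟨q1, q2, q3, q4, -⟩ := Z.q2 U hU
    refine ⟨by dsimp only; linarith, ?_⟩
    dsimp only [Mu.a]
    split_ifs with h2
    · obtain ⟨r1, -, r3, r4⟩ := Z.q3 U (Ub4 ▸ h2)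
      have k1 := hk U
      have : b' ≤ be / 10 := min_le_left _ _
      rw [r4] at k1 ⊢
      rw [r1]
      nlinarith
    · have a1 := (admk P Z hU (by rw [Ub4]; exact (not_le.1 h2).le) (hk U)).2
      have a2 : s f b' Ub U ^ 2 ≤ 2 * b f b' Ub U := by nlinarith [s_le P Z U]
      rw [ep] at a1 ⊢
      linarith
  · have a1 := b_ratio P Z hU hU' (Ub4 ▸ h1)
    have a2 := (Z.q2 U' hU').2.2.1
    have a3 : 0 ≤ max 1 (U' / U) * b f b' Ub U' := by positivity
    dsimp only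
    linarith
  · linarith [(H.hpos r (by linarith)).1]

end Crest.Agent.N067.M
end

-- ▼ part N067/Z/GT

/-! # Z/GT (helper69): the leaves GT, CORE and MID of the assembly -/

set_option autoImplicit false
set_option linter.dupNamespace false

open MeasureTheory Laplacian InnerProductSpace Topology Filter Set Metric
open scoped RealInnerProductSpace Gradient ContDiff ENNReal

namespace Crest.Agent.N067.M

open Crest.Agent.R077 Crest.Agent.N067.V Crest.Agent.N067.Y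

noncomputable section

variable {n : ℕ}

/-- comparison of integrals over two sets -/
theorem setL_le {S T : Set (EE n)} {f g : EE n → ℝ≥0∞} (hT : MeasurableSet T) (hS : MeasurableSet S)
    (h : ∀ x ∈ S, f x ≠ 0 → x ∈ T ∧ f x ≤ g x) : ∫⁻ x in S, f x ≤ ∫⁻ x in T, g x := by
  rw [← lintegral_indicator hS, ← lintegral_indicator hT]
  refine lintegral_mono fun x => ?_
  by_cases hx : x ∈ S
  · rw [indicator_of_mem hx]
    by_cases h0 : f x = 0
    · rw [h0]; exact zero_le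
    · rw [indicator_of_mem (h x hx h0).1]; exact (h x hx h0).2
  · rw [indicator_of_notMem hx]; exact zero_le

/-- **GT** -/
theorem gtS (n : ℕ) : GTStmt n := by
  classical
  intro K e he
  obtain ⟨Cf, Ct, t1, hT, hN⟩ := exists_nm (φ0 n) le_rfl
  refine ⟨1, fun C1 h1 C2 h2 => ?_⟩
  obtain ⟨M0, -, hN⟩ := hN C1 C2 h1 h2
  have c0 : 0 < Ct * C1 ^ 2 := by positivity
  obtain ⟨Ms, hG⟩ := T.gtB n K C1 C2 (e / (4 * (Ct * C1 ^ 2))) (by linarith) (by positivity)
  refine ⟨max M0 Ms, fun M hM => ⟨max Ms (80 * M ^ 2), ?_⟩⟩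
  intro D μ p rs ηt C T2 τ e2 eM hf E eT
  subst eM
  have O := E.ok
  have B := E.bas
  have N := hN D O.pos e2 (le_of_max_le_left hM) (le_of_max_le_right hf)
  have f0 : 0 < D.f0 := one_pos.trans_le O.f1
  set U' : EE n → ℝ := fun x => if x ∈ D.Om then D.U x else 1 with hU'
  have mU : Measurable U' :=
    ContinuousOn.measurable_piecewise (f := D.U) (g := fun _ => 1) (O.U_cont B) continuousOn_const
      B.op.measurableSet
  have gX0 : ∀ y, D.gX y ≠ 0 → y ∈ D.Om ∧ 80 / D.f0 ≤ D.U y ∧ D.U y ≤ 1 / D.M ^ 2 := fun y hy => by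
    by_contra h
    exact hy (if_neg h)
  have key := hG D la rs O B e2 (le_of_max_le_right hM) (le_of_max_le_left hf) D.gX
    (fun x => μ.b (D.U x)) (fun y => 4 * μ.b (U' y)) (O.meas_gX B)
    ((E.des.meas.2.1.comp mU).const_mul 4)
    (fun y => mul_nonneg (by norm_num) (E.des.bd _ (by
      simp only [hU']; split_ifs with h; exacts [O.U_pos B h, one_pos])).2.2.1)
    fun y hy => by
      obtain ⟨y1, y2, y3⟩ := gX0 y hy
      refine ⟨y1, y2, fun x hx a ha h => ?_⟩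
      have u0 := O.U_pos B hx
      have u1 := O.U_pos B y1
      have b0 := (E.des.bd _ u1).2.2.1
      simp only [hU', if_pos y1]
      have m0 : 0 < max (D.U x) (1 / D.f0) := lt_max_of_lt_left u0
      have a1 := E.des.bcmp _ _ m0 u1 y3
      have a2 : max 1 (D.U y / max (D.U x) (1 / D.f0)) ≤ a :=
        max_le ha ((div_le_iff₀ m0).2 h)
      have a3 : μ.b (max (D.U x) (1 / D.f0)) ≤ 3 * a * μ.b (D.U y) := a1.trans (by gcongr)
      rcases le_total (D.U x) (1 / D.f0) with k | k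
      · rw [max_eq_right k] at a3
        have a4 : 1 / D.f0 ≤ 80 / D.f0 := by gcongr; norm_num
        have a5 := E.des.half (1 / D.f0) (by positivity)
          (by linarith [E.des.U3.1, show 0 < 1 / D.f0 by positivity])
        nlinarith [(E.des.bd _ u0).2.2.2.1, mul_nonneg (zero_le_one.trans ha) b0]
      · rw [max_eq_left k] at a3
        nlinarith [mul_nonneg (zero_le_one.trans ha) b0]
  have d0 : ∀ z, 0 ≤ D.dens z := fun z => by unfold Dat.dens; positivity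
  calc D.GT μ ≤ ∫⁻ x in D.Cut, ENNReal.ofReal (Ct * C1 ^ 2) *
        (ENNReal.ofReal (μ.b (D.U x) * D.dens x) * ∫⁻ y in ball (ft D.v x) 1, D.gX y) := by
        refine setLIntegral_mono' (O.meas_Cut B) fun x hx => ?_
        have := O.grad_Th B N hT (by norm_num [la]) hx.1.1
        rw [show (D.cut (φ0 n) C1).Th = D.Th from eT.symm] at this
        rw [← mul_assoc (D.dens x), mul_comm (D.dens x), ENNReal.ofReal_mul
          (mul_nonneg (E.des.bd _ (O.U_pos B hx.1.1)).2.2.1 (d0 x)), mul_left_comm]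
        exact mul_le_mul_right this _
    _ ≤ ENNReal.ofReal (Ct * C1 ^ 2) * (ENNReal.ofReal (e / (4 * (Ct * C1 ^ 2))) *
        (ENNReal.ofReal 4 * D.GB μ)) := by
        rw [lintegral_const_mul' _ _ ENNReal.ofReal_ne_top]
        refine mul_le_mul_right (key.trans (mul_le_mul_right ?_ _)) _
        rw [Dat.GB, ← lintegral_const_mul' _ _ ENNReal.ofReal_ne_top]
        refine setL_le (O.meas_In B) (T.meas_band B.sol 2) fun y hy h0 => ?_
        have g0 := gX0 y (right_ne_zero_of_mul h0)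
        have a1 : |dd D.v y| ≤ 2 := hy
        have a2 := E.th.lo y
        have a3 := E.th.four
        refine ⟨⟨g0.1, by linarith⟩, le_of_eq ?_⟩
        have b0 := (E.des.bd _ (O.U_pos B g0.1)).2.2.1
        have d1 := d0 y
        rw [Dat.gX, if_pos g0, Dat.ch, Real.smoothTransition.one_of_one_le (by linarith), gsq_eq]
        simp only [hU', if_pos g0.1]
        rw [← ENNReal.ofReal_mul (by positivity), ← ENNReal.ofReal_mul (by norm_num)]
        congr 1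
        change _ * ‖D.XX y‖ ^ 2 = _
        ring
    _ = _ := by
        rw [← mul_assoc, ← mul_assoc, ← ENNReal.ofReal_mul c0.le,
          ← ENNReal.ofReal_mul (by positivity)]
        congr 2; field_simp

/-- **CORE** -/
theorem coreS (n : ℕ) : CoreStmt n := by
  intro K C2 M U1 T2 hU
  obtain ⟨A, fs, hA, h⟩ := T.coreD n (max T2 (|C2| * (8 / U1)))
    (min (U1 / 8) (1 / (2 * max M 1))) K (by positivity)
  refine ⟨A, max fs (4 / U1), hA.le, fun D μ p C1 rs ηt C τ e2 eM hf E => ?_⟩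
  have O := E.ok
  have B := E.bas
  refine le_trans (lintegral_mono_set fun x hx => ?_)
    (h D la C1 rs O B (le_of_max_le_left hf))
  have p0 := B.ph x
  rcases hx with ⟨h1, h2⟩ | ⟨h1, h2⟩
  · have f1 := O.f1
    have a1 := T.U_le_ph O B h1.1
    have a2 : 2 / D.ρm ≤ U1 / 2 := by
      have := le_of_max_le_right hf
      rw [div_le_iff₀ hU] at this
      rw [div_le_iff₀ (lt_of_lt_of_le (by positivity) O.rm)]
      nlinarith [O.rm, mul_le_mul_of_nonneg_left (show D.f0 ≤ D.ρm by nlinarith [O.rm]) hU.le]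
    have a3 : U1 / 8 ≤ ph0 D.v x := by linarith
    refine ⟨le_max_of_le_right ?_, min_le_of_left_le a3⟩
    have a4 : 1 / ph0 D.v x ≤ 8 / U1 := by
      rw [div_le_div_iff₀ p0 hU]; linarith
    have a5 : 0 ≤ Real.log (1 / ph0 D.v x) :=
      Real.log_nonneg (B.M1.trans (B.rho h1.1).le)
    have a6 := Real.log_le_sub_one_of_pos (one_div_pos.2 p0)
    calc _ ≤ D.C2 * Real.log (1 / ph0 D.v x) := h1.1.2.1.le
      _ ≤ |C2| * Real.log (1 / ph0 D.v x) := by rw [e2]; gcongr; exact le_abs_self _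
      _ ≤ _ := by gcongr; linarith
  · refine ⟨le_max_of_le_left h2.le, min_le_of_right_le (not_lt.1 fun h3 => h1 ?_)⟩
    rw [← eM, max_eq_left B.M1] at h3
    exact E.th.supp x h3.le (by linarith [E.th.lo x])

/-- **MID** -/
theorem midS (hX : X5Stmt n) (hB : BadStmt n) : MidStmt n := by
  intro K
  have s2 : 1.414 ≤ √2 := Real.le_sqrt_of_sq_le (by norm_num)
  obtain ⟨e1, he1, hB⟩ := hB la (99 / 100) (by norm_num) (by norm_num [la])
    (by rw [la]; linarith)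
  obtain ⟨e0, lw0, he0, hl0, h⟩ := T.midD hX (b := 99 / 100) (by norm_num) (by norm_num)
  refine ⟨e1, he1, fun β hβ e he => ?_⟩
  obtain ⟨e', C, fs, he', hC, h⟩ := h K 50 e (by norm_num) he
  refine ⟨1024 * C, by positivity, ((hB β hβ K la k0 e0 e' (by norm_num [la]) (by norm_num [la])
    he0 he').and (big_num n K la k0 β (max fs (50 / lw0)))).mono ?_⟩
  rintro D ⟨hb, -, -, -, hf, -⟩ μ p C1 rs ηt C' T2 τ E
  have O := E.ok
  have f1 := O.f1
  have f0 : 0 < D.f0 := by linarith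
  obtain ⟨r1, r2, r3, r4⟩ := E.hr
  have r0 : 0 < p.r0 := by linarith
  have m1 := le_max_left p.r0 D.f0
  have m2 := le_max_right p.r0 D.f0
  have m3 : max p.r0 D.f0 ≤ p.R := max_le r3 r4
  set r := max p.r0 D.f0
  have g0 : (0 : ℝ) ≤ 11 / 10 := by norm_num
  have key := h D (fun x => H.WW (11 / 10) p.I p.x0 r p.R x ^ 2) la C1 rs O E.bas
    (le_of_max_le_left hf)
    (H.wt_WW_sq E.n9 g0 (f1.trans m2) m3 (by
      have := le_of_max_le_right hf
      rw [div_le_iff₀ hl0] at this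
      rw [div_le_iff₀ (by linarith)]
      nlinarith))
    (fun x => by
      rw [E.hW]
      exact pow_le_pow_left₀ (H.WW_pos (by linarith) x).le (H.WW_anti g0 r0 m1 x) 2)
    (fun x hx => by
      rw [E.hl, one_div, inv_le_inv₀ (H.rh_pos r0 x) f0] at hx
      have a1 := H.WW_le_four (I := p.I) (c := p.x0) (R := p.R) g0 (by norm_num) (r1 := r)
        (by linarith) (max_le (le_rh p.I p.x0 x) hx)
      have a2 := pow_le_pow_left₀ (H.WW_pos r0 x).le a1 2
      rw [E.hW]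
      nlinarith [sq_nonneg (H.WW (11 / 10) p.I p.x0 r p.R x)])
    (fun x => by
      refine (H.norm_grad_WW_sq g0 (by linarith) m3 x).trans ?_
      have a1 := H.rh_pos (I := p.I) (c := p.x0) (r0 := r) (by linarith) x
      gcongr
      · norm_num
      · rw [E.hl, one_div]
        exact le_min (inv_anti₀ (H.rh_pos r0 x) (H.rh_mono r0.le m1 x))
          (inv_anti₀ f0 (m2.trans (le_rh p.I p.x0 x))))
    E.des.bad2 (hb E.des.bad1 E.des.bad2)
  have z0 : 0 ≤ D.Z0 ^ 2 * D.f0 ^ 3 := by positivity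
  rw [Dat.G2, ← lintegral_const_mul' _ _ ENNReal.ofReal_ne_top]
  simp only [← ENNReal.ofReal_mul z0, ← mul_assoc]
  refine key.trans (add_le_add_right ?_ _)
  rw [SRC, ← lintegral_const_mul' _ _ ENNReal.ofReal_ne_top,
    ← lintegral_const_mul' _ _ ENNReal.ofReal_ne_top]
  refine lintegral_mono fun x => ?_
  rw [← ENNReal.ofReal_mul hC, ← ENNReal.ofReal_mul (by positivity)]
  refine ENNReal.ofReal_le_ofReal ?_
  have a0 := H.rh_pos (I := p.I) (c := p.x0) r0 x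
  have a1 : D.f0 ^ 3 * min (D.lw x) (1 / D.f0) ^ 5 ≤
      min (D.f0 ^ (-2 : ℝ)) (D.f0 ^ (3 : ℝ) * rh p.I p.x0 p.r0 x ^ (-(3 : ℝ) - 2)) := by
    have b0 : 0 ≤ min (D.lw x) (1 / D.f0) := le_min (O.lwpos x).1.le (by positivity)
    refine le_min ?_ ?_
    · calc _ ≤ D.f0 ^ 3 * (1 / D.f0) ^ 5 := by gcongr; exact min_le_right _ _
        _ = _ := by rw [Real.rpow_neg f0.le, Real.rpow_two]; field_simp
    · calc _ ≤ D.f0 ^ 3 * D.lw x ^ 5 := by gcongr; exact min_le_left _ _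
        _ = _ := by
          rw [E.hl, show (-(3 : ℝ) - 2) = -((5 : ℕ) : ℝ) by norm_num, Real.rpow_neg a0.le,
            Real.rpow_natCast, show (3 : ℝ) = ((3 : ℕ) : ℝ) by norm_num, Real.rpow_natCast, inv_pow]
  have a2 := H.WW_sq_le (γ := 11 / 10) (I := p.I) (c := p.x0) r0 (r0.trans_le r3) x
  rw [← E.hW] at a2
  have b0 : 0 ≤ D.f0 ^ 3 * min (D.lw x) (1 / D.f0) ^ 5 := by
    have := le_min (O.lwpos x).1.le (show 0 ≤ 1 / D.f0 by positivity)
    positivity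
  rw [Real.rpow_two]
  calc _ = C * D.Z0 ^ 2 * psi D.v x ^ 2 *
        (D.f0 ^ 3 * min (D.lw x) (1 / D.f0) ^ 5 * D.W x ^ 2) := by ring
    _ ≤ C * D.Z0 ^ 2 * psi D.v x ^ 2 * (min (D.f0 ^ (-2 : ℝ))
        (D.f0 ^ (3 : ℝ) * rh p.I p.x0 p.r0 x ^ (-(3 : ℝ) - 2)) *
        (1024 * (rh p.I p.x0 p.r0 x ^ (-(2 * (11 / 10 : ℝ))) * Om p.x0 p.R x))) := by
        gcongr
    _ = _ := by ring

end

end Crest.Agent.N067.M
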