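import Crest.Agent.N067.H.Tan
import Crest.Agent.N067.Z.Defs

-- ▼ part N067/W/Alg
section

/-!
# Row 67, block W (helper47): the pointwise algebra of the master inequality.
-/

set_option autoImplicit false

open InnerProductSpace
open scoped RealInnerProductSpace Gradient

namespace Crest.Agent.N067.W

open Crest.Agent.R077 H

noncomputable section

variable {n : ℕ}

/-- the integrand of (I1) divided by `dens` -/
def hh1 (X V gC : EE n) (ch b bu s G : ℝ) : ℝ := b * ch ^ 2 * G +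
  ⟪X, ((bu + 2 * s * b) * ch ^ 2) • X + (2 * b * ch ^ 2) • V + (2 * b * ch) • gC⟫

/-- the integrand of (I2) divided by `dens` -/
def hh2 (v : EE n → ℝ) (x X V gC L : EE n) (ch c cu s E : ℝ) : ℝ :=
  tf v x (((cu + 2 * s * c) * ch ^ 2) • X + (2 * c * ch ^ 2) • V + (2 * c * ch) • gC) L +
    c * ch ^ 2 * E

variable {v : EE n → ℝ} {x X L U gT : EE n} {ch chd sg b bu s c cu k P Kp trc l CH ε be : ℝ}

theorem hh1_eq (V : EE n) : hh1 X V (chd • (gT - sg • ∇ (dd v) x)) ch b bu s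
      (-P + (k - 1) * ‖X‖ ^ 2 + Kp) =
    ch ^ 2 * ((bu + 2 * s * b + b * (k - 1)) * ‖X‖ ^ 2 + 2 * b * ⟪X, V⟫ - b * P + b * Kp) +
      2 * b * ch * chd * ⟪X, gT⟫ - b * (2 * ch * chd * (sg * ⟪∇ (dd v) x, X⟫)) := by
  simp only [hh1, inner_add_right, inner_sub_right, real_inner_smul_right,
    real_inner_self_eq_norm_sq, real_inner_comm X (∇ (dd v) x)]
  ring

theorem hh2_eq (V : EE n) (E : ℝ) : hh2 v x X V (chd • (gT - sg • ∇ (dd v) x)) L ch c cu s E =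
    ch ^ 2 * ((cu + 2 * s * c) * tf v x X L + 2 * c * tf v x V L + c * E) +
      2 * c * ch * chd * tf v x gT L := by
  rw [hh2, sub_eq_add_neg, ← neg_smul]
  simp only [tf_add, tf_smul, tf_nn]
  ring

theorem cross1 (hb : 0 ≤ b) : -(b / 40000 * ‖X‖ ^ 2 * ch ^ 2 + 40000 * b * chd ^ 2 * ‖gT‖ ^ 2) ≤
    2 * b * ch * chd * ⟪X, gT⟫ := by
  have h := sq_nonneg ‖ch • X + (40000 * chd) • gT‖
  rw [norm_add_sq_real, norm_smul, norm_smul, real_inner_smul_left, real_inner_smul_right, mul_pow,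
    mul_pow, Real.norm_eq_abs, Real.norm_eq_abs, sq_abs, sq_abs] at h
  nlinarith [mul_nonneg hb h]

theorem cross2 (hv : Sol v) (c0 : 0 ≤ c) (c1 : c ≤ 12 / 5 * b) (b1 : b ≤ 6 / 5) (hL : ‖L‖ ≤ l) :
    -(l ^ 2 / 400 * ch ^ 2 + 20000 * b * chd ^ 2 * ‖gT‖ ^ 2) ≤
      11 / 10 * (2 * c * ch * chd * tf v x gT L) := by
  have l0 : 0 ≤ l := (norm_nonneg _).trans hL
  have b0 : 0 ≤ b := by linarith
  have h2 : |tf v x gT L| ≤ 2 * (‖gT‖ * l) := (abs_tf_le hv x gT L).trans (by gcongr)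
  have h3 : |2 * c * ch * chd * tf v x gT L| ≤
      2 * (12 / 5 * b) * |ch| * |chd| * (2 * (‖gT‖ * l)) := by
    rw [abs_mul, abs_mul, abs_mul, abs_of_nonneg (by positivity : 0 ≤ 2 * c)]
    gcongr
  have h4 := sq_nonneg (l * |ch| - 2112 * (b * |chd| * ‖gT‖))
  have h5 : b * (b * chd ^ 2 * ‖gT‖ ^ 2) ≤ 6 / 5 * (b * chd ^ 2 * ‖gT‖ ^ 2) := by gcongr
  have h6 : 0 ≤ b * chd ^ 2 * ‖gT‖ ^ 2 := by positivity
  rw [← sq_abs ch, ← sq_abs chd] at *
  linear_combination 11 / 10 * (abs_le.1 h3).1 + 1 / 400 * h4 + 2112 ^ 2 / 400 * h5 +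
    (20000 - 2112 ^ 2 / 400 * (6 / 5)) * h6

/-- the range where the quadratic form is positive -/
theorem alg_low (hv : Sol v) (ht : tt v x ≤ 1 / 10000) (hε0 : 0 ≤ ε) (hε : ε ≤ 1 / 10000)
    (h : Adm (bu + 2 * s * b + b * (k - 1)) b s) (b0 : 1 / 2 ≤ b) (b1 : b ≤ 6 / 5) (hL : ‖L‖ ≤ l)
    (htr : 6 - 6 * tt v x ≤ trc) :
    ch ^ 2 * ((1 + ε) * ‖s • X + ((-(11 / 10 : ℝ)) • L + U)‖ ^ 2 +
        b / 40000 * ‖X‖ ^ 2 + l ^ 2 / 200 + b * Kp) ≤
      hh1 X ((-(11 / 10 : ℝ)) • L + U) (chd • (gT - sg • ∇ (dd v) x)) ch b bu s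
          (-P + (k - 1) * ‖X‖ ^ 2 + Kp) +
        11 / 10 * hh2 v x X ((-(11 / 10 : ℝ)) • L + U) (chd • (gT - sg • ∇ (dd v) x)) L ch (6 / 5) 0 s
          (trc * l ^ 2 - 2 * tf v x L L - CH * tt v x * l) +
        (ch ^ 2 * (20000 * ‖U‖ ^ 2 + b * P + 350 * CH ^ 2 * (b * tt v x ^ 2)) +
          60000 * b * chd ^ 2 * ‖gT‖ ^ 2 + b * (2 * ch * chd * (sg * ⟪∇ (dd v) x, X⟫))) := by
  have t0 := hv.tt_nonneg x
  have l0 : 0 ≤ l := (norm_nonneg _).trans hL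
  have q := quadT v x t0 ht X L U h hε0 hε (σ := l ^ 2) (by gcongr) htr
  rw [tf_add, tf_smul, tf_smul] at q
  have q1 := cross1 (X := X) (gT := gT) (ch := ch) (chd := chd) h.b0
  have q2 := cross2 (x := x) (gT := gT) (ch := ch) (chd := chd) (c := 6 / 5) hv (by norm_num)
    (by linarith) b1 hL
  have q3 : b / 20 * ‖X‖ ^ 2 ≤ (bu + 2 * s * b + b * (k - 1) - s ^ 2) * ‖X‖ ^ 2 := by
    gcongr; nlinarith [h.h3]
  have q4 := sq_nonneg (l - 264 * (CH * tt v x))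
  have q6 : 1 / 2 * (CH * tt v x) ^ 2 ≤ b * (CH * tt v x) ^ 2 := by gcongr
  have q7 := sq_nonneg (CH * tt v x)
  rw [hh1_eq, hh2_eq]
  generalize (-(11 / 10 : ℝ)) • L + U = V at *
  have q5 : (1 + ε) * ‖s • X + V‖ ^ 2 + b / 20000 * ‖X‖ ^ 2 + 3 / 400 * l ^ 2 + b * Kp ≤
      ((bu + 2 * s * b + b * (k - 1)) * ‖X‖ ^ 2 + 2 * b * ⟪X, V⟫ - b * P + b * Kp) +
      11 / 10 * ((0 + 2 * s * (6 / 5)) * tf v x X L + 2 * (6 / 5) * tf v x V L +
        6 / 5 * (trc * l ^ 2 - 2 * tf v x L L - CH * tt v x * l)) +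
      (20000 * ‖U‖ ^ 2 + b * P + 350 * CH ^ 2 * (b * tt v x ^ 2)) := by
    linear_combination q + 1 / 1000 * q3 + 1 / 400 * q4 + 350 * q6 + (175 - 264 ^ 2 / 400) * q7
  linear_combination mul_le_mul_of_nonneg_left q5 (sq_nonneg ch) + q1 + q2

/-- the top range -/
theorem alg_top (hv : Sol v) (hε0 : 0 ≤ ε) (hε : ε ≤ 1) (b0 : 0 ≤ b) (b1 : b ≤ 6 / 5) (s0 : 0 ≤ s)
    (s1 : s ≤ 11 / 10) (s2 : s ≤ 2 * b)
    (ha : (1 + ε) * s ^ 2 + b / 100 ≤ bu + 2 * s * b + b * (k - 1) + be)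
    (c0 : 0 ≤ c) (c1 : c ≤ 12 / 5 * b) (cu1 : |cu| ≤ 24 / 5 * b) (hL : ‖L‖ ≤ l) (hU : ‖U‖ ≤ 20 * l)
    (htr : 0 ≤ trc) :
    ch ^ 2 * ((1 + ε) * ‖s • X + ((-(11 / 10 : ℝ)) • L + U)‖ ^ 2 + b / 40000 * ‖X‖ ^ 2 + b * Kp) ≤
      hh1 X ((-(11 / 10 : ℝ)) • L + U) (chd • (gT - sg • ∇ (dd v) x)) ch b bu s
          (-P + (k - 1) * ‖X‖ ^ 2 + Kp) +
        11 / 10 * hh2 v x X ((-(11 / 10 : ℝ)) • L + U) (chd • (gT - sg • ∇ (dd v) x)) L ch c cu s
          (trc * l ^ 2 - 2 * tf v x L L - CH * tt v x * l) +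
        (ch ^ 2 * (b * P + 350 * CH ^ 2 * (b * tt v x ^ 2) + be * ‖X‖ ^ 2 + 4000000 * l ^ 2) +
          60000 * b * chd ^ 2 * ‖gT‖ ^ 2 + b * (2 * ch * chd * (sg * ⟪∇ (dd v) x, X⟫))) := by
  have t0 := hv.tt_nonneg x
  have l0 : 0 ≤ l := (norm_nonneg _).trans hL
  have q1 := cross1 (X := X) (gT := gT) (ch := ch) (chd := chd) b0
  have q2 := cross2 (x := x) (gT := gT) (ch := ch) (chd := chd) hv c0 c1 b1 hL
  have hV : ‖(-(11 / 10 : ℝ)) • L + U‖ ≤ 22 * l := by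
    refine (norm_add_le _ _).trans ?_
    rw [norm_smul, norm_neg, Real.norm_of_nonneg (by norm_num)]; linarith
  rw [hh1_eq, hh2_eq]
  generalize (-(11 / 10 : ℝ)) • L + U = V at *
  rw [norm_add_sq_real, norm_smul, mul_pow, Real.norm_eq_abs, sq_abs, real_inner_smul_left]
  have X0 := norm_nonneg X
  have c2 : c ≤ 3 := by linarith
  have a1 : (1 + ε) * ‖V‖ ^ 2 ≤ 2 * (22 * l) ^ 2 := by gcongr; linarith
  have a2 := mul_le_mul_of_nonneg_right ha (sq_nonneg ‖X‖)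
  have a3 : |(2 * b - 2 * (1 + ε) * s) * ⟪X, V⟫| ≤ 10 * b * (‖X‖ * (22 * l)) := by
    rw [abs_mul]
    gcongr
    · exact abs_le.2 ⟨by nlinarith, by nlinarith⟩
    · exact (abs_real_inner_le_norm _ _).trans (by gcongr)
  have a4 : |(cu + 2 * s * c) * tf v x X L| ≤ 11 * b * (2 * (‖X‖ * l)) := by
    rw [abs_mul]
    gcongr
    · refine (abs_add_le _ _).trans ?_
      rw [abs_of_nonneg (by positivity : 0 ≤ 2 * s * c)]
      nlinarith
    · exact (abs_tf_le hv x X L).trans (by gcongr)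
  have a5 : |2 * c * tf v x V L| ≤ 2 * 3 * (2 * (22 * l * l)) := by
    rw [abs_mul, abs_of_nonneg (by positivity)]
    gcongr
    exact (abs_tf_le hv x V L).trans (by gcongr)
  have a6 : |c * tf v x L L| ≤ 3 * (2 * (l * l)) := by
    rw [abs_mul, abs_of_nonneg c0]
    gcongr
    exact (abs_tf_le hv x L L).trans (by gcongr)
  have a7 : c * (CH * tt v x * l) ≤ 12 / 5 * b * ((CH * tt v x) ^ 2 + l ^ 2) :=
    (mul_le_mul_of_nonneg_left (by nlinarith [sq_nonneg (CH * tt v x - l)]) c0).trans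
      (mul_le_mul_of_nonneg_right c1 (by positivity))
  have a8 : 0 ≤ c * (trc * l ^ 2) := by positivity
  have a9 : 0 ≤ b * (CH * tt v x) ^ 2 := by positivity
  have a10 : b * l ^ 2 ≤ 6 / 5 * l ^ 2 := by gcongr
  have a11 : 0 ≤ b * ‖X‖ ^ 2 := by positivity
  have a12 := mul_nonneg b0 (sq_nonneg (‖X‖ - 24420 * l))
  have q5 : (1 + ε) * (s ^ 2 * ‖X‖ ^ 2 + 2 * (s * ⟪X, V⟫) + ‖V‖ ^ 2) + b / 20000 * ‖X‖ ^ 2 +
      l ^ 2 / 400 + b * Kp ≤
      ((bu + 2 * s * b + b * (k - 1)) * ‖X‖ ^ 2 + 2 * b * ⟪X, V⟫ - b * P + b * Kp) +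
      11 / 10 * ((cu + 2 * s * c) * tf v x X L + 2 * c * tf v x V L +
        c * (trc * l ^ 2 - 2 * tf v x L L - CH * tt v x * l)) +
      (b * P + 350 * CH ^ 2 * (b * tt v x ^ 2) + be * ‖X‖ ^ 2 + 4000000 * l ^ 2) := by
    linear_combination a1 + a2 + (abs_le.1 a3).1 + 11 / 10 * (abs_le.1 a4).1 +
      11 / 10 * (abs_le.1 a5).1 + 11 / 5 * (abs_le.1 a6).2 + 11 / 10 * a7 + 11 / 10 * a8 +
      (350 - 66 / 25) * a9 + (24420 ^ 2 / 200 + 66 / 25) * a10 + (1 / 200 - 1 / 20000) * a11 +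
      1 / 200 * a12 + (4000000 - 968 - 1452 / 5 - 66 / 5 - 1 / 400 -
        6 / 5 * (24420 ^ 2 / 200 + 66 / 25)) * sq_nonneg l
  linear_combination mul_le_mul_of_nonneg_left q5 (sq_nonneg ch) + q1 + q2

end

end Crest.Agent.N067.W
end

-- ▼ part N067/Z/I

/-!
# Row 67, TOP (helper47): the leaves I1, I2, ZG
-/

set_option autoImplicit false
set_option linter.dupNamespace false
set_option linter.unusedSectionVars false

open MeasureTheory Laplacian InnerProductSpace Topology Filter Set Metric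
open scoped RealInnerProductSpace Gradient ContDiff ENNReal

namespace Crest.Agent.N067.M

open Crest.Agent.R077 Crest.Agent.N067.V Crest.Agent.N067.Y

noncomputable section

variable {n : ℕ} {D : Dat n} {μ : Mu} {p : Wp n} {K C1 rs ηt C T2 τ : ℝ} {x : EE n}

theorem Mu.c_lip (μ : Mu) : LocallyLipschitzOn (Ioi 0) μ.c := by
  have h1 : LipschitzWith 1 fun y : ℝ => max 0 (min 1 y) :=
    (LipschitzWith.id.const_min 1).const_max 0
  have h2 : ContDiff ℝ 1 fun U : ℝ => 2 - U / μ.U3 := by fun_prop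
  have h3 : ContDiff ℝ 1 fun y : ℝ => 6 / 5 * y := by fun_prop
  exact (h3.locallyLipschitz.comp (h1.locallyLipschitz.comp h2.locallyLipschitz)).locallyLipschitzOn

theorem Mu.c_mem (μ : Mu) (U : ℝ) : 0 ≤ μ.c U ∧ μ.c U ≤ 6 / 5 := by
  have h1 := le_max_left 0 (min 1 (2 - U / μ.U3))
  have h2 : max 0 (min 1 (2 - U / μ.U3)) ≤ 1 := max_le zero_le_one (min_le_left _ _)
  rw [Mu.c]; constructor <;> linarith

theorem Mu.c_low (h0 : 0 < μ.U3) {U : ℝ} (h : U ≤ μ.U3) : μ.c U = 6 / 5 ∧ μ.cu U = 0 := by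
  have := (div_le_one h0).2 h
  rw [Mu.c, min_eq_left (by linarith), max_eq_right zero_le_one, Mu.cu,
    if_neg fun h1 => h1.1.not_ge h]
  exact ⟨mul_one _, rfl⟩

theorem Mu.c_top (h0 : 0 < μ.U3) {U : ℝ} (h : 2 * μ.U3 ≤ U) : μ.c U = 0 ∧ μ.cu U = 0 := by
  have := (le_div_iff₀ h0).2 h
  rw [Mu.c, max_eq_left (min_le_of_right_le (by linarith)), Mu.cu, if_neg fun h1 => h1.2.not_ge h]
  exact ⟨mul_zero _, rfl⟩

theorem Mu.abs_cu (h0 : 0 < μ.U3) (U : ℝ) : |μ.cu U| ≤ 12 / 5 := by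
  rw [Mu.cu]
  split_ifs with h
  · have h1 := (div_lt_iff₀ h0).2 h.2
    have h2 := div_pos (h0.trans h.1) h0
    exact abs_le.2 ⟨by linarith, by linarith⟩
  · norm_num

theorem Mu.c_der (h0 : 0 < μ.U3) {U : ℝ} (hU : 0 < U) (h : U ∉ ({μ.U3, 2 * μ.U3} : Set ℝ)) :
    HasDerivAt μ.c (μ.cu U / U) U := by
  simp only [mem_insert_iff, mem_singleton_iff, not_or] at h
  rcases lt_or_gt_of_ne h.1 with h1 | h1
  · rw [(Mu.c_low h0 h1.le).2, zero_div]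
    exact (hasDerivAt_const U (6 / 5 : ℝ)).congr_of_eventuallyEq
      ((eventually_lt_nhds h1).mono fun y hy => (Mu.c_low h0 hy.le).1)
  rcases lt_or_gt_of_ne h.2 with h2 | h2
  · have e : μ.c =ᶠ[𝓝 U] fun y => 6 / 5 * (2 - y / μ.U3) := by
      filter_upwards [eventually_gt_nhds h1, eventually_lt_nhds h2] with y a b
      have a1 := (one_lt_div h0).2 a
      have b1 := (div_lt_iff₀ h0).2 b
      rw [Mu.c, min_eq_right (by linarith), max_eq_right (by linarith)]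
    refine ((((hasDerivAt_id' U).div_const μ.U3).const_sub 2).const_mul
      (6 / 5)).congr_of_eventuallyEq e |>.congr_deriv ?_
    rw [Mu.cu, if_pos ⟨h1, h2⟩]
    field_simp
  · rw [(Mu.c_top h0 h2.le).2, zero_div]
    exact (hasDerivAt_const U (0 : ℝ)).congr_of_eventuallyEq
      ((eventually_gt_nhds h2).mono fun y hy => (Mu.c_top h0 hy.le).1)

/-- the gradient of the cut -/
def Dat.gC (D : Dat n) (x : EE n) : EE n :=
  D.chd x • (∇ D.Th x - (SignType.sign (dd D.v x) : ℝ) • ∇ (dd D.v) x)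

theorem Dat.ch_zero (h : D.Th x + 1 < |dd D.v x|) : D.ch x = 0 :=
  Real.smoothTransition.zero_of_nonpos (by linarith)

theorem Dat.ch_one (h : |dd D.v x| ≤ D.Th x) : D.ch x = 1 :=
  Real.smoothTransition.one_of_one_le (by linarith)

theorem Dat.chd_zero (h : |dd D.v x| < D.Th x) : D.chd x = 0 := by
  rw [Dat.chd, (show Real.smoothTransition =ᶠ[𝓝 (1 - (|dd D.v x| - D.Th x))] fun _ => 1 from
    (eventually_gt_nhds (by linarith)).mono
      fun z hz => Real.smoothTransition.one_of_one_le hz.le).deriv_eq, deriv_const]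

namespace Ex

variable (E : Ex D μ p K C1 rs ηt C T2 τ)
include E

theorem out : W.BrOut D μ.kap ep ηt C et := by
  refine W.Br.out (H := HH D.h) (H1 := HH1 D.hd) (H2 := μ.H2) ⟨E.bas, E.ok.k0, ?_, E.sp, E.sm,
    fun _ _ => rfl, fun _ _ => rfl, E.des.mhd, E.des.des, ?_, ?_, ?_, E.des.mkap, ⟨2, E.des.bkap⟩,
    fun a b ha hb => E.hk ▸ E.des.kato a ha b hb⟩ (by nlinarith [E.ok.f1, E.ok.rm]) <;>
  simp only [E.hk, k0, ep, et] <;> norm_num

theorem U3_pos : 0 < μ.U3 := (div_pos (by norm_num) (one_pos.trans_le E.ok.f1)).trans_le E.des.U3.1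

theorem f0_ge : 4 * D.M ^ 4 ≤ D.f0 := by
  obtain ⟨-, h1, h2⟩ := E.des.U3
  have M0 : 0 < D.M := by linarith [E.hM]
  have h3 := E.U3_pos
  rw [le_div_iff₀ (by positivity)] at h1
  have h4 : (2 * μ.U3 * D.M ^ 2) ^ 2 ≤ 1 := pow_le_one₀ (by positivity) h1
  have h5 : 0 < μ.U3 ^ 2 := by positivity
  refine le_of_mul_le_mul_right ?_ h5
  nlinarith

theorem f0_ge' : 4 * D.M ≤ D.f0 := by
  have := E.hM
  nlinarith [E.f0_ge, pow_le_pow_right₀ (show 1 ≤ D.M by linarith) (show 1 ≤ 4 by norm_num)]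

theorem U_big (hx : x ∈ D.Om) (h : 1 / (2 * D.M) ≤ ph0 D.v x) : 400 / D.M ^ 2 ≤ D.U x := by
  refine le_trans ?_ (E.ok.U_top E.bas E.f0_ge' hx h)
  have := E.hM
  rw [div_le_div_iff₀ (by positivity) (by positivity)]
  nlinarith

theorem W_pos (x : EE n) : 0 < D.W x := E.ok.Wpos x

theorem grad_W (x : EE n) : ∇ D.W x = D.W x • D.VV x := by
  rw [Dat.VV, smul_smul, mul_inv_cancel₀ (E.W_pos x).ne', one_smul]

theorem r0_pos : 0 < p.r0 := by linarith [E.hr.1, E.hr.2.1]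

theorem VV_eq (x : EE n) :
    D.VV x = (-(11 / 10 : ℝ)) • ∇ (H.lr p.I p.x0 p.r0) x + H.V2 p.x0 p.R x := by
  have := (E.W_pos x).ne'
  rw [Dat.VV, E.hW] at *
  rw [H.grad_WW E.r0_pos (E.r0_pos.trans_le E.hr.2.2.1), smul_smul, inv_mul_cancel₀ this, one_smul]

/-- the multipliers -/
theorem mul {f fu : ℝ → ℝ} (lf : LocallyLipschitzOn (Ioi 0) f)
    (df : ∃ N : Set ℝ, N.Countable ∧ ∀ U, 0 < U → U ∉ N → HasDerivAt f (fu U / U) U)
    (bf : ∀ U, 0 < U → 0 ≤ f U ∧ f U ≤ 6 / 5 ∧ |fu U| ≤ 3)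
    (zf : ∀ U, 400 / D.M ^ 2 ≤ U → f U = 0) : ∃ (S : Set (EE n)) (w m : EE n → ℝ),
    W.Dom D.Om S w m ∧ (∀ x ∈ D.Om, m x = D.Z x ^ 2 * D.W x ^ 2 * (f (D.U x) * D.ch x ^ 2)) ∧
    ∀ᵐ x, x ∈ D.Om → ∇ m x = (D.Z x ^ 2 * D.W x ^ 2) •
      (((fu (D.U x) + 2 * μ.s (D.U x) * f (D.U x)) * D.ch x ^ 2) • D.XX x +
        (2 * f (D.U x) * D.ch x ^ 2) • D.VV x + (2 * f (D.U x) * D.ch x) • D.gC x) := by
  have B := E.bas
  have O := E.out
  have lT : LocallyLipschitzOn D.Om D.Th := ll_of_contDiffAt fun _ _ => E.th.cd.contDiffAt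
  have gc : ∀ᵐ x, x ∈ D.Om → ∇ D.ch x = D.gC x := W.grad_cut B.sol B.op lT
  obtain ⟨A, hA⟩ := O.bd
  obtain ⟨A1, A10, hA1⟩ := W.exists_deriv_ST
  obtain ⟨A2, hA2⟩ := E.th.bd
  obtain ⟨N, hN, df⟩ := df
  obtain ⟨N', hN', dz⟩ := E.des.der
  have K1 := E.ok.K1
  have M : W.Mul D.Om {x | |dd D.v x| ≤ D.Th x + 1 ∧ ph0 D.v x ≤ 1 / (2 * D.M)} (Ioi 0)
      (fun U => f U * D.ζ U ^ 2) (fun U => (fu U + 2 * μ.s U * f U) * D.ζ U ^ 2 / U) D.U D.W D.ch
      (2 + K + 6 * |A| + A1 * (|A2| + 1)) := by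
    have a0 := abs_nonneg A
    have a1 : 0 ≤ A1 * (|A2| + 1) := by positivity
    refine ⟨B.op, (isClosed_le B.sol.dd_sm.continuous.abs
      (E.th.cd.continuous.add continuous_const)).inter
      (isClosed_le (continuous_ph0 B.sol) continuous_const), fun x hx => E.th.supp x hx.2 hx.1,
      O.lU, O.pos, ?_, ⟨N ∪ N', hN.union hN', fun U hU h => ?_⟩,
      fun U hU => mul_nonneg (bf U hU).1 (sq_nonneg _), E.ok.Wcd, ?_, fun x => ?_,
      W.lip_cut B.sol lT, fun x => W.abs_cut _, fun x hx h => ?_, fun x hx => ?_, ?_⟩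
    · intro U hU
      obtain ⟨K1, t1, ht1, h1⟩ := lf hU
      obtain ⟨K2, t2, ht2, h2⟩ := E.des.lip.1 hU
      obtain ⟨K3, t3, ht3, h3⟩ := (show ContDiffAt ℝ 1 (fun z : ℝ × ℝ => z.1 * z.2 ^ 2)
        (f U, D.ζ U) by fun_prop).exists_lipschitzOnWith
      have c : ContinuousWithinAt (fun U => (f U, D.ζ U)) (Ioi 0) U :=
        (lf.continuousOn U hU).prodMk (E.des.lip.1.continuousOn U hU)
      exact ⟨_, (t1 ∩ t2) ∩ (fun U => (f U, D.ζ U)) ⁻¹' t3, inter_mem (inter_mem ht1 ht2) (c ht3),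
        h3.comp (((h1.mono inter_subset_left).prodMk (h2.mono inter_subset_right)).mono
          inter_subset_left) fun _ hy => hy.2⟩
    · have := (df U hU fun h1 => h (Or.inl h1)).fun_mul
        ((dz U hU fun h1 => h (Or.inr h1)).1.fun_pow 2)
      refine this.congr_deriv ?_
      push_cast; ring
    · rw [E.hW]
      exact H.integrable_WW_sq E.n9 (by norm_num) (E.hr.1.trans E.hr.2.1)
        (by linarith [E.hr.1, E.hr.2.1, E.hr.2.2.1])
    · have h1 := E.ok.lwpos x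
      have h2 : D.lw x ≤ 1 := h1.2.trans ((div_le_one (by linarith [E.hr.1])).2 E.hr.1)
      rw [abs_of_pos (E.W_pos x)]
      exact (E.ok.Wlip x).trans (mul_le_mul_of_nonneg_right (by nlinarith) (E.W_pos x).le)
    · by_cases h1 : |dd D.v x| ≤ D.Th x + 1
      · rw [zf _ (E.U_big hx (not_le.1 fun h2 => h ⟨h1, h2⟩).le), zero_mul, zero_mul]
      · rw [Dat.ch_zero (not_le.1 h1), mul_zero]
    · have h0 := O.pos x (E.th.supp x hx.2 hx.1)
      have h1 := E.ok.zbd _ h0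
      have h2 : D.ζ (D.U x) ^ 2 ≤ 1 := pow_le_one₀ h1.1.le h1.2
      nlinarith [bf _ h0]
    · filter_upwards [hA, O.gU, gc] with x h1 h2 h3 hx
      have hx' := E.th.supp x hx.2 hx.1
      have h0 := O.pos x hx'
      constructor
      · have z1 := E.ok.zbd _ h0
        have z2 : D.ζ (D.U x) ^ 2 ≤ 1 := pow_le_one₀ z1.1.le z1.2
        obtain ⟨b1, b2, b3⟩ := bf _ h0
        obtain ⟨s1, s2, -⟩ := E.des.bd _ h0
        have b4 : |fu (D.U x) + 2 * μ.s (D.U x) * f (D.U x)| ≤ 6 := by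
          refine (abs_add_le _ _).trans ?_
          rw [abs_of_nonneg (by positivity : 0 ≤ 2 * μ.s (D.U x) * f (D.U x))]
          nlinarith
        rw [h2 hx', norm_smul, Real.norm_of_nonneg h0.le, abs_div, abs_of_pos h0, ← mul_assoc,
          div_mul_cancel₀ _ h0.ne', abs_mul, abs_of_nonneg (sq_nonneg (D.ζ _))]
        have b5 : |fu (D.U x) + 2 * μ.s (D.U x) * f (D.U x)| * D.ζ (D.U x) ^ 2 *
            ‖∇ (W.uD D) x‖ ≤ 6 * 1 * |A| := by
          gcongr; exact (h1 hx').1.trans (le_abs_self A)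
        linarith
      · have b1 : ‖∇ D.Th x - (SignType.sign (dd D.v x) : ℝ) • ∇ (dd D.v) x‖ ≤ |A2| + 1 := by
          refine (norm_sub_le _ _).trans (add_le_add ((hA2 x ⟨hx', hx.1⟩).trans (le_abs_self _)) ?_)
          rw [norm_smul]
          exact mul_le_one₀ (by rcases SignType.sign (dd D.v x) with _ | _ | _ <;> simp)
            (norm_nonneg _) (B.sol.norm_grad_dd_le x)
        rw [h3 hx', Dat.gC, norm_smul]
        have b2 : ‖D.chd x‖ ≤ A1 := hA1 _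
        linarith [mul_le_mul b2 b1 (norm_nonneg _) A10]
  refine ⟨_, _, _, M.dom, fun x hx => ?_, ?_⟩
  · rw [W.mm_of_mem hx, E.ok.Z_eq B hx]; ring
  · filter_upwards [M.grad, O.gU, gc] with x h1 h2 h3 hx
    have h0 := (O.pos x hx).ne'
    rw [h1 hx, h2 hx, h3 hx, E.grad_W, E.ok.Z_eq B hx, Dat.XX]
    simp only [smul_add, smul_smul]
    congr 2 <;> [congr 1; skip; skip] <;> field_simp

theorem h1_eq (hx : x ∈ D.Om) : D.h1 μ ηt C x = D.dens x * W.hh1 (D.XX x) (D.VV x) (D.gC x) (D.ch x)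
    (μ.b (D.U x)) (μ.bu (D.U x)) (μ.s (D.U x)) (W.GD D μ.kap ep ηt C et x) := by
  rw [Dat.h1, indicator_of_mem hx, W.hh1, Dat.gC, nn]
  simp only [inner_add_right, inner_sub_right, real_inner_smul_right, real_inner_self_eq_norm_sq,
    real_inner_comm (D.XX x) (∇ (dd D.v) x)]
  ring

theorem h2_eq (hx : x ∈ D.Om) (Ce : ℝ) : D.h2 μ p Ce x = D.dens x * W.hh2 D.v x (D.XX x) (D.VV x)
    (D.gC x) (∇ (H.lr p.I p.x0 p.r0) x) (D.ch x) (μ.c (D.U x)) (μ.cu (D.U x)) (μ.s (D.U x))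
    (H.trT D.v p.I x / rh p.I p.x0 p.r0 x ^ 2 -
      2 * H.tf D.v x (∇ (H.lr p.I p.x0 p.r0) x) (∇ (H.lr p.I p.x0 p.r0) x) -
      Ce * tt D.v x / rh p.I p.x0 p.r0 x) := by
  rw [Dat.h2, indicator_of_mem hx, Dat.gC, W.hh2_eq, H.tf_add, H.tf_smul, H.tf_smul]

end Ex

theorem i1S (n : ℕ) : I1Stmt n := fun D μ p K C1 rs ηt C T2 τ E => by
  obtain ⟨N, hN, h⟩ := E.des.der
  obtain ⟨S, w, m, h1, h2, h3⟩ := E.mul E.des.lip.2 ⟨N, hN, fun U a b => (h U a b).2⟩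
    (fun U a => let ⟨_, _, b, c, d⟩ := E.des.bd U a; ⟨b, c, by linarith⟩) E.des.btop
  obtain ⟨h4, h5⟩ := E.out.i1 E.bas.sol h1
  have e : (fun x => psi D.v x ^ 2 * (m x * W.GD D μ.kap ep ηt C et x + ⟪∇ (W.uD D) x, ∇ m x⟫))
      =ᵐ[volume] D.h1 μ ηt C := by
    filter_upwards [h3] with x h3
    by_cases hx : x ∈ D.Om
    · rw [E.h1_eq hx, h2 x hx, h3 hx, real_inner_smul_right, W.hh1, Dat.dens, Dat.XX]; ring
    · have := fun h => hx (h1.sub h)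
      rw [Dat.h1, indicator_of_notMem hx, h1.zero x this, h1.grad_zero this]; simp
  exact ⟨h4.congr e, (integral_congr_ae e).symm.trans_le h5⟩

theorem i2S (n : ℕ) : I2Stmt n := by
  obtain ⟨Ce, C0, hC⟩ := W.dom_hardyT n
  refine ⟨Ce, C0, fun D μ p K C1 rs ηt C T2 τ E => ?_⟩
  have u0 := E.U3_pos
  obtain ⟨S, w, m, h1, h2, h3⟩ := E.mul μ.c_lip (fu := μ.cu)
    ⟨_, (Set.toFinite {μ.U3, 2 * μ.U3}).countable, fun U a b => Mu.c_der u0 a b⟩
    (fun U _ => ⟨(μ.c_mem U).1, (μ.c_mem U).2, by linarith [Mu.abs_cu u0 U]⟩)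
    fun U a => (Mu.c_top u0 (E.des.U3.2.1.trans (le_trans (by gcongr; norm_num) a))).1
  obtain ⟨h4, h5⟩ := hC p.I p.x0 p.r0 D.v w m _ S E.bas.sol E.r0_pos h1
  refine (fun e : _ =ᵐ[volume] D.h2 μ p Ce =>
    ⟨h4.congr e, (integral_congr_ae e).symm.trans_le h5⟩) ?_
  filter_upwards [h3] with x h3
  by_cases hx : x ∈ D.Om
  · rw [E.h2_eq hx, h2 x hx, h3 hx, H.tf_smul, W.hh2, Dat.dens]; ring
  · have := fun h => hx (h1.sub h)
    rw [Dat.h2, indicator_of_notMem hx, h1.zero x this, h1.grad_zero this]; simp [H.tf]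

theorem zgS (n : ℕ) : ZGStmt n := fun D μ p K C1 rs ηt C T2 τ E => by
  have B := E.bas
  have O := E.out
  obtain ⟨N, hN, h⟩ := E.des.der
  filter_upwards [W.ae_grad_comp B.op O.lU O.pos E.des.lip.1 hN fun U a b => (h U a b).1,
    ae_diff B.op (W.ll_comp' O.lU O.pos E.des.lip.1), O.gU] with x h1 h2 h3 hd
  refine ⟨fun hx => ?_, fun hx => grad_congr ?_⟩
  · have e : D.zz =ᶠ[𝓝 x] fun y => D.ζ (D.U y) * D.W y := by
      filter_upwards [B.op.mem_nhds hx] with y hy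
      rw [Dat.zz, E.ok.Z_eq B hy]
    have h0 := (O.pos x hx).ne'
    rw [grad_congr e, grad_mul (h2 hx) (E.ok.Wcd.differentiable (by simp) x), h1 hx, h3 hx,
      E.grad_W, Dat.zz, E.ok.Z_eq B hx, Dat.XX]
    simp only [smul_add, smul_smul]
    congr 2
    field_simp
  · have h4 : 1 / (2 * D.M) < ph0 D.v x :=
      not_le.1 fun h5 => hx (E.th.supp x h5 (by linarith [E.th.lo x]))
    filter_upwards [(continuous_ph0 B.sol).continuousAt.eventually (eventually_gt_nhds h4)] with y hy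
    rw [Dat.zz, E.ok.Z_top B E.f0_ge' hy.le, one_mul]

end

end Crest.Agent.N067.M
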